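import Vale.Agent.P219.Bend.Defs
import Vale.Agent.P219.Sharp.Tree

/-!
# P219: curvature at most `-b ^ 2`, the pins
-/

noncomputable section

open MeasureTheory ProbabilityTheory Set Filter Topology Matrix

namespace Vale.Agent.P219.CH.Bend

open Sharp

/-- Centres for the Klein coordinates. -/
def NetPinB (n : ℕ) : Prop :=
  ∀ (G : (Fin n → ℝ) → Matrix (Fin n) (Fin n) ℝ) (D : (Fin n → ℝ) → (Fin n → ℝ) → ℝ),
    IsCH G D → ∀ (b : ℝ) (o : Fin n → ℝ) (R κ : ℝ), 0 < R → 0 < κ →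
    ∃ N : Set (Fin n → ℝ), N.Finite ∧ o ∈ N ∧ (∀ c ∈ N, D o c ≤ R) ∧
      ∀ (μ : Measure (Fin n → ℝ)) [IsFiniteMeasure μ] (W : (Fin n → ℝ) → ℝ),
        (∀ᵐ y ∂μ, D o y ≤ R) → PosOn {y | D o y ≤ R} W → 0 < ∫ y, W y ∂μ →
        ∃ c ∈ N, ∀ k, |∫ y, W y * bucoord G D b c y k ∂μ| ≤ κ * ∫ y, W y ∂μ

/-- Pulling a competitor back along `W` times the gradient of the potential. -/
def WeightVarPinB (n : ℕ) : Prop :=
  2 ≤ n → ∀ (G : (Fin n → ℝ) → Matrix (Fin n) (Fin n) ℝ)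
    (D : (Fin n → ℝ) → (Fin n → ℝ) → ℝ), IsCH G D → ∀ b : ℝ, BendCH G D b →
    ∀ (o : Fin n → ℝ) (R : ℝ) (c : Fin n → ℝ) (W : (Fin n → ℝ) → ℝ) (e : ℝ), 0 < R → D o c ≤ R →
      ContDiff ℝ 1 W → (∀ y, D o y ≤ R + 1 → 0 < W y) → 0 < e →
    ∃ τ C : ℝ, 0 < τ ∧ 0 ≤ C ∧ ∀ t u, 0 < t → t ≤ τ → Comp {y | D o y ≤ R} u →
      ∃ u', Comp {y | D o y ≤ R} u' ∧
        per G u' ≤ per G u - t * (∫ y, varB G D b c W y (cd u y) * dens G y) + t * e * per G u ∧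
        vol G u - t * (∫ y, |kfac b (D c y) * normalPart G D c u y| * W y * dens G y)
            - t * e * per G u ≤ vol G u' ∧
        gap G u' ≤ (1 + C * t) * gap G u

/-- The entropy gain along the Klein channel at almost minimisers. With `γ = 1 / s ^ 2`, `X` twice
the mean entropy drop and `m = n - 1`: `H + m γ - m b ^ 2 X ≤ H exp (X / m)`. -/
def GainPinB (n : ℕ) : Prop :=
  2 ≤ n → ∀ (G : (Fin n → ℝ) → Matrix (Fin n) (Fin n) ℝ)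
    (D : (Fin n → ℝ) → (Fin n → ℝ) → ℝ), IsCH G D → ∀ b : ℝ, BendCH G D b →
    ∀ (o : Fin n → ℝ) (R P₀ v₀ M θ s e η : ℝ) (Φ h : ℝ → ℝ), 0 < R → 0 ≤ P₀ → 0 < v₀ →
      IsProfile Φ h → 0 ≤ M → 1 < θ → 0 < s → 0 < e → 0 < η →
    ∃ κ : ℝ, 0 < κ ∧ ∃ J₀ : ℕ, ∀ J, J₀ ≤ J → ∀ N : Set (Fin n → ℝ), N.Finite →
      (∀ c ∈ N, D o c ≤ R) →
      ∃ δ₀ : ℝ, 0 < δ₀ ∧ ∀ u, NearMinP G D o R P₀ v₀ Φ M δ₀ u → 0 < per G u →
        ∀ ctr : ((Fin n → ℝ) → ℝ) → (Fin n → ℝ), (∀ W, ctr W ∈ N) →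
          (∀ W, ContinuousOn W {y | D o y ≤ R} → (∀ y, D o y ≤ R → 0 < W y) →
            ∀ k, |∫ y, W y * bucoord G D b (ctr W) y k ∂pm G u| ≤ κ * ∫ y, W y ∂pm G u) →
          (∀ H : ℝ, η ≤ H →
            (θ * h (vol G u)) ^ 2 - b ^ 2 * (((n : ℝ) - 1) ^ 2 - 2 * ((n : ℝ) - 1)) ≤ H →
            ∀ X : ℝ, 2 * ((per G u * Real.log (per G u) + e -
                chanAvg ctr (bstep G D b (1 / (s ^ 2 * J))) J (ent (pm G u)) (fun _ => 1)) /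
                  per G u) ≤ X →
            H + ((n : ℝ) - 1) / s ^ 2 - ((n : ℝ) - 1) * b ^ 2 * X ≤
              H * Real.exp (X / ((n : ℝ) - 1))) ∧
          (∫ y, centreCostB G D b ctr s J y ∂pm G u) / (2 * s ^ 2)
              + chanAvg ctr (bstep G D b (1 / (s ^ 2 * J))) J (ent (pm G u)) (fun _ => 1) ≤
            per G u * Real.log (per G u) + e

/-- Comparison of the Klein channel with the Gaussian channel of the frozen metric. -/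
def TerminalPinB (n : ℕ) : Prop :=
  2 ≤ n → ∀ (G : (Fin n → ℝ) → Matrix (Fin n) (Fin n) ℝ)
    (D : (Fin n → ℝ) → (Fin n → ℝ) → ℝ), IsCH G D →
    ∀ (b : ℝ) (o : Fin n → ℝ) (R Rb e : ℝ), 0 < R → 1 ≤ Rb → 0 < e →
    ∃ s₁ C : ℝ, 0 < s₁ ∧ 0 ≤ C ∧ ∀ s, 0 < s → s < s₁ → ∃ J₀ : ℕ, ∀ J, J₀ ≤ J →
      ∀ u ctr y, Comp {z | D o z ≤ R} u → (∀ W, D o (ctr W) ≤ R) → D o y ≤ R →
        0 < (pm G u (qball G s Rb y)).toReal →
        crudeLower G D u s y ≤ termAtB G D b u ctr s J y ∧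
        termLower G u s Rb y - e - C * centreCostB G D b ctr s J y ≤ termAtB G D b u ctr s J y

/-- Near minimisers: the Gaussian averages have middle values at most shifted boundary points. -/
def GoodShiftPinP (n : ℕ) : Prop :=
  2 ≤ n → ∀ (G : (Fin n → ℝ) → Matrix (Fin n) (Fin n) ℝ)
    (D : (Fin n → ℝ) → (Fin n → ℝ) → ℝ), IsCH G D →
    ∀ (o : Fin n → ℝ) (R P₀ v₀ M : ℝ) (Φ h : ℝ → ℝ) (q : ℕ) (e : ℝ), 0 < R → 0 ≤ P₀ → 0 < v₀ →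
      IsProfile Φ h → 0 ≤ M → 1 ≤ q → 0 < e →
    ∃ s₀ : ℝ, 0 < s₀ ∧ ∀ s, 0 < s → s < s₀ → ∃ δ₀ : ℝ, 0 < δ₀ ∧
      ∀ u, NearMinP G D o R P₀ v₀ Φ M δ₀ u →
        ∫ y, avg G s (fun z => ltau (s ^ q) (avg G s u z)) y ∂pm G u ≤ 3 * per G u + e

/-- A set below the profile gives almost minimisers which are almost indicators. -/
def MinPinP (n : ℕ) : Prop :=
  2 ≤ n → ∀ (G : (Fin n → ℝ) → Matrix (Fin n) (Fin n) ℝ)
    (D : (Fin n → ℝ) → (Fin n → ℝ) → ℝ), IsCH G D →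
    ∀ (Ω : Set (Fin n → ℝ)) (A : ℝ) (Φ h : ℝ → ℝ), MeasurableSet Ω → Bornology.IsBounded Ω →
    PerimeterLE G Ω A → IsProfile Φ h → A < Φ (volG G Ω) →
    ∀ o : Fin n → ℝ, ∃ R M P₀ v₀ : ℝ, 0 < R ∧ 0 ≤ M ∧ 0 ≤ P₀ ∧ 0 < v₀ ∧
      ∀ δ : ℝ, 0 < δ → ∃ u, NearMinP G D o R P₀ v₀ Φ M δ u ∧ per G u ≤ Φ (vol G u)

/-- The model profiles are profiles. -/
def ModelPin (n : ℕ) : Prop :=
  2 ≤ n → ∀ b l : ℝ, 0 ≤ b → 0 < l → IsProfile (modelProfile n b l) (modelSlope n b l)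

end Vale.Agent.P219.CH.Bend
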