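import Vale.Agent.P219.CH.Min
import Vale.Agent.P219.Bend.Pins

/-!
# P219: almost minimisers for a concave profile are almost indicators

The proof of `CH/Min.lean` with a profile in place of a power of the volume.
-/

noncomputable section

open MeasureTheory Set Filter Topology Matrix

namespace Vale.Agent.P219.CH.Bend

open Sharp

variable {n : ℕ} {G : (Fin n → ℝ) → Matrix (Fin n) (Fin n) ℝ}
  {D : (Fin n → ℝ) → (Fin n → ℝ) → ℝ} {K : Set (Fin n → ℝ)} {ρ : ℝ}

/-- Cutting a competitor at `N` levels. -/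
theorem levelsP (h : IsCH G D) (hρ : 0 < ρ) (hρ' : ρ ≤ 1 / 4) (hK : IsCompact K)
    {u : (Fin n → ℝ) → ℝ} (hu : Comp K u) {N : ℕ} (hN : 0 < N) {J : ℝ} {Φ : ℝ → ℝ} {L M : ℝ} (hL : 0 ≤ L)
    (hM : 0 ≤ M) (hΦ : ∀ W, 0 ≤ W → Φ (vol G u) - L * |vol G u - W| ≤ Φ W)
    (hJ : ∀ w, Comp K w → J ≤ per G w - Φ (vol G w) + M * gap G w) :
    J ≤ slope ρ * per G u - Φ (vol G u) + M * (volG G K / N) +
      L * (2 * gap G u + 2 * (volG G K / N)) := by
  set w : ℕ → (Fin n → ℝ) → ℝ := fun i z => ramp ρ (N * u z - i)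
  have hw : ∀ i, Comp K (w i) := fun i => comp_ramp hρ hρ' hu.1 hu.2.1 _ (Nat.cast_nonneg i)
  have hN0 : (0 : ℝ) < N := by exact_mod_cast hN
  have hKint : Integrable (K.indicator (dens G)) :=
    (h.continuous_dens.continuousOn.integrableOn_compact hK).integrable_indicator hK.measurableSet
  have hKv : ∫ y, K.indicator (dens G) y = volG G K := integral_indicator hK.measurableSet
  have hper : ∑ i ∈ Finset.range N, per G (w i) ≤ N * slope ρ * per G u := by
    have hi := fun i => h.integrable_mul_conorm hK (hw i) (continuous_const (y := (1 : ℝ)))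
    simp only [one_mul] at hi
    unfold per
    rw [← integral_finsetSum _ fun i _ => hi i, ← integral_const_mul]
    refine integral_mono (integrable_finsetSum _ fun i _ => hi i)
      (h.integrable_mul_conorm hK hu continuous_const) fun y => ?_
    simp only [w, fderiv_ramp_comp hu.1, h.conorm_smul, abs_mul, Nat.abs_cast, ← Finset.sum_mul]
    have := (sum_ramp_bounds hρ hρ' N (hu.2.2 y)).2.2
    have hc : 0 ≤ conorm G y (cd u y) * dens G y :=
      mul_nonneg (conorm_nonneg y _) (h.dens_pos y).le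
    nlinarith [mul_le_mul_of_nonneg_left this (mul_nonneg hN0.le hc)]
  have hgap : ∑ i ∈ Finset.range N, gap G (w i) ≤ volG G K := by
    unfold gap
    rw [← integral_finsetSum _ fun i _ => h.integrable_gap hK (hw i), ← hKv]
    refine integral_mono (integrable_finsetSum _ fun i _ => h.integrable_gap hK (hw i)) hKint
      fun y => ?_
    rw [← Finset.sum_mul]
    by_cases hy : y ∈ K
    · rw [Set.indicator_of_mem hy]
      exact mul_le_of_le_one_left (h.dens_pos y).le (sum_ramp_bounds hρ hρ' N (hu.2.2 y)).2.1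
    · rw [Set.indicator_of_notMem hy, Finset.sum_eq_zero fun i _ => by
        rw [image_eq_zero_of_notMem_tsupport fun hs => hy ((hw i).2.1 hs)]; ring, zero_mul]
  have hvol : ∑ i ∈ Finset.range N, |vol G u - vol G (w i)| ≤
      2 * N * gap G u + 2 * volG G K := by
    have hd : ∀ i, Integrable fun y => |w i y - u y| * dens G y := fun i =>
      (((hw i).integrable hK h.continuous_dens).sub (hu.integrable hK h.continuous_dens)).abs.congr
        (Eventually.of_forall fun y => by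
          simp only [Pi.sub_apply, ← sub_mul, abs_mul, abs_of_pos (h.dens_pos y)])
    calc ∑ i ∈ Finset.range N, |vol G u - vol G (w i)|
        ≤ ∑ i ∈ Finset.range N, ∫ y, |w i y - u y| * dens G y := by
          refine Finset.sum_le_sum fun i _ => ?_
          rw [abs_sub_comm, vol, vol, ← integral_sub ((hw i).integrable hK h.continuous_dens)
            (hu.integrable hK h.continuous_dens)]
          refine abs_integral_le_integral_abs.trans (le_of_eq (integral_congr_ae
            (Eventually.of_forall fun y => ?_)))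
          simp only [← sub_mul, abs_mul, abs_of_pos (h.dens_pos y)]
      _ ≤ _ := by
          rw [← integral_finsetSum _ fun i _ => hd i, gap, ← integral_const_mul, ← hKv,
            ← integral_const_mul 2, ← integral_add ((h.integrable_gap hK hu).const_mul _)
              (hKint.const_mul _)]
          refine integral_mono (integrable_finsetSum _ fun i _ => hd i)
            (((h.integrable_gap hK hu).const_mul _).add (hKint.const_mul _)) fun y => ?_
          rw [← Finset.sum_mul]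
          by_cases hy : y ∈ K
          · rw [Set.indicator_of_mem hy]
            have := mul_le_mul_of_nonneg_right (sum_ramp_bounds hρ hρ' N (hu.2.2 y)).1
              (h.dens_pos y).le
            simp only [w]
            linarith
          · have hu0 : u y = 0 := image_eq_zero_of_notMem_tsupport fun hs => hy (hu.2.1 hs)
            rw [Set.indicator_of_notMem hy, Finset.sum_eq_zero fun i _ => by
              rw [hu0, image_eq_zero_of_notMem_tsupport fun hs => hy ((hw i).2.1 hs)]; simp, hu0]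
            simp
  have hsum : ∑ i ∈ Finset.range N, J ≤ ∑ i ∈ Finset.range N, (per G (w i) + M * gap G (w i)
      + L * |vol G u - vol G (w i)| - Φ (vol G u)) := by
    refine Finset.sum_le_sum fun i _ => (hJ _ (hw i)).trans ?_
    linarith [hΦ _ (h.vol_nonneg (hw i).2.2)]
  rw [Finset.sum_sub_distrib, Finset.sum_add_distrib, Finset.sum_add_distrib, ← Finset.mul_sum,
    ← Finset.mul_sum] at hsum
  simp only [Finset.sum_const, Finset.card_range, nsmul_eq_mul] at hsum
  have h1 := mul_le_mul_of_nonneg_left hgap hM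
  have h2 := mul_le_mul_of_nonneg_left hvol hL
  refine le_of_mul_le_mul_left ?_ hN0
  have e : (N : ℝ) * (slope ρ * per G u - Φ (vol G u) + M * (volG G K / N) +
      L * (2 * gap G u + 2 * (volG G K / N))) =
      N * slope ρ * per G u - N * Φ (vol G u) + M * volG G K +
        L * (2 * N * gap G u + 2 * volG G K) := by
    field_simp
  rw [e]
  linarith

/-- Almost minimisers of the functional penalised by a profile. -/
theorem minPinP (n : ℕ) : MinPinP n := by
  intro hn G D h Ω A Φ slo hΩ hΩb hP hΦ hlt o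
  obtain ⟨S, v, hS, hv, hlim, hA⟩ := hP
  have hΦ0 : ∀ V, 0 ≤ V → 0 ≤ Φ V := fun V hV => hΦ.zero ▸ hΦ.mono self_mem_Ici hV hV
  obtain ⟨R, hR, hSK, hΩK⟩ : ∃ R : ℝ, 0 < R ∧ S ⊆ {y | D o y ≤ R} ∧ Ω ⊆ {y | D o y ≤ R} := by
    obtain ⟨B, hB⟩ := (hS.union hΩb.isCompact_closure).bddAbove_image
      ((h.contDiff_D o).continuous.continuousOn)
    exact ⟨max B 1, by positivity,
      fun y hy => (hB ⟨y, Or.inl hy, rfl⟩).trans (le_max_left _ _),
      fun y hy => (hB ⟨y, Or.inr (subset_closure hy), rfl⟩).trans (le_max_left _ _)⟩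
  set K : Set (Fin n → ℝ) := {y | D o y ≤ R} with hKdef
  have hK : IsCompact K := h.proper o R
  have hA0 : 0 ≤ A := (h.per_nonneg (v 0)).trans (hA 0)
  have hΩ0 : 0 ≤ volG G Ω := setIntegral_nonneg hΩ fun y _ => (h.dens_pos y).le
  obtain ⟨b, hb⟩ : ∃ b : ℝ, b = Φ (volG G Ω) - A := ⟨_, rfl⟩
  have hb0 : 0 < b := by linarith
  obtain ⟨v₀, hv₀, hv₀b⟩ : ∃ v₀ : ℝ, 0 < v₀ ∧ ∀ V, 0 ≤ V → V ≤ v₀ → Φ V ≤ b / 8 := by
    obtain ⟨d, hd, hdb⟩ := Metric.continuousWithinAt_iff.1 (hΦ.cont 0 self_mem_Ici) (b / 8)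
      (by positivity)
    refine ⟨d / 2, half_pos hd, fun V hV hVd => ?_⟩
    have h1 := hdb hV (by rw [Real.dist_eq, sub_zero, abs_of_nonneg hV]; linarith)
    rw [Real.dist_eq, hΦ.zero, sub_zero] at h1
    linarith [le_abs_self (Φ V)]
  obtain ⟨L, hLd⟩ : ∃ z : ℝ, z = Φ v₀ / v₀ := ⟨_, rfl⟩
  have hL : 0 ≤ L := hLd ▸ div_nonneg (hΦ0 v₀ hv₀.le) hv₀.le
  have hLip : ∀ V, v₀ ≤ V → ∀ W, 0 ≤ W → Φ V - L * |V - W| ≤ Φ W := fun V hV W hW => by
    rcases le_total V W with hVW | hVW
    · have h1 := hΦ.mono (show 0 ≤ V by linarith) hW hVW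
      have h2 := mul_nonneg hL (abs_nonneg (V - W))
      linarith
    · have hV0 : 0 < V := lt_of_lt_of_le hv₀ hV
      have h1 := hΦ.scale V W hW hVW
      have h2 : Φ V ≤ V * L := by
        have := hΦ.scale V v₀ hv₀.le hV
        rw [hLd, ← mul_div_assoc, le_div_iff₀ hv₀]
        linarith
      rw [abs_of_nonneg (by linarith)]
      refine le_of_mul_le_mul_left ?_ hV0
      linarith [mul_le_mul_of_nonneg_left h2 (by linarith : 0 ≤ V - W)]
  obtain ⟨M, hMd⟩ : ∃ z : ℝ, z = 2 * L + 1 := ⟨_, rfl⟩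
  have hM : 0 < M := by rw [hMd]; positivity
  have hVK : 0 ≤ volG G K := setIntegral_nonneg hK.measurableSet fun y _ => (h.dens_pos y).le
  obtain ⟨P₀, hP₀⟩ : ∃ z : ℝ, z = Φ (volG G K) := ⟨_, rfl⟩
  have hP₀' : 0 ≤ P₀ := hP₀ ▸ hΦ0 _ hVK
  refine ⟨R, M, P₀, v₀, hR, hM.le, hP₀', hv₀, fun δ hδ => ?_⟩
  -- a good competitor
  have hc : ∃ w, Comp K w ∧ per G w - Φ (vol G w) + M * gap G w ≤ -(b / 2) := by
    have hcΦ : Continuous fun η : ℝ => Φ (max (volG G Ω - η) 0) :=
      hΦ.cont.comp_continuous (by fun_prop) fun η => le_max_right (volG G Ω - η) 0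
    have hg : Tendsto (fun η : ℝ => (1 + 4 * η) * A - Φ (max (volG G Ω - η) 0) + M * η)
        (𝓝[>] 0) (𝓝 ((1 + 4 * 0) * A - Φ (max (volG G Ω - 0) 0) + M * 0)) :=
      ((((continuous_const.add (continuous_const.mul continuous_id)).mul continuous_const).sub
        hcΦ).add (continuous_const.mul continuous_id)).tendsto 0 |>.mono_left nhdsWithin_le_nhds
    have hlim0 : (1 + 4 * 0) * A - Φ (max (volG G Ω - 0) 0) + M * 0 < -(b / 2) := by
      rw [sub_zero, max_eq_left hΩ0]; linarith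
    obtain ⟨η, hη, hηpos, hη4⟩ := (((tendsto_order.1 hg).2 _ hlim0).and
      ((eventually_mem_nhdsWithin (s := Ioi (0 : ℝ))).and
        (eventually_nhdsWithin_of_eventually_nhds (eventually_le_nhds (by norm_num : (0:ℝ) < 1/4))))).exists
    obtain ⟨w, hw, hwp, hwg, hwv⟩ := h.exists_competitor hηpos hη4 hK hΩ hΩK hSK hv hlim hA η hηpos
    refine ⟨w, hw, le_trans ?_ hη.le⟩
    have h1 := mul_le_mul_of_nonneg_right (slope_le hηpos hη4) hA0
    have h2 : Φ (max (volG G Ω - η) 0) ≤ Φ (vol G w) := hΦ.mono (show max (volG G Ω - η) 0 ∈ Ici 0 from le_max_right (volG G Ω - η) 0)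
      (h.vol_nonneg hw.2.2) (max_le (by linarith [(abs_le.1 hwv).1]) (h.vol_nonneg hw.2.2))
    have h4 := mul_le_mul_of_nonneg_left hwg hM.le
    linarith
  obtain ⟨w₀, hw₀, hw₀J⟩ := hc
  set J : ((Fin n → ℝ) → ℝ) → ℝ := fun w => per G w - Φ (vol G w) + M * gap G w
  set Z := J '' {w | Comp K w}
  have hne : Z.Nonempty := ⟨J w₀, w₀, hw₀, rfl⟩
  have hbdd : BddBelow Z := ⟨-P₀, by
    rintro z ⟨w, hw, rfl⟩
    have h1 := hΦ.mono (h.vol_nonneg hw.2.2) hVK (h.vol_le hK hw)
    have h2 := mul_nonneg hM.le (h.gap_nonneg hw.2.2)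
    have h3 := h.per_nonneg w
    simp only [J]; rw [hP₀]; linarith⟩
  obtain ⟨δ₁, hδ₁d⟩ : ∃ z : ℝ, z = min δ (min (δ / 4) (b / 4)) := ⟨_, rfl⟩
  have hδ₁ : 0 < δ₁ := by rw [hδ₁d]; positivity
  obtain ⟨z, ⟨u, hu, rfl⟩, hz⟩ := Real.lt_sInf_add_pos hne hδ₁
  have hopt : ∀ w, Comp K w → J u ≤ J w + δ₁ := fun w hw => by
    linarith [csInf_le hbdd (⟨w, hw, rfl⟩ : J w ∈ Z)]
  have hgap0 := h.gap_nonneg (G := G) hu.2.2
  have hper0 := h.per_nonneg u
  have hMg := mul_nonneg hM.le hgap0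
  have hd1 : δ₁ ≤ δ ∧ δ₁ ≤ δ / 4 ∧ δ₁ ≤ b / 4 := by
    rw [hδ₁d]
    exact ⟨min_le_left _ _, (min_le_right _ _).trans (min_le_left _ _),
      (min_le_right _ _).trans (min_le_right _ _)⟩
  have hJu : per G u - Φ (vol G u) + M * gap G u ≤ -(b / 4) := by
    have := hopt w₀ hw₀
    simp only [J] at this
    linarith
  have hVu : v₀ ≤ vol G u := by
    by_contra hc
    have := hv₀b _ (h.vol_nonneg hu.2.2) (not_le.1 hc).le
    linarith
  have hPV : per G u ≤ Φ (vol G u) := by linarith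
  have hPu : per G u ≤ P₀ := by
    rw [hP₀]
    exact hPV.trans (hΦ.mono (h.vol_nonneg hu.2.2) hVK (h.vol_le hK hu))
  refine ⟨u, ⟨hu, hPu, hVu, ?_, fun w hw => (hopt w hw).trans (by simp only [J]; linarith)⟩, hPV⟩
  -- almost an indicator
  obtain ⟨ρ, hρ, hρ', hρP⟩ : ∃ ρ : ℝ, 0 < ρ ∧ ρ ≤ 1 / 4 ∧ 4 * ρ * P₀ ≤ δ / 4 := by
    refine ⟨min (1 / 4) (δ / (16 * (P₀ + 1))), lt_min (by norm_num) (by positivity),
      min_le_left _ _, ?_⟩
    have h1 := (le_div_iff₀ (by positivity)).1 (min_le_right (1 / 4 : ℝ) (δ / (16 * (P₀ + 1))))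
    nlinarith [lt_min (by norm_num : (0:ℝ) < 1/4) (by positivity : (0:ℝ) < δ / (16 * (P₀ + 1)))]
  obtain ⟨N, hN⟩ := exists_nat_gt ((M + 2 * L) * volG G K / (δ / 4))
  have hN0' : 0 < (N : ℝ) := lt_of_le_of_lt (by positivity) hN
  have hN0 : 0 < N := by exact_mod_cast hN0'
  have hlev := levelsP h hρ hρ' hK hu hN0 (J := J u - δ₁) (Φ := Φ) hL hM.le (hLip _ hVu)
    fun w hw => by linarith [hopt w hw]
  simp only [J] at hlev
  have hq : (M + 2 * L) * (volG G K / N) ≤ δ / 4 := by
    rw [← mul_div_assoc, div_le_iff₀ hN0']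
    rw [div_lt_iff₀ (by positivity)] at hN
    linarith
  have hs : slope ρ * per G u ≤ per G u + δ / 4 := by
    have := mul_le_mul_of_nonneg_right (slope_le hρ hρ') hper0
    have := mul_le_mul_of_nonneg_left hPu (by linarith : (0:ℝ) ≤ 4 * ρ)
    linarith
  have e : M * gap G u - L * (2 * gap G u) = gap G u := by rw [hMd]; ring
  linarith

end Vale.Agent.P219.CH.Bend
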