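import Vale.Agent.P219.Bend.Pins

/-!
# P219: the profile of the space form of curvature `-b ^ 2` is concave
-/

noncomputable section

open MeasureTheory Set Filter Topology

namespace Vale.Agent.P219.CH.Bend

variable {n : ℕ} {b : ℝ}

lemma sn_sub (b r w : ℝ) :
    sn b (r - w) = sn b r * Real.cosh (b * w) - Real.cosh (b * r) * sn b w := by
  by_cases hb : b = 0
  · simp [sn, hb]
  · simp only [sn, if_neg hb, mul_sub, Real.sinh_sub]
    ring

lemma sn_pos (b : ℝ) {r : ℝ} (hr : 0 < r) : 0 < sn b r := hr.trans_le (le_sn b hr.le)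

lemma sn_monotoneOn (b : ℝ) : MonotoneOn (sn b) (Ici 0) :=
  monotoneOn_of_hasDerivWithinAt_nonneg (convex_Ici 0) (continuous_sn b).continuousOn
    (fun t _ => (hasDerivAt_sn b t).hasDerivWithinAt) fun t _ => (Real.cosh_pos _).le

/-! ## The radius of a volume -/

lemma modelRad_spec (hn : 1 ≤ n) (b : ℝ) {q : ℝ} (hq : 0 ≤ q) :
    0 ≤ modelRad n b q ∧ modelVol n b (modelRad n b q) = q := by
  obtain ⟨r, hr, he⟩ := exists_modelVol_eq hn b hq
  have hex : ∃ a ∈ Ici (0 : ℝ), modelVol n b a = q := ⟨r, hr, he⟩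
  exact ⟨Function.invFunOn_mem hex, Function.invFunOn_eq hex⟩

lemma modelVol_nonneg (hn : 1 ≤ n) (b : ℝ) {r : ℝ} (hr : 0 ≤ r) : 0 ≤ modelVol n b r :=
  (pow_nonneg hr n).trans (pow_le_modelVol hn b hr)

lemma modelRad_modelVol (hn : 1 ≤ n) (b : ℝ) {r : ℝ} (hr : 0 ≤ r) :
    modelRad n b (modelVol n b r) = r :=
  have h := modelRad_spec hn b (modelVol_nonneg hn b hr)
  (strictMonoOn_modelVol hn b).injOn h.1 hr h.2

lemma modelRad_zero (hn : 1 ≤ n) (b : ℝ) : modelRad n b 0 = 0 := by
  simpa [modelVol_zero] using modelRad_modelVol hn b le_rfl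

lemma modelRad_mono (hn : 1 ≤ n) (b : ℝ) {p q : ℝ} (hp : 0 ≤ p) (hpq : p ≤ q) :
    modelRad n b p ≤ modelRad n b q := by
  obtain ⟨hp1, hp2⟩ := modelRad_spec hn b hp
  obtain ⟨hq1, hq2⟩ := modelRad_spec hn b (hp.trans hpq)
  exact ((strictMonoOn_modelVol hn b).le_iff_le hp1 hq1).1 (by rw [hp2, hq2]; exact hpq)

lemma modelRad_pos (hn : 1 ≤ n) (b : ℝ) {q : ℝ} (hq : 0 < q) : 0 < modelRad n b q := by
  obtain ⟨h1, h2⟩ := modelRad_spec hn b hq.le
  refine h1.lt_of_ne fun h0 => ?_
  rw [← h0, modelVol_zero] at h2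
  linarith

lemma continuousOn_modelRad (hn : 1 ≤ n) (b : ℝ) : ContinuousOn (modelRad n b) (Ici 0) := by
  set g : ℝ → ℝ := fun q => if q < 0 then q else modelRad n b q
  have hm : Monotone g := fun p q hpq => by
    simp only [g]
    split_ifs with h1 h2 h2
    · exact hpq
    · exact h1.le.trans (modelRad_spec hn b (not_lt.1 h2)).1
    · linarith
    · exact modelRad_mono hn b (not_lt.1 h1) hpq
  have hs : Function.Surjective g := fun r => by
    rcases lt_or_ge r 0 with hr | hr
    · exact ⟨r, by simp [g, hr]⟩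
    · refine ⟨modelVol n b r, ?_⟩
      simp only [g, if_neg (not_lt.2 (modelVol_nonneg hn b hr)), modelRad_modelVol hn b hr]
  exact (hm.continuous_of_surjective hs).continuousOn.congr fun q (hq : 0 ≤ q) => by
    simp [g, not_lt.2 hq]

lemma unitBall_pos (hn : 1 ≤ n) : 0 < unitBall n := by
  have : Nonempty (Fin n) := ⟨⟨0, by omega⟩⟩
  exact ENNReal.toReal_pos (Metric.measure_ball_pos volume _ one_pos).ne' measure_ball_lt_top.ne

/-! ## The two differential inequalities -/

lemma vol_cosh_le (k : ℕ) (b : ℝ) {r : ℝ} (hr : 0 ≤ r) :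
    ((k : ℝ) + 1) * b ^ 2 * modelVol (k + 2) b r ≤ ((k : ℝ) + 2) * (sn b r ^ k * Real.cosh (b * r)) := by
  set F : ℝ → ℝ := fun t => ((k : ℝ) + 2) * (sn b t ^ k * Real.cosh (b * t)) -
    ((k : ℝ) + 1) * b ^ 2 * modelVol (k + 2) b t
  have hd : ∀ t, HasDerivAt F (((k : ℝ) + 2) * (k * sn b t ^ (k - 1) * Real.cosh (b * t) *
      Real.cosh (b * t) + sn b t ^ k * (b ^ 2 * sn b t)) -
      ((k : ℝ) + 1) * b ^ 2 * (((k + 2 : ℕ) : ℝ) * sn b t ^ (k + 2 - 1))) t := fun t =>
    ((((hasDerivAt_sn b t).pow k).mul (hasDerivAt_cosh_sn b t)).const_mul _).sub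
      ((hasDerivAt_modelVol (k + 2) b t).const_mul _)
  have hm : MonotoneOn F (Ici (0 : ℝ)) := by
    refine monotoneOn_of_hasDerivWithinAt_nonneg (convex_Ici 0)
      (fun t _ => (hd t).continuousAt.continuousWithinAt) (fun t _ => (hd t).hasDerivWithinAt)
      fun t ht => ?_
    rw [interior_Ici] at ht
    have hs : 0 < sn b t := sn_pos b ht
    have hkk : (k : ℝ) * sn b t ^ (k - 1) = k * sn b t ^ k / sn b t := by
      rcases Nat.eq_zero_or_pos k with h0 | h0
      · simp [h0]
      · rw [eq_div_iff hs.ne', mul_assoc, ← pow_succ, Nat.sub_add_cancel h0]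
    have hnn : 0 ≤ ((k : ℝ) + 2) * (k * sn b t ^ k / sn b t) := by positivity
    refine le_trans hnn (le_of_eq ?_)
    rw [hkk, show k + 2 - 1 = k + 1 by omega, mul_assoc (k * sn b t ^ k / sn b t), ← sq,
      cosh_sq_sn b t]
    push_cast
    field_simp
    ring
  have h0 := hm self_mem_Ici hr hr
  simp only [F, sn_zero, modelVol_zero, mul_zero, Real.cosh_zero, mul_one, sub_zero] at h0
  have : (0 : ℝ) ≤ ((k : ℝ) + 2) * 0 ^ k := by positivity
  linarith

lemma slope_mul_vol_le (k : ℕ) (b : ℝ) {r : ℝ} (hr : 0 ≤ r) :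
    ((k : ℝ) + 1) * Real.cosh (b * r) * modelVol (k + 2) b r ≤ ((k : ℝ) + 2) * sn b r ^ (k + 2) := by
  set F : ℝ → ℝ := fun t => ((k : ℝ) + 2) * sn b t ^ (k + 2) -
    ((k : ℝ) + 1) * Real.cosh (b * t) * modelVol (k + 2) b t
  have hd : ∀ t, HasDerivAt F (((k : ℝ) + 2) * (((k + 2 : ℕ) : ℝ) * sn b t ^ (k + 2 - 1) *
      Real.cosh (b * t)) - (((k : ℝ) + 1) * (b ^ 2 * sn b t) * modelVol (k + 2) b t +
      ((k : ℝ) + 1) * Real.cosh (b * t) * (((k + 2 : ℕ) : ℝ) * sn b t ^ (k + 2 - 1)))) t := fun t =>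
    (((hasDerivAt_sn b t).pow (k + 2)).const_mul _).sub
      (((hasDerivAt_cosh_sn b t).const_mul _).mul (hasDerivAt_modelVol (k + 2) b t))
  have hm : MonotoneOn F (Ici (0 : ℝ)) := by
    refine monotoneOn_of_hasDerivWithinAt_nonneg (convex_Ici 0)
      (fun t _ => (hd t).continuousAt.continuousWithinAt) (fun t _ => (hd t).hasDerivWithinAt)
      fun t ht => ?_
    rw [interior_Ici] at ht
    have hnn : 0 ≤ sn b t * (((k : ℝ) + 2) * (sn b t ^ k * Real.cosh (b * t)) -
        ((k : ℝ) + 1) * b ^ 2 * modelVol (k + 2) b t) :=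
      mul_nonneg (sn_nonneg b (le_of_lt ht)) (sub_nonneg.2 (vol_cosh_le k b (le_of_lt ht)))
    refine le_trans hnn (le_of_eq ?_)
    rw [show k + 2 - 1 = k + 1 by omega, pow_succ]
    push_cast
    ring
  have h0 := hm self_mem_Ici hr hr
  simp only [F, sn_zero, modelVol_zero, mul_zero, sub_zero, zero_pow (show k + 2 ≠ 0 by omega)] at h0
  linarith

/-- Above `w` the area grows at most at the rate of the slope at `w`. -/
lemma area_step (k : ℕ) (b : ℝ) {w r : ℝ} (hw : 0 < w) (hwr : w ≤ r) :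
    modelArea (k + 2) b r - modelArea (k + 2) b w ≤
      ((k : ℝ) + 1) * Real.cosh (b * w) / sn b w * (modelVol (k + 2) b r - modelVol (k + 2) b w) := by
  set c := ((k : ℝ) + 1) * Real.cosh (b * w) / sn b w with hc
  set F : ℝ → ℝ := fun t => c * modelVol (k + 2) b t - modelArea (k + 2) b t
  have hd : ∀ t, HasDerivAt F (c * (((k + 2 : ℕ) : ℝ) * sn b t ^ (k + 2 - 1)) -
      ((k + 2 : ℕ) : ℝ) * (((k + 2 - 1 : ℕ) : ℝ) * sn b t ^ (k + 2 - 1 - 1) * Real.cosh (b * t))) t :=
    fun t => ((hasDerivAt_modelVol (k + 2) b t).const_mul c).sub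
      (((hasDerivAt_sn b t).pow (k + 2 - 1)).const_mul _)
  have hm : MonotoneOn F (Ici w) := by
    refine monotoneOn_of_hasDerivWithinAt_nonneg (convex_Ici w)
      (fun t _ => (hd t).continuousAt.continuousWithinAt) (fun t _ => (hd t).hasDerivWithinAt)
      fun t ht => ?_
    rw [interior_Ici] at ht
    have hsw : 0 < sn b w := sn_pos b hw
    have h1 : 0 ≤ sn b (t - w) := sn_nonneg b (by linarith [show w < t from ht])
    have ht0 : 0 ≤ sn b t := sn_nonneg b (by linarith [show w < t from ht])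
    have hnn : 0 ≤ ((k : ℝ) + 2) * ((k : ℝ) + 1) * sn b t ^ k * sn b (t - w) / sn b w := by
      positivity
    refine le_trans hnn (le_of_eq ?_)
    rw [sn_sub, show k + 2 - 1 = k + 1 by omega, show k + 1 - 1 = k by omega, pow_succ, hc]
    push_cast
    field_simp
  have h0 := hm self_mem_Ici hwr hwr
  simp only [F] at h0
  linarith

/-- The model profiles are profiles. -/
theorem modelPin (n : ℕ) : ModelPin n := by
  intro hn b l _ hl
  obtain ⟨k, rfl⟩ : ∃ k, n = k + 2 := ⟨n - 2, by omega⟩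
  have h1n : 1 ≤ k + 2 := by omega
  have hω := unitBall_pos h1n
  set ω := unitBall (k + 2)
  set rr := fun V => modelRad (k + 2) b (V / ω)
  have hcm : ((k + 2 : ℕ) : ℝ) - 1 = (k : ℝ) + 1 := by push_cast; ring
  have hrs : ∀ V, 0 ≤ V → 0 ≤ rr V ∧ ω * modelVol (k + 2) b (rr V) = V := fun V hV => by
    obtain ⟨a, e⟩ := modelRad_spec h1n b (div_nonneg hV hω.le)
    exact ⟨a, by simp only [rr]; rw [e]; field_simp⟩
  have hrp : ∀ V, 0 < V → 0 < rr V := fun V hV => modelRad_pos h1n b (div_pos hV hω)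
  have hzero : modelProfile (k + 2) b l 0 = 0 := by
    simp [modelProfile, modelArea, modelRad_zero h1n, sn_zero]
  have hstep : ∀ V W, 0 < W → W ≤ V →
      modelProfile (k + 2) b l V - modelProfile (k + 2) b l W ≤
        modelSlope (k + 2) b l W * (V - W) := fun V W hW hWV => by
    have h := area_step k b (hrp W hW)
      (modelRad_mono h1n b (div_nonneg hW.le hω.le) (div_le_div_of_nonneg_right hWV hω.le))
    have h' := mul_le_mul_of_nonneg_left h (mul_pos hl hω).le
    have eV := (hrs V (hW.le.trans hWV)).2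
    have eW := (hrs W hW.le).2
    simp only [modelProfile, modelSlope, hcm]
    calc _ = l * ω * (modelArea (k + 2) b (rr V) - modelArea (k + 2) b (rr W)) := by
          simp only [rr, ω]; ring
      _ ≤ _ := h'
      _ = l * (((k : ℝ) + 1) * Real.cosh (b * rr W) / sn b (rr W)) *
          (ω * modelVol (k + 2) b (rr V) - ω * modelVol (k + 2) b (rr W)) := by
        simp only [rr]; ring
      _ = _ := by rw [eV, eW]
  have hslope : ∀ W, 0 < W → modelSlope (k + 2) b l W * W ≤ modelProfile (k + 2) b l W := fun W hW => by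
    have h := slope_mul_vol_le k b (hrp W hW).le
    have hs := sn_pos b (hrp W hW)
    have h' : ((k : ℝ) + 1) * Real.cosh (b * rr W) / sn b (rr W) * modelVol (k + 2) b (rr W)
        ≤ modelArea (k + 2) b (rr W) := by
      rw [div_mul_eq_mul_div, div_le_iff₀ hs, modelArea, show k + 2 - 1 = k + 1 by omega,
        mul_assoc _ (sn b (rr W) ^ (k + 1)), ← pow_succ]
      push_cast
      exact h
    calc modelSlope (k + 2) b l W * W
        = l * ω * (((k : ℝ) + 1) * Real.cosh (b * rr W) / sn b (rr W) *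
            modelVol (k + 2) b (rr W)) := by
          conv_lhs => arg 2; rw [← (hrs W hW.le).2]
          simp only [modelSlope, hcm, rr, ω]
          ring
      _ ≤ l * ω * modelArea (k + 2) b (rr W) := mul_le_mul_of_nonneg_left h' (mul_pos hl hω).le
      _ = _ := by simp only [modelProfile, rr, ω]; ring
  have hmaps : MapsTo (fun V : ℝ => V / ω) (Ici 0) (Ici 0) := fun V hV => div_nonneg hV hω.le
  have hrc : ContinuousOn rr (Ici 0) :=
    (continuousOn_modelRad h1n b).comp (continuousOn_id.div_const _) hmaps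
  refine ⟨hzero, fun W hW V hV hWV => ?_, ?_, fun V W hW hWV => ?_, ?_, fun V hV => ?_, hstep⟩
  · refine mul_le_mul_of_nonneg_left (mul_le_mul_of_nonneg_left ?_ hω.le) hl.le
    refine mul_le_mul_of_nonneg_left (pow_le_pow_left₀ (sn_nonneg b (hrs W hW).1) ?_ _) (by positivity)
    exact sn_monotoneOn b (hrs W hW).1 (hrs V hV).1
      (modelRad_mono h1n b (div_nonneg hW hω.le) (div_le_div_of_nonneg_right hWV hω.le))
  · have hc : Continuous fun r => l * (ω * modelArea (k + 2) b r) :=
      continuous_const.mul (continuous_const.mul (continuous_const.mul ((continuous_sn b).pow _)))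
    exact hc.comp_continuousOn hrc
  · rcases hW.eq_or_lt with rfl | hW0
    · rw [hzero]; simp
    · have := mul_le_mul_of_nonneg_left (hstep V W hW0 hWV) hW0.le
      have := mul_le_mul_of_nonneg_left (hslope W hW0) (sub_nonneg.2 hWV)
      linarith
  · have hr' : ContinuousOn rr (Ioi 0) := hrc.mono Ioi_subset_Ici_self
    refine continuousOn_const.mul ((continuousOn_const.mul (Real.continuous_cosh.comp_continuousOn
      (continuousOn_const.mul hr'))).div ((continuous_sn b).comp_continuousOn hr') fun V hV => ?_)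
    exact (sn_pos b (hrp V hV)).ne'
  · have := sn_pos b (hrp V hV)
    have := Real.cosh_pos (b * rr V)
    simp only [modelSlope, hcm]
    positivity

end Vale.Agent.P219.CH.Bend
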