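import Vale.Agent.P219.Bend.Geom
import Vale.Agent.P219.Bend.Model
import Vale.Agent.P219.Bend.Min
import Vale.Agent.P219.Sharp.Assembly

/-!
# P219, curvature at most `-b ^ 2`: assembly

As in `Sharp/Assembly.lean`. The gain now solves `H + m / s ^ 2 - m b ^ 2 X ≤ H exp (X / m)`, and on
the model profile the multiplier leaves `H ≤ (l θ m / sn r) ^ 2` in large dimension, which is the
Euclidean inequality at the radius `sn r`.
-/

noncomputable section

open MeasureTheory ProbabilityTheory Set Filter Topology Matrix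
open scoped ENNReal NNReal Real

namespace Vale.Agent.P219.CH.Bend

open Sharp

variable {n : ℕ} {G : (Fin n → ℝ) → Matrix (Fin n) (Fin n) ℝ}
  {D : (Fin n → ℝ) → (Fin n → ℝ) → ℝ}

/-- The channel facts: the pointwise function has the entropy and the cost as its integral. -/
lemma channel_factsB (h : IsCH G D) (b : ℝ) (o : Fin n → ℝ) (R : ℝ) {u : (Fin n → ℝ) → ℝ}
    (hu : Comp {y | D o y ≤ R} u) {N : Set (Fin n → ℝ)} {s : ℝ} (hs : 0 < s) {J : ℕ}
    {ctr : ((Fin n → ℝ) → ℝ) → (Fin n → ℝ)} (hctr : ∀ W, ctr W ∈ N) {B : ℝ} (hB0 : 0 ≤ B)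
    (hB : ∀ y, D o y ≤ R → ∀ c ∈ N, D y c ≤ B) (hJ : 2 * B / s ^ 2 + 1 ≤ J) (C : ℝ) :
    ContinuousOn (fun y => termAtB G D b u ctr s J y + C * centreCostB G D b ctr s J y + 1)
        {y | D o y ≤ R} ∧
      (∀ y, D o y ≤ R → 0 ≤ centreCostB G D b ctr s J y) ∧
      ∫ y, (termAtB G D b u ctr s J y + C * centreCostB G D b ctr s J y + 1) ∂pm G u
        = chanAvg ctr (bstep G D b (1 / (s ^ 2 * J))) J (ent (pm G u)) (fun _ => 1)
          + C * ∫ y, centreCostB G D b ctr s J y ∂pm G u + per G u := by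
  set K := {y | D o y ≤ R}
  have hK : IsCompact K := h.proper o R
  set μ := pm G u
  have hμf := isFiniteMeasure_pm h hK hu
  have hμK : ∀ᵐ y ∂μ, y ∈ K := ae_mem_pm h hK hu
  set vv := bstep G D b (1 / (s ^ 2 * J))
  have hsJ : 0 < s ^ 2 * (J : ℝ) := mul_pos (by positivity)
    (lt_of_lt_of_le (by positivity) hJ)
  have hvv : ∀ c ∈ N, ∀ k, ∀ y ∈ K, |vv c k y| < 1 := fun c hc k y hy => by
    refine (abs_bstep_le h (by positivity) b (hB y hy c hc) k).trans_lt ?_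
    rw [← Real.sqrt_mul (by positivity), Real.sqrt_lt' one_pos, one_pow, one_div_mul_eq_div,
      div_lt_one hsJ]
    have h1 := mul_le_mul_of_nonneg_left hJ (sq_nonneg s)
    rw [mul_add, mul_div_cancel₀ _ (by positivity : s ^ 2 ≠ 0)] at h1
    nlinarith
  have hpos : ∀ j, ∀ W ∈ nodes N vv j, PosOn K W :=
    nodes_posOn (fun c _ k => (contDiff_bstep h b _ c k).continuous.continuousOn) hvv
  have hgc : ∀ W ∈ nodes N vv J,
      ContinuousOn (fun y => W y * (Real.log (∫ z, W z ∂μ) - Real.log (W y))) K := fun W hW =>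
    (hpos J W hW).1.mul (continuousOn_const.sub
      ((hpos J W hW).1.log fun y hy => ((hpos J W hW).2 y hy).ne'))
  obtain ⟨hEnt, hEntc⟩ := integral_chanAvg hK hμK hctr J hgc
  have hbDc : ∀ c, ContinuousOn (bD D b c) K := fun c =>
    ((((contDiff_kfac_dist h b).continuous.comp
      (continuous_const.prodMk continuous_id)).pow 2).mul (continuous_D h c)).continuousOn
  have hcostc : ContinuousOn (centreCostB G D b ctr s J) K :=
    (continuousOn_finsetSum _ fun j _ => (integral_chanAvg hK hμK hctr j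
      (g := fun W y => W y * bD D b (ctr W) y) fun W hW =>
        (hpos j W hW).1.mul (hbDc _)).2).const_mul _
  refine ⟨(hEntc.add (hcostc.const_mul C)).add continuousOn_const, fun y hy => ?_, ?_⟩
  · refine mul_nonneg (by positivity) (Finset.sum_nonneg fun j _ => ?_)
    have h0 : chanAvg ctr vv j (fun W => (0 : ℝ) * W y) (fun _ => 1)
        ≤ chanAvg ctr vv j (fun W => W y * bD D b (ctr W) y) (fun _ => 1) :=
      chanAvg_mono hctr j fun W hW => by
        rw [zero_mul]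
        exact mul_nonneg ((hpos j W hW).2 y hy).le (bD_nonneg h b _ _)
    rwa [chanAvg_const_mul, zero_mul] at h0
  · have i1 : Integrable (termAtB G D b u ctr s J) μ := integrable_carrier hK hμK hEntc
    have i2 : Integrable (fun y => C * centreCostB G D b ctr s J y) μ :=
      (integrable_carrier hK hμK hcostc).const_mul _
    have i12 : Integrable (fun y => termAtB G D b u ctr s J y + C * centreCostB G D b ctr s J y) μ :=
      i1.add i2
    rw [integral_add i12 (integrable_const _), integral_add i1 i2, integral_const_mul,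
      integral_const, smul_eq_mul, mul_one]
    exact congrArg₂ (· + ·) (congrArg₂ (· + ·) hEnt.symm rfl) (pm_univ h hK hu)

/-- The entropy drop is at most what the terminal bound leaves. -/
lemma drop_le {P W T κ Ent Xc p₀ : ℝ} (hP : 0 < P) (hp : p₀ ≤ P) (hκ0 : 0 ≤ κ) (hκ1 : 2 * κ ≤ 1)
    (hκX : κ * (2 * (W - T + 4)) ≤ 1)
    (hgain2 : Xc + Ent ≤ P * W + p₀) (hlow : P * T - p₀ ≤ Ent + κ * Xc + P) :
    2 * ((P * W + p₀ - Ent) / P) ≤ 2 * (W - T + 4) := by
  refine mul_le_mul_of_nonneg_left ?_ zero_le_two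
  rw [div_le_iff₀ hP]
  have h2 : κ * Xc ≤ κ * (P * W + p₀ - Ent) := mul_le_mul_of_nonneg_left (by linarith) hκ0
  have h3 := mul_le_mul_of_nonneg_left hκX hP.le
  refine le_of_mul_le_mul_left ?_ (show 0 < 1 - κ by linarith)
  linarith

/-- Solving the gain inequality. -/
lemma gain_solve {m s H b W K0 X : ℝ} (hm : 0 < m) (hs : 0 < s) (hH : 0 < H)
    (hX : X = 2 * (W - (m * Real.log s + K0) + 4))
    (hgain : H + m / s ^ 2 - m * b ^ 2 * X ≤ H * Real.exp (X / m))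
    (hsmall : b ^ 2 * X * s ^ 2 * (m + 1) ≤ 1) :
    m / 2 * Real.log m - 1 ≤ m / 2 * Real.log H + (W - K0 + 4) := by
  have e1 : X / m = 2 * (W - K0 + 4) / m - 2 * Real.log s := by rw [hX]; field_simp; ring
  have e2 : Real.exp (X / m) * s ^ 2 = Real.exp (2 * (W - K0 + 4) / m) := by
    rw [e1, Real.exp_sub, show 2 * Real.log s = Real.log (s ^ 2) by rw [Real.log_pow]; norm_num,
      Real.exp_log (by positivity)]
    field_simp
  have h1 := mul_le_mul_of_nonneg_right hgain (sq_nonneg s)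
  rw [mul_assoc H, e2, sub_mul, add_mul, div_mul_cancel₀ _ (by positivity : s ^ 2 ≠ 0)] at h1
  have h2 : m * (m / (m + 1)) ≤ H * Real.exp (2 * (W - K0 + 4) / m) := by
    have h3 : b ^ 2 * X * s ^ 2 ≤ 1 / (m + 1) := by rw [le_div_iff₀ (by linarith)]; linarith
    have h4 := mul_le_mul_of_nonneg_left h3 hm.le
    have e3 : m * (m / (m + 1)) = m - m * (1 / (m + 1)) := by field_simp; ring
    have h5 : 0 ≤ H * s ^ 2 := by positivity
    rw [e3]
    linarith
  have h3 := Real.log_le_log (by positivity) h2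
  rw [Real.log_mul hm.ne' (by positivity), Real.log_mul hH.ne' (Real.exp_pos _).ne', Real.log_exp]
    at h3
  have h4 : -(1 / m) ≤ Real.log (m / (m + 1)) := by
    have h5 := Real.log_le_sub_one_of_pos (show 0 < (m + 1) / m by positivity)
    rw [Real.log_div (by linarith) hm.ne', show (m + 1) / m - 1 = 1 / m by field_simp; ring] at h5
    rw [Real.log_div hm.ne' (by linarith)]
    linarith
  have h6 := mul_le_mul_of_nonneg_left (show Real.log m + -(1 / m) ≤
    Real.log H + 2 * (W - K0 + 4) / m by linarith) (by linarith : 0 ≤ m / 2)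
  have e4 : m / 2 * (2 * (W - K0 + 4) / m) = W - K0 + 4 := by field_simp
  have e5 : m / 2 * (1 / m) = 1 / 2 := by field_simp
  linarith

/-- On the model profile the multiplier has at most the size of the Euclidean one at `sn r`. -/
lemma multiplier_le {m b q S Cc : ℝ} (hS : 0 < S) (hC : Cc ^ 2 = 1 + b ^ 2 * S ^ 2)
    (hq : q ^ 2 * m ^ 2 ≤ m ^ 2 - 2 * m) :
    (q * (m * Cc / S)) ^ 2 - b ^ 2 * (m ^ 2 - 2 * m) ≤ (q * m / S) ^ 2 := by
  have e : (q * (m * Cc / S)) ^ 2 = (q * m / S) ^ 2 + b ^ 2 * (q ^ 2 * m ^ 2) := by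
    calc (q * (m * Cc / S)) ^ 2 = (q * m / S) ^ 2 * Cc ^ 2 := by ring
      _ = _ := by rw [hC]; field_simp
  rw [e]
  linarith [mul_le_mul_of_nonneg_left hq (sq_nonneg b)]

/-- Perimeter against the multiplier on the model profile. -/
lemma log_area_le {n : ℕ} {P l θ ω S : ℝ} (hn : 2 ≤ n) (hP : 0 < P) (hl : 0 < l) (hω : 0 < ω)
    (hS : 0 < S) (hθ : θ = Real.exp (1 / ((n : ℝ) - 1)))
    (hPA : P ≤ l * (ω * ((n : ℝ) * S ^ (n - 1)))) :
    Real.log P + ((n : ℝ) - 1) / 2 * Real.log ((l * θ * ((n : ℝ) - 1) / S) ^ 2) ≤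
      (n : ℝ) * Real.log l + Real.log ω + Real.log n
        + ((n : ℝ) - 1) * Real.log ((n : ℝ) - 1) + 1 := by
  have hn0 : (2 : ℝ) ≤ n := by exact_mod_cast hn
  have hm0 : (0 : ℝ) < (n : ℝ) - 1 := by linarith
  have hθ0 : 0 < θ := hθ ▸ Real.exp_pos _
  have h1 := Real.log_le_log hP hPA
  rw [Real.log_mul hl.ne' (by positivity), Real.log_mul hω.ne' (by positivity),
    Real.log_mul (by linarith) (by positivity), Real.log_pow, Nat.cast_sub (by omega : 1 ≤ n),
    Nat.cast_one] at h1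
  rw [Real.log_pow, Real.log_div (by positivity) hS.ne', Real.log_mul (by positivity) hm0.ne',
    Real.log_mul hl.ne' hθ0.ne', hθ, Real.log_exp]
  push_cast
  have e2 : ((n : ℝ) - 1) * (1 / ((n : ℝ) - 1)) = 1 := by field_simp
  linarith

/-- In large dimension the multiplier factor is below one. -/
lemma factor_small {ε m : ℝ} (hε : 0 < ε) (hε1 : ε < 1) (hm : 4 / ε ≤ m) :
    ((1 - ε) * Real.exp (1 / m)) ^ 2 * m ^ 2 ≤ m ^ 2 - 2 * m := by
  have hm4 : 4 ≤ ε * m := by rw [div_le_iff₀ hε] at hm; linarith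
  have hm0 : 0 < m := by nlinarith
  have hx : 1 / m ≤ ε / 4 := by rw [div_le_iff₀ hm0]; linarith
  have h1 : Real.exp (1 / m) ≤ 1 / (1 - 1 / m) := by
    have h2 := Real.add_one_le_exp (-(1 / m))
    rw [Real.exp_neg] at h2
    rw [le_div_iff₀ (by linarith)]
    calc Real.exp (1 / m) * (1 - 1 / m) ≤ Real.exp (1 / m) * (Real.exp (1 / m))⁻¹ :=
          mul_le_mul_of_nonneg_left (by linarith) (Real.exp_pos _).le
      _ = 1 := mul_inv_cancel₀ (Real.exp_pos _).ne'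
  have h3 : (1 - ε) * Real.exp (1 / m) ≤ 1 - ε / 2 := by
    refine (mul_le_mul_of_nonneg_left h1 (by linarith)).trans ?_
    rw [mul_one_div, div_le_iff₀ (by linarith)]
    nlinarith
  have h4 := pow_le_pow_left₀ (mul_nonneg (by linarith) (Real.exp_pos _).le) h3 2
  have h5 : (1 - ε / 2) ^ 2 ≤ 1 - ε / 2 := by nlinarith
  have h6 := mul_le_mul_of_nonneg_right (h4.trans h5) (sq_nonneg m)
  nlinarith

/-- The sharp inequality against every space form in large dimension, from the parts. -/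
theorem asymptoticGeneralisedCH_of_pins (hN : ∀ n, NetPinB n) (hG : ∀ n, GainPinB n)
    (hT : ∀ n, TerminalPinB n) (hS : ∀ n, GoodShiftPinP n) : AsymptoticGeneralisedCH := by
  intro ε hε
  refine ⟨max (max 2 ⌈4 / ε + 1⌉₊) (max ⌈144 / ε ^ 2⌉₊ ⌈8 * ((2001 : ℝ) + 5) / ε⌉₊),
    fun n hn₀ G D h b hb hB Ω A hΩ hΩb hper => ?_⟩
  have hn : 2 ≤ n := le_trans (le_trans (le_max_left _ _) (le_max_left _ _)) hn₀
  have hn2 : (2 : ℝ) ≤ n := by exact_mod_cast hn
  have hn144 : 144 / ε ^ 2 ≤ (n : ℝ) := by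
    refine (Nat.le_ceil _).trans ?_
    exact_mod_cast le_trans (le_trans (le_max_left _ _) (le_max_right _ _)) hn₀
  have hnC : 8 * ((2001 : ℝ) + 5) / ε ≤ (n : ℝ) := by
    refine (Nat.le_ceil _).trans ?_
    exact_mod_cast le_trans (le_trans (le_max_right _ _) (le_max_right _ _)) hn₀
  have hn4 : 4 / ε + 1 ≤ (n : ℝ) := by
    refine (Nat.le_ceil _).trans ?_
    exact_mod_cast le_trans (le_trans (le_max_right _ _) (le_max_left _ _)) hn₀
  have hA0 : 0 ≤ A := by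
    obtain ⟨S, v, -, -, -, hA⟩ := hper
    exact le_trans (h.per_nonneg (v 0)) (hA 0)
  have hω := unitBall_pos (show 1 ≤ n by omega)
  have hVΩ : 0 ≤ volG G Ω := integral_nonneg fun y => (dens_pos h y).le
  obtain ⟨hr0, hr⟩ := modelRad_spec (show 1 ≤ n by omega) b (div_nonneg hVΩ hω.le)
  refine ⟨modelRad n b (volG G Ω / unitBall n), hr0, by rw [hr]; field_simp, ?_⟩
  rcases le_or_gt 1 ε with hε1 | hε1
  · exact le_trans (mul_nonpos_of_nonpos_of_nonneg (by linarith) (mul_nonneg hω.le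
      (mul_nonneg (by positivity) (pow_nonneg (sn_nonneg b hr0) _)))) hA0
  by_contra hlt
  rw [not_le] at hlt
  have hl0 : 0 < 1 - ε := by linarith
  have hΦ := modelPin n hn b (1 - ε) hb hl0
  obtain ⟨R, M, P₀, v₀, hR, hM, hP₀, hv₀, hmin⟩ :=
    minPinP n hn G D h Ω A _ _ hΩ hΩb hper hΦ hlt 0
  set K := {y | D 0 y ≤ R}
  have hK : IsCompact K := h.proper 0 R
  obtain ⟨p₀, hp₀, hperlow⟩ := exists_per_lower h 0 R (by omega) hv₀
  obtain ⟨Rb, s₂, hRb, hs₂, hLow⟩ := lowerPin (half_pos hε) le_rfl n hn G D h 0 R P₀ v₀ p₀ hR hP₀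
    hv₀ hp₀
  obtain ⟨s₀, hs₀, hGood⟩ := hS n hn G D h 0 R P₀ v₀ M _ _ 1 p₀ hR hP₀ hv₀ hΦ hM le_rfl hp₀
  obtain ⟨s₁, C, hs₁, hC, hTerm⟩ := hT n hn G D h b 0 R Rb 1 hR hRb one_pos
  -- scales
  obtain ⟨θ, hθ⟩ : ∃ θ : ℝ, θ = Real.exp (1 / ((n : ℝ) - 1)) := ⟨_, rfl⟩
  have hm0 : (0 : ℝ) < (n : ℝ) - 1 := by linarith
  have hθ1 : 1 < θ := hθ ▸ Real.one_lt_exp_iff.2 (by positivity)
  obtain ⟨u₁, ⟨hu₁, -, hvu₁, -⟩, -⟩ := hmin 1 one_pos
  have hVK : 0 < volG G K := hv₀.trans_le (hvu₁.trans (h.vol_le hK hu₁))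
  obtain ⟨Smax, hSmax⟩ : ∃ S : ℝ, S = sn b (modelRad n b (volG G K / unitBall n)) := ⟨_, rfl⟩
  have hSmax0 : 0 < Smax :=
    hSmax ▸ sn_pos b (modelRad_pos (by omega) b (div_pos hVK hω))
  obtain ⟨η, hη⟩ : ∃ η : ℝ, η = ((1 - ε) * θ * ((n : ℝ) - 1) / Smax) ^ 2 := ⟨_, rfl⟩
  have hη0 : 0 < η := by rw [hη]; positivity
  obtain ⟨K0, hK0⟩ : ∃ K0 : ℝ, K0 = ((n : ℝ) - 1) / 2 * Real.log (2 * π) + (n : ℝ) / 2
      - ε / 2 * n - 2000 := ⟨_, rfl⟩
  obtain ⟨c, hc, hc0⟩ : ∃ c : ℝ, c = 2 * (|Real.log p₀| + |Real.log P₀| + ((n : ℝ) - 1) + |K0| + 4)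
      ∧ 0 ≤ c := ⟨_, rfl, by positivity⟩
  obtain ⟨s, hs, hss₀', hss₁, hss₂, hsC, hsmall⟩ := exists_scale (lt_min hs₀ one_pos) hs₁ hs₂
    (4 * C) ((2 * C + b ^ 2 * (((n : ℝ) - 1) + 1)) * c)
  have hss₀ : s < s₀ := hss₀'.trans_le (min_le_left _ _)
  have hs1 : s ≤ 1 := hss₀'.le.trans (min_le_right _ _)
  obtain ⟨δ₁, hδ₁, hLow⟩ := hLow s hs hss₂
  obtain ⟨δ₂, hδ₂, hGood⟩ := hGood s hs hss₀
  obtain ⟨J₀, hTerm⟩ := hTerm s hs hss₁
  obtain ⟨κ, hκ, J₁, hGain⟩ := hG n hn G D h b hB 0 R P₀ v₀ M θ s p₀ η _ _ hR hP₀ hv₀ hΦ hM hθ1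
    hs hp₀ hη0
  obtain ⟨B, hB0, hBd⟩ : ∃ B : ℝ, 0 ≤ B ∧ ∀ y ∈ K, ∀ c ∈ K, D y c ≤ B := by
    obtain ⟨B, hB⟩ := (hK.prod hK).bddAbove_image h.continuous_D.continuousOn
    exact ⟨max B 0, le_max_right _ _,
      fun y hy c hc => (hB ⟨(y, c), ⟨hy, hc⟩, rfl⟩).trans (le_max_left _ _)⟩
  obtain ⟨J, hJ₀, hJ₁, hJB⟩ : ∃ J : ℕ, J₀ ≤ J ∧ J₁ ≤ J ∧ 2 * B / s ^ 2 + 1 ≤ J :=
    ⟨max (max J₀ J₁) ⌈2 * B / s ^ 2 + 1⌉₊, le_trans (le_max_left _ _) (le_max_left _ _),
      le_trans (le_max_right _ _) (le_max_left _ _),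
      (Nat.le_ceil _).trans (by exact_mod_cast le_max_right _ _)⟩
  obtain ⟨N, hNf, hoN, hNR, hNet⟩ := hN n G D h b 0 R κ hR hκ
  obtain ⟨δ₃, hδ₃, hGain⟩ := hGain J hJ₁ N hNf hNR
  obtain ⟨u, ⟨hu, hPu, hVu, hgu, hopt⟩, hPV⟩ := hmin (min δ₁ (min δ₂ δ₃)) (by positivity)
  have hnear : ∀ δ, min δ₁ (min δ₂ δ₃) ≤ δ →
      NearMinP G D 0 R P₀ v₀ (modelProfile n b (1 - ε)) M δ u := fun δ hδ =>
    ⟨hu, hPu, hVu, hgu.trans hδ, fun u' hu' => (hopt u' hu').trans (by linarith)⟩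
  have hpP : p₀ ≤ per G u := hperlow u hu hVu
  have hP0 : 0 < per G u := hp₀.trans_le hpP
  have hμf := isFiniteMeasure_pm h hK hu
  have hμK : ∀ᵐ y ∂pm G u, y ∈ K := ae_mem_pm h hK hu
  have : NeZero (pm G u) := ⟨fun h0 => by
    have h1 := pm_univ h hK hu
    rw [h0] at h1
    simp at h1
    linarith⟩
  -- the centres
  classical
  set ctr : ((Fin n → ℝ) → ℝ) → (Fin n → ℝ) := fun W =>
    if hh : ∃ c ∈ N, ∀ k, |∫ y, W y * bucoord G D b c y k ∂pm G u| ≤ κ * ∫ y, W y ∂pm G u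
      then hh.choose else 0
  have hctrN : ∀ W, ctr W ∈ N := fun W => by
    simp only [ctr]
    split_ifs with hh
    · exact hh.choose_spec.1
    · exact hoN
  have hgood := hGood u (hnear δ₂ (le_trans (min_le_right _ _) (min_le_left _ _)))
  obtain ⟨hgain1, hgain2⟩ := hGain u (hnear δ₃ (le_trans (min_le_right _ _) (min_le_right _ _))) hP0
    ctr hctrN fun W hWc hWp k => by
      have hh := hNet (pm G u) W hμK ⟨hWc, hWp⟩ (integral_pos_of_posOn hK hμK ⟨hWc, hWp⟩)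
      simp only [ctr, dif_pos hh]
      exact hh.choose_spec.2 k
  obtain ⟨hfc, hcost0, hint⟩ := channel_factsB h b 0 R hu hs hctrN hB0
    (fun y hy c hc => hBd y hy c (hNR c hc)) hJB C
  have hlow := hLow u hu hPu hVu (hgu.trans (min_le_left _ _)) (hgood.trans (by linarith)) _ hfc
    fun y hy hq => by
      obtain ⟨ha, hb⟩ := hTerm J hJ₀ u ctr y hu (fun W => hNR _ (hctrN W)) hy hq
      have := mul_nonneg hC (hcost0 y hy)
      constructor <;> linarith
  rw [hint] at hlow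
  -- the entropy drop
  obtain ⟨W, hW⟩ : ∃ W : ℝ, W = Real.log (per G u) := ⟨_, rfl⟩
  have hWb : |W| ≤ |Real.log p₀| + |Real.log P₀| := by
    have h1 := Real.log_le_log hp₀ hpP
    have h2 := Real.log_le_log hP0 hPu
    rw [abs_le, hW]
    constructor <;> linarith [neg_abs_le (Real.log p₀), le_abs_self (Real.log P₀),
      abs_nonneg (Real.log p₀), abs_nonneg (Real.log P₀)]
  obtain ⟨X, hX⟩ : ∃ X : ℝ, X = 2 * (W - (((n : ℝ) - 1) * Real.log s + K0) + 4) := ⟨_, rfl⟩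
  have hXs : X * s ^ 2 ≤ c * s := by
    have hls : -Real.log s * s ≤ 1 := by
      have := Real.log_le_sub_one_of_pos (inv_pos.2 hs)
      rw [Real.log_inv] at this
      calc -Real.log s * s ≤ s⁻¹ * s := mul_le_mul_of_nonneg_right (by linarith) hs.le
        _ = 1 := inv_mul_cancel₀ hs.ne'
    have hA : (W - K0 + 4) * s ≤ |Real.log p₀| + |Real.log P₀| + |K0| + 4 := by
      calc (W - K0 + 4) * s ≤ |W - K0 + 4| * s :=
            mul_le_mul_of_nonneg_right (le_abs_self _) hs.le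
        _ ≤ |W - K0 + 4| * 1 := mul_le_mul_of_nonneg_left hs1 (abs_nonneg _)
        _ ≤ _ := by
          rw [mul_one, abs_le]
          constructor <;> linarith [neg_abs_le W, le_abs_self W, neg_abs_le K0, le_abs_self K0]
    have hB : X * s ≤ c := by
      rw [hX, hc]
      linarith [mul_le_mul_of_nonneg_left hls hm0.le]
    calc X * s ^ 2 = X * s * s := by ring
      _ ≤ c * s := mul_le_mul_of_nonneg_right hB hs.le
  set Xc := (∫ y, centreCostB G D b ctr s J y ∂pm G u) / (2 * s ^ 2)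
  have hXe : C * ∫ y, centreCostB G D b ctr s J y ∂pm G u = 2 * C * s ^ 2 * Xc := by
    simp only [Xc]; field_simp
  rw [hXe] at hlow
  rw [← hW] at hgain1 hgain2
  have hdrop := drop_le (Xc := Xc) (W := W)
    (T := ((n : ℝ) - 1) * Real.log s + K0) (p₀ := p₀) (κ := 2 * C * s ^ 2) hP0 hpP (by positivity)
    (by linarith)
    (by
      rw [← hX]
      have h1 := mul_le_mul_of_nonneg_left hXs (by positivity : 0 ≤ 2 * C)
      have h2 : 0 ≤ b ^ 2 * (((n : ℝ) - 1) + 1) * c * s := by positivity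
      linarith) hgain2 (by rw [hK0]; linarith)
  rw [← hX] at hdrop
  -- the multiplier
  have hV : 0 < vol G u := hv₀.trans_le hVu
  obtain ⟨S, hSdef⟩ : ∃ S : ℝ, S = sn b (modelRad n b (vol G u / unitBall n)) := ⟨_, rfl⟩
  have hS0 : 0 < S := hSdef ▸ sn_pos b (modelRad_pos (by omega) b (div_pos hV hω))
  obtain ⟨H, hH⟩ : ∃ H : ℝ, H = ((1 - ε) * θ * ((n : ℝ) - 1) / S) ^ 2 := ⟨_, rfl⟩
  have hH0 : 0 < H := by rw [hH]; positivity
  have hηH : η ≤ H := by
    rw [hη, hH]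
    refine pow_le_pow_left₀ (by positivity) (div_le_div_of_nonneg_left (by positivity) hS0 ?_) 2
    rw [hSdef, hSmax]
    exact sn_monotoneOn b (modelRad_spec (by omega) b (by positivity)).1
      (modelRad_spec (by omega) b (by positivity)).1 (modelRad_mono (by omega) b (by positivity)
        (div_le_div_of_nonneg_right (h.vol_le hK hu) hω.le))
  have hmult : (θ * modelSlope n b (1 - ε) (vol G u)) ^ 2
      - b ^ 2 * (((n : ℝ) - 1) ^ 2 - 2 * ((n : ℝ) - 1)) ≤ H := by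
    rw [hH, modelSlope, ← hSdef, ← mul_assoc, mul_comm θ (1 - ε)]
    refine multiplier_le hS0 (hSdef ▸ cosh_sq_sn b _) ?_
    rw [hθ]
    exact factor_small hε hε1 (by linarith)
  have hsolve := gain_solve (K0 := K0) hm0 hs hH0 hX (hgain1 H hηH hmult X hdrop) (by
    have h1 := mul_le_mul_of_nonneg_left hXs
      (mul_nonneg (sq_nonneg b) (by linarith : 0 ≤ ((n : ℝ) - 1) + 1))
    have h2 : 0 ≤ 2 * C * c * s := by positivity
    linarith)
  have harea := log_area_le (n := n) hn hP0 hl0 hω hS0 hθ (by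
    rw [hSdef]
    exact hPV)
  rw [← hW, ← hH] at harea
  have hω1 : eucConst n = (n : ℝ) * unitBall n ^ (1 / n : ℝ) := rfl
  refine constant_contradiction (C := 2001) (α := ((n : ℝ) - 1) / n) hn hε hε1 hn144 hnC rfl rfl ?_
  clear * - harea hsolve hK0 hm0 hn2 hω hω1 hl0
  rw [Real.log_mul (by positivity) hm0.ne', Real.log_mul hl0.ne' (by rw [hω1]; positivity), hω1,
    Real.log_mul (show (n : ℝ) ≠ 0 by linarith) (Real.rpow_pos_of_pos hω (1 / n : ℝ)).ne',
    Real.log_rpow hω,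
    Real.log_div hm0.ne' (by linarith)]
  have e : (n : ℝ) * (1 / n * Real.log (unitBall n)) = Real.log (unitBall n) := by field_simp
  linarith

end Vale.Agent.P219.CH.Bend
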