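import Vale.Agent.P219.Bend.Geom
import Vale.Agent.P219.Bend.Pins
import Vale.Agent.P219.Sharp.Centre

/-!
# P219, curvature at most `-b ^ 2`: centres for the Klein coordinates and near isometry
-/

noncomputable section

open MeasureTheory ProbabilityTheory Set Filter Topology Matrix

namespace Vale.Agent.P219.CH.Bend

open Sharp

variable {n : ℕ} {G : (Fin n → ℝ) → Matrix (Fin n) (Fin n) ℝ}
  {D : (Fin n → ℝ) → (Fin n → ℝ) → ℝ}

/-- The potential `log cosh (b d) / b ^ 2` as a function of `D`. -/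
def kpot (b t : ℝ) : ℝ := if b = 0 then t else Real.log (csh (2 * b ^ 2 * t)) / b ^ 2

lemma hasDerivAt_kpot (b : ℝ) {t : ℝ} (ht : 0 ≤ t) : HasDerivAt (kpot b) (kfac b t) t := by
  rcases eq_or_ne b 0 with rfl | hb
  · rw [show kpot 0 = id from funext fun s => if_pos rfl, kfac_zero]
    exact hasDerivAt_id t
  · have hc := (csh_pos (arg_nonneg b ht)).ne'
    have ha : HasDerivAt (fun s : ℝ => 2 * b ^ 2 * s) (2 * b ^ 2) t := by
      simpa using (hasDerivAt_id t).const_mul (2 * b ^ 2)
    rw [show kpot b = fun s => Real.log (csh (2 * b ^ 2 * s)) / b ^ 2 from funext fun s => if_neg hb]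
    refine ((((hasDerivAt_csh _).comp t ha).log hc).div_const (b ^ 2)).congr_deriv ?_
    rw [kfac]
    simp only [Function.comp_apply]
    field_simp

lemma continuous_kLog (h : IsCH G D) (b : ℝ) :
    Continuous fun p : (Fin n → ℝ) × (Fin n → ℝ) => fun i => kfac b (D p.2 p.1) * cd (D p.2) p.1 i :=
  continuous_pi fun i => ((contDiff_kfac_dist h b).continuous.comp
    (continuous_snd.prodMk continuous_fst)).mul
      ((continuous_apply i).comp (contDiff_logCovector h).continuous)

/-- A positive weight on the ball has a centre in the ball. -/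
lemma exists_centreB (h : IsCH G D) (b : ℝ) (o : Fin n → ℝ) {R : ℝ} (hR : 0 < R)
    {μ : Measure (Fin n → ℝ)} [IsFiniteMeasure μ] (hμ : ∀ᵐ y ∂μ, D o y ≤ R)
    {W : (Fin n → ℝ) → ℝ} (hWc : ContinuousOn W {y | D o y ≤ R}) (hW0 : ∀ y, D o y ≤ R → 0 < W y)
    (hZ : 0 < ∫ y, W y ∂μ) :
    ∃ c, D o c ≤ R ∧ ∀ i, ∫ y, W y * (kfac b (D y c) * cd (D y) c i) ∂μ = 0 := by
  set K := {y | D o y ≤ R}
  have hK : IsCompact K := h.proper o R
  have hI : ∀ {g : (Fin n → ℝ) → ℝ}, Continuous g → Integrable (fun y => W y * g y) μ := fun hg => by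
    have h1 : IntegrableOn (fun y => W y * _) K μ := (hWc.mul hg.continuousOn).integrableOn_compact hK
    rwa [IntegrableOn, Measure.restrict_eq_self_of_ae_mem (show ∀ᵐ y ∂μ, y ∈ K from hμ)] at h1
  have hWm : AEStronglyMeasurable W μ :=
    (hI (continuous_const (y := (1 : ℝ)))).aestronglyMeasurable.congr
      (Eventually.of_forall fun y => mul_one _)
  have hIW : Integrable W μ :=
    (hI (continuous_const (y := (1 : ℝ)))).congr (Eventually.of_forall fun y => mul_one _)
  set Φ : (Fin n → ℝ) → ℝ := fun p => ∫ y, W y * kpot b (D y p) ∂μ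
  have hK2 : Continuous fun q : (Fin n → ℝ) × (Fin n → ℝ) => kfac b (D q.1 q.2) :=
    (contDiff_kfac_dist h b).continuous
  have hP2 : Continuous fun q : (Fin n → ℝ) × (Fin n → ℝ) => kpot b (D q.1 q.2) :=
    continuous_iff_continuousAt.2 fun q => ContinuousAt.comp (g := kpot b)
      (hasDerivAt_kpot b (h.dist_nonneg q.1 q.2)).continuousAt h.continuous_D.continuousAt
  have hDp : ∀ p, Continuous fun y => kpot b (D y p) := fun p =>
    hP2.comp (continuous_id.prodMk continuous_const)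
  -- derivative
  have hder : ∀ p v, HasDerivAt (fun t : ℝ => Φ (p + t • v))
      (∫ y, W y * (kfac b (D y p) * fderiv ℝ (D y) p v) ∂μ) 0 := by
    intro p v
    have hc : Continuous fun q : (Fin n → ℝ) × ℝ =>
        kfac b (D q.1 (p + q.2 • v)) * fderiv ℝ (D q.1) (p + q.2 • v) v := by
      refine (hK2.comp (continuous_fst.prodMk
        (continuous_const.add (continuous_snd.smul continuous_const)))).mul ?_
      simp only [cd_dot]
      exact (((contDiff_logCovector h).continuous.comp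
        ((continuous_const.add (continuous_snd.smul continuous_const)).prodMk continuous_fst)
        )).dotProduct continuous_const
    obtain ⟨B, hB⟩ := (hK.prod (isCompact_Icc (a := (-1 : ℝ)) (b := 1))).exists_bound_of_continuousOn
      hc.continuousOn
    have hbd : ∀ᵐ y ∂μ, ∀ t ∈ Metric.ball (0 : ℝ) 1,
        ‖W y * (kfac b (D y (p + t • v)) * fderiv ℝ (D y) (p + t • v) v)‖ ≤ |B| * W y := hμ.mono fun y hy t ht => by
      rw [norm_mul, Real.norm_of_nonneg (hW0 y hy).le, mul_comm]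
      refine mul_le_mul_of_nonneg_right ((hB (y, t) ⟨hy, ?_⟩).trans (le_abs_self B)) (hW0 y hy).le
      rw [Metric.mem_ball, Real.dist_eq, sub_zero, abs_lt] at ht
      exact ⟨ht.1.le, ht.2.le⟩
    have := hasDerivAt_integral_of_dominated_loc_of_deriv_le (μ := μ)
      (F := fun t y => W y * kpot b (D y (p + t • v))) (x₀ := (0 : ℝ))
      (F' := fun t y => W y * (kfac b (D y (p + t • v)) * fderiv ℝ (D y) (p + t • v) v)) (bound := fun y => |B| * W y)
      (Metric.ball_mem_nhds 0 one_pos) (Eventually.of_forall fun t => (hI (hDp _)).aestronglyMeasurable)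
      (hI (hDp _)) (hI (hc.comp (continuous_id.prodMk continuous_const))).aestronglyMeasurable hbd
      (hIW.const_mul _) (Eventually.of_forall fun y t _ => ?_)
    · simpa using this.2
    · have hl : HasDerivAt (fun t : ℝ => p + t • v) v t := by
        simpa using ((hasDerivAt_id t).smul_const v).const_add p
      exact ((hasDerivAt_kpot b (h.dist_nonneg y _)).comp t
        ((((h.contDiff_D y).differentiable two_ne_zero _).hasFDerivAt).comp_hasDerivAt t hl)
        ).const_mul _
  -- minimiser in a larger ball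
  set K' := {y | D o y ≤ R + 1}
  have hK' : IsCompact K' := h.proper o (R + 1)
  have hΦc : ContinuousOn Φ K' := by
    obtain ⟨B, hB⟩ := (hK.prod hK').exists_bound_of_continuousOn hP2.continuousOn
    refine continuousOn_of_dominated (bound := fun y => |B| * W y)
      (fun p _ => (hI (hDp p)).aestronglyMeasurable) (fun p hp => hμ.mono fun y hy => ?_)
      (hIW.const_mul _) (Eventually.of_forall fun y =>
        (continuous_const.mul (hP2.comp (continuous_const.prodMk continuous_id))).continuousOn)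
    rw [norm_mul, Real.norm_of_nonneg (hW0 y hy).le, mul_comm]
    exact mul_le_mul_of_nonneg_right ((hB (y, p) ⟨hy, hp⟩).trans (le_abs_self B)) (hW0 y hy).le
  obtain ⟨c, hcK', hmin⟩ := hK'.exists_isMinOn
    ⟨o, show D o o ≤ R + 1 by rw [h.dist_self]; linarith⟩ hΦc
  have hcR : D o c ≤ R := by
    by_contra hcon
    rw [not_le] at hcon
    set v := -(grad G (D o) c)
    have hdo : fderiv ℝ (D o) c v < 0 := by
      simp only [v, map_neg]
      rw [← pairing_cd, h.eikonal]; linarith
    have hk : Continuous fun y => kfac b (D y c) :=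
      hK2.comp (continuous_id.prodMk continuous_const)
    obtain ⟨k₀, hk₀, hk₀b⟩ := hK.exists_forall_le' hk.continuousOn (a := (0 : ℝ))
      fun y _ => kfac_pos b (h.dist_nonneg y c)
    have hcont : Continuous fun y => kfac b (D y c) * fderiv ℝ (D y) c v := by
      refine hk.mul ?_
      simp only [cd_dot]
      exact ((contDiff_logCovector h).continuous.comp
        (continuous_const.prodMk continuous_id)).dotProduct continuous_const
    have hpos : ∫ y, W y * (kfac b (D y c) * fderiv ℝ (D y) c v) ∂μ < 0 := by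
      refine lt_of_le_of_lt (integral_mono_ae (hI hcont) ((hIW.const_mul (k₀ * (R - D o c)))) ?_) ?_
      · filter_upwards [hμ] with y hy
        have h1 := h.cosine o y c
        have h2 := dist_symm h y c
        have h3 := h.dist_nonneg y c
        simp only [v, map_neg, mul_neg]
        rw [← pairing_cd, h.pairing_comm]
        have hp : D o c - R ≤ pairing G c (cd (D o) c) (cd (D y) c) := by linarith
        have := mul_le_mul_of_nonneg_left (mul_le_mul (hk₀b y hy) hp (by linarith)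
          (kfac_pos b (h.dist_nonneg y c)).le) (hW0 y hy).le
        linarith
      · rw [integral_const_mul]
        exact mul_neg_of_neg_of_pos (mul_neg_of_pos_of_neg hk₀ (by linarith)) hZ
    have hline : HasDerivAt (fun t : ℝ => D o (c + t • v)) (fderiv ℝ (D o) c v) 0 :=
      ((h.contDiff_D o).differentiable two_ne_zero c).hasFDerivAt.comp_hasDerivAt_of_eq 0
        (hasDerivAt_line c v) (by simp)
    have hΦt := hder c v
    have e1 : ∀ᶠ t in 𝓝[>] (0 : ℝ), slope (fun t : ℝ => D o (c + t • v)) 0 t < 0 :=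
      ((hasDerivAt_iff_tendsto_slope.1 hline).mono_left
        (nhdsWithin_mono _ fun t (ht : 0 < t) => ne_of_gt ht)).eventually (eventually_lt_nhds hdo)
    have e2 : ∀ᶠ t in 𝓝[>] (0 : ℝ), slope (fun t : ℝ => Φ (c + t • v)) 0 t < 0 :=
      ((hasDerivAt_iff_tendsto_slope.1 hΦt).mono_left
        (nhdsWithin_mono _ fun t (ht : 0 < t) => ne_of_gt ht)).eventually (eventually_lt_nhds hpos)
    obtain ⟨t, ⟨t1, t2⟩, ht⟩ := ((e1.and e2).and self_mem_nhdsWithin).exists
    simp only [slope_def_field, sub_zero, zero_smul, add_zero] at t1 t2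
    rw [div_lt_iff₀ ht, zero_mul, sub_neg] at t1 t2
    exact absurd (hmin (show c + t • v ∈ K' from t1.le.trans hcK')) (not_le.2 t2)
  refine ⟨c, hcR, fun i => ?_⟩
  have hlm : IsLocalMin (fun t : ℝ => Φ (c + t • Pi.single i 1)) 0 := by
    have hev : ∀ᶠ t : ℝ in 𝓝 0, D o (c + t • Pi.single i 1) < R + 1 :=
      ((continuous_D h o).comp (by fun_prop : Continuous fun t : ℝ => c + t • (Pi.single i 1 : Fin n → ℝ))
        ).continuousAt.eventually_lt continuousAt_const (by simp; linarith)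
    filter_upwards [hev] with t ht
    simpa using hmin (show c + t • Pi.single i 1 ∈ K' from ht.le)
  exact hlm.hasDerivAt_eq_zero (hder c (Pi.single i 1))

/-- Finitely many points centre every weight up to `κ`. -/
theorem exists_netB (h : IsCH G D) (b : ℝ) (o : Fin n → ℝ) {R κ : ℝ} (hR : 0 < R) (hκ : 0 < κ) :
    ∃ N : Set (Fin n → ℝ), N.Finite ∧ o ∈ N ∧ (∀ c ∈ N, D o c ≤ R) ∧
      ∀ (μ : Measure (Fin n → ℝ)) [IsFiniteMeasure μ] (W : (Fin n → ℝ) → ℝ),
        (∀ᵐ y ∂μ, D o y ≤ R) → PosOn {y | D o y ≤ R} W → 0 < ∫ y, W y ∂μ →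
        ∃ c ∈ N, ∀ k, |∫ y, W y * bucoord G D b c y k ∂μ| ≤ κ * ∫ y, W y ∂μ := by
  set K := {y | D o y ≤ R}
  have hK : IsCompact K := h.proper o R
  obtain ⟨C, hC, hCb⟩ := exists_comparison hK (f := fun p : (Fin n → ℝ) × (Fin n → ℝ) => conorm G p.1 p.2)
    (g := fun p => ‖p.2‖) h.continuous_conorm (continuous_norm.comp continuous_snd)
    (fun y v a ha => by simp [h.conorm_smul, abs_of_nonneg ha])
    (fun y v a ha => by simp [norm_smul, abs_of_nonneg ha]) (fun y _ v hv => norm_pos_iff.2 hv)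
  have huc := (hK.prod hK).uniformContinuousOn_of_continuous
    (continuous_kLog h b).continuousOn
  obtain ⟨ρ, hρ, hρb⟩ := Metric.uniformContinuousOn_iff.1 huc (κ / C) (by positivity)
  obtain ⟨t, htK, htf, htc⟩ := hK.finite_cover_balls hρ
  have ho : D o o ≤ R := by rw [h.dist_self]; exact hR.le
  refine ⟨insert o t, htf.insert o, mem_insert _ _, ?_, fun μ _ W hμ hW hZ => ?_⟩
  · rintro c (rfl | hc)
    · exact ho
    · exact htK hc
  obtain ⟨cs, hcs, hzero⟩ := exists_centreB h b o hR hμ hW.1 hW.2 hZ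
  obtain ⟨c, hc, hball⟩ := mem_iUnion₂.1 (htc hcs)
  refine ⟨c, mem_insert_of_mem o hc, fun k => ?_⟩
  have hcK : c ∈ K := htK hc
  have hI : ∀ {g : (Fin n → ℝ) → ℝ}, Continuous g → Integrable (fun y => W y * g y) μ :=
    fun hg => integrable_carrier hK hμ (hW.1.mul hg.continuousOn)
  have hIW : Integrable W μ := integrable_carrier hK hμ hW.1
  have hcont : ∀ p i, Continuous fun y => kfac b (D y p) * cd (D y) p i := fun p i =>
    (continuous_apply i).comp ((continuous_kLog h b).comp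
      (continuous_const.prodMk continuous_id))
  set X : Fin n → ℝ := fun i => ∫ y, W y * (kfac b (D y c) * cd (D y) c i) ∂μ
  have e : ∫ y, W y * bucoord G D b c y k ∂μ = (frame G c *ᵥ X) k := by
    simp only [bucoord, ucoord, Pi.smul_apply, smul_eq_mul, mulVec, dotProduct, X, Finset.mul_sum]
    rw [integral_finsetSum _ fun i _ => ((hI (hcont c i)).const_mul (frame G c k i)).congr
      (Eventually.of_forall fun y => by ring)]
    refine Finset.sum_congr rfl fun i _ => ?_
    rw [← integral_const_mul]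
    exact integral_congr_ae (Eventually.of_forall fun y => by ring)
  rw [e]
  refine (abs_frame_mulVec_le h c X k).trans ((hCb c hcK X).trans ?_)
  have hX : ‖X‖ ≤ κ / C * ∫ y, W y ∂μ := by
    refine (pi_norm_le_iff_of_nonneg (by positivity)).2 fun i => ?_
    rw [Real.norm_eq_abs, show X i = ∫ y, W y * (kfac b (D y c) * cd (D y) c i - kfac b (D y cs) * cd (D y) cs i) ∂μ by
      simp only [X, mul_sub]
      rw [integral_sub (hI (hcont c i)) (hI (hcont cs i)), hzero i, sub_zero], ← integral_const_mul]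
    refine abs_integral_le_integral_abs.trans (integral_mono_ae
      (hI ((hcont c i).sub (hcont cs i))).abs (hIW.const_mul _) ?_)
    filter_upwards [hμ] with y hy
    have hd : dist (cs, y) (c, y) < ρ := by
      rw [Prod.dist_eq]
      simp only [dist_self]
      rw [max_eq_left dist_nonneg]
      exact hball
    have h1 := (hρb (cs, y) ⟨hcs, hy⟩ (c, y) ⟨hcK, hy⟩ hd).le
    rw [dist_eq_norm] at h1
    have h2 := (norm_le_pi_norm ((fun j => kfac b (D y cs) * cd (D y) cs j) -
      fun j => kfac b (D y c) * cd (D y) c j) i).trans h1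
    rw [Real.norm_eq_abs, Pi.sub_apply, abs_sub_comm] at h2
    rw [abs_mul, abs_of_pos (hW.2 y hy), mul_comm]
    exact mul_le_mul_of_nonneg_right h2 (hW.2 y hy).le
  calc C * ‖X‖ ≤ C * (κ / C * ∫ y, W y ∂μ) := mul_le_mul_of_nonneg_left hX hC.le
    _ = _ := by field_simp

/-- The centres exist. -/
theorem netPinB (n : ℕ) : NetPinB n := fun _ _ h b o _ _ hR hκ => exists_netB h b o hR hκ

/-- Near a centre the Klein coordinates nearly preserve short distances. -/
theorem exists_near_isometryB (h : IsCH G D) (b : ℝ) {K : Set (Fin n → ℝ)} (hK : IsCompact K)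
    {ω : ℝ} (hω : 0 < ω) (hω1 : ω ≤ 1) :
    ∃ r ρ : ℝ, 0 < r ∧ 0 < ρ ∧ ∀ y ∈ K, ∀ c ∈ K, D y c ≤ r → ∀ z z' : Fin n → ℝ,
      ‖z - y‖ ≤ ρ → ‖z' - y‖ ≤ ρ →
        (1 - ω) * qf G y (z - z') ≤
          (bucoord G D b c z - bucoord G D b c z') ⬝ᵥ (bucoord G D b c z - bucoord G D b c z') := by
  obtain ⟨r₁, ρ₁, hr₁, hρ₁, hiso⟩ := exists_near_isometry h hK (show 0 < ω / 4 by linarith)
  obtain ⟨B, hB⟩ := hK.isBounded.subset_closedBall (0 : Fin n → ℝ)
  set S := Metric.closedBall (0 : Fin n → ℝ) (B + 1)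
  have hS : IsCompact S := isCompact_closedBall _ _
  -- Lipschitz bound for the factor
  have hkd : ∀ c, ContDiff ℝ 1 fun z => kfac b (D z c) := fun c =>
    (contDiff_kfac_dist h b).comp (contDiff_id.prodMk contDiff_const)
  have hkc : Continuous fun p : (Fin n → ℝ) × (Fin n → ℝ) =>
      fderiv ℝ (fun z => kfac b (D z p.1)) p.2 :=
    (ContDiff.fderiv (n := 0) (m := 1)
      (f := fun (p : (Fin n → ℝ) × (Fin n → ℝ)) (z : Fin n → ℝ) => kfac b (D z p.1))
      ((contDiff_kfac_dist h b).comp (contDiff_snd.prodMk (contDiff_fst.comp contDiff_fst)))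
      contDiff_snd (by simp)).continuous
  obtain ⟨L', hL'⟩ := (hK.prod hS).bddAbove_image hkc.norm.continuousOn
  set L := max L' 0
  obtain ⟨C, hC, hCb⟩ := exists_comparison hK (f := fun p : (Fin n → ℝ) × (Fin n → ℝ) => ‖p.2‖)
    (g := fun p => √(qf G p.1 p.2)) (continuous_norm.comp continuous_snd)
    (Real.continuous_sqrt.comp (continuous_qf h))
    (fun y v a ha => by simp [norm_smul, abs_of_nonneg ha])
    (fun y v a ha => by simp [qf_smul, Real.sqrt_mul (sq_nonneg a), Real.sqrt_sq ha])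
    (fun y _ v hv => Real.sqrt_pos.2 (qf_pos h y hv))
  obtain ⟨η, hη, hηe⟩ : ∃ η : ℝ, 0 < η ∧ L * C * η ≤ ω / 8 :=
    ⟨ω / (8 * (L * C + 1)), by positivity, by
      rw [mul_div_assoc', div_le_div_iff₀ (by positivity) (by norm_num)]
      nlinarith [mul_nonneg (mul_nonneg (le_max_right L' 0) hC.le) hω.le]⟩
  -- smallness of the distance and of the factor
  obtain ⟨t₀, ht₀, hkt⟩ : ∃ t₀ : ℝ, 0 < t₀ ∧ ∀ t, 0 ≤ t → t ≤ t₀ → 1 - ω / 8 ≤ kfac b t := by
    have hc := (contDiffAt_kfac b (le_refl (0 : ℝ))).continuousAt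
    have he : ∀ᶠ t in 𝓝 (0 : ℝ), 1 - ω / 8 ≤ kfac b t :=
      hc.eventually (eventually_ge_nhds (by rw [kfac_at_zero]; linarith))
    obtain ⟨t₀, ht₀, ht⟩ := Metric.eventually_nhds_iff.1 he
    refine ⟨t₀ / 2, half_pos ht₀, fun t h0 h1 => ht ?_⟩
    rw [Real.dist_eq, sub_zero, abs_of_nonneg h0]
    linarith
  obtain ⟨τ, hτ, hτη, hτt⟩ : ∃ τ : ℝ, 0 < τ ∧ 2 * τ ≤ η ∧ (2 * τ) ^ 2 / 2 ≤ t₀ :=
    ⟨min (η / 2) (√t₀ / 2), lt_min (half_pos hη) (half_pos (Real.sqrt_pos.2 ht₀)),
      by linarith [min_le_left (η / 2) (√t₀ / 2)], by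
        have h1 : 2 * min (η / 2) (√t₀ / 2) ≤ √t₀ := by linarith [min_le_right (η / 2) (√t₀ / 2)]
        have h2 := pow_le_pow_left₀ (by positivity) h1 2
        rw [Real.sq_sqrt ht₀.le] at h2
        linarith⟩
  have huc := (hK.prod hS).uniformContinuousOn_of_continuous h.continuous_D.continuousOn
  obtain ⟨ρ₂, hρ₂, hρb⟩ := Metric.uniformContinuousOn_iff.1 huc (τ ^ 2 / 2) (by positivity)
  refine ⟨min r₁ (τ ^ 2 / 2), min ρ₁ (min (ρ₂ / 2) 1), lt_min hr₁ (by positivity),
    lt_min hρ₁ (lt_min (half_pos hρ₂) one_pos), fun y hy c hc hD z z' hz hz' => ?_⟩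
  have hyB : ‖y‖ ≤ B := by simpa using hB hy
  have hball : ∀ w, ‖w - y‖ ≤ min ρ₁ (min (ρ₂ / 2) 1) → w ∈ S ∧ √(2 * D w c) ≤ 2 * τ := by
    intro w hw
    have hw1 : ‖w - y‖ ≤ 1 := hw.trans ((min_le_right _ _).trans (min_le_right _ _))
    have hw2 : ‖w - y‖ ≤ ρ₂ / 2 := hw.trans ((min_le_right _ _).trans (min_le_left _ _))
    have hwS : w ∈ S := mem_closedBall_zero_iff.2 (by linarith [norm_le_norm_add_norm_sub' w y])
    refine ⟨hwS, (Sharp.dist_triangle h w y c).trans ?_⟩
    have h1 := hρb (y, w) ⟨hy, hwS⟩ (y, y) ⟨hy, mem_closedBall_zero_iff.2 (by linarith)⟩ (by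
      rw [Prod.dist_eq]
      simp only [dist_self]
      rw [max_eq_right dist_nonneg, dist_eq_norm]
      linarith)
    rw [Real.dist_eq, h.dist_self, sub_zero] at h1
    have a1 : √(2 * D w y) ≤ τ := by
      rw [Real.sqrt_le_left hτ.le, Sharp.dist_symm h w y]
      linarith [le_abs_self (D y w)]
    have a2 : √(2 * D y c) ≤ τ := by
      rw [Real.sqrt_le_left hτ.le]
      linarith [hD.trans (min_le_right _ _)]
    linarith
  obtain ⟨hzS, hzd⟩ := hball z hz
  obtain ⟨-, hzd'⟩ := hball z' hz'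
  have hk : 1 - ω / 8 ≤ kfac b (D z c) := hkt _ (h.dist_nonneg _ _) (by
    have h1 := pow_le_pow_left₀ (Real.sqrt_nonneg _) hzd 2
    rw [Real.sq_sqrt (by linarith [h.dist_nonneg z c])] at h1
    linarith)
  have hΔk : |kfac b (D z c) - kfac b (D z' c)| ≤ L * (C * √(qf G y (z - z'))) := by
    refine le_trans ?_ (mul_le_mul_of_nonneg_left (hCb y hy (z - z')) (le_max_right _ _))
    exact (convex_closedBall (0 : Fin n → ℝ) (B + 1)).norm_image_sub_le_of_norm_fderiv_le
      (f := fun w => kfac b (D w c)) (fun w _ => (hkd c).differentiable one_ne_zero w)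
      (fun w hw => (hL' ⟨(c, w), ⟨hc, hw⟩, rfl⟩).trans (le_max_left _ _)) (hball z' hz').1 hzS
  have h1 := hiso y hy c hc (hD.trans (min_le_left _ _)) z z' (hz.trans (min_le_left _ _))
    (hz'.trans (min_le_left _ _))
  set q := qf G y (z - z')
  have hq : 0 ≤ q := qf_nonneg h _ _
  set a := ucoord G D c z
  set a' := ucoord G D c z'
  set k := kfac b (D z c)
  set k' := kfac b (D z' c)
  have t1 := sqrt_dot_triangle (k • (a - a')) (k • a - k' • a')
  rw [show k • (a - a') - (k • a - k' • a') = (k' - k) • a' by rw [smul_sub, sub_smul]; abel] at t1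
  simp only [smul_dotProduct, dotProduct_smul, smul_eq_mul, ← mul_assoc, ← sq] at t1
  rw [Real.sqrt_mul (sq_nonneg k), Real.sqrt_mul (sq_nonneg (k' - k)), Real.sqrt_sq_eq_abs,
    Real.sqrt_sq_eq_abs, abs_of_pos (kfac_pos b (h.dist_nonneg z c)), ucoord_dot h,
    abs_sub_comm] at t1
  have t2 : (1 - ω / 4) * √q ≤ √((a - a') ⬝ᵥ (a - a')) := by
    refine Real.le_sqrt_of_sq_le (le_trans ?_ h1)
    rw [mul_pow, Real.sq_sqrt hq]
    exact mul_le_mul_of_nonneg_right (by nlinarith) hq
  have t3 : |k - k'| * √(2 * D z' c) ≤ ω / 8 * √q := by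
    calc |k - k'| * √(2 * D z' c) ≤ L * (C * √q) * η :=
          mul_le_mul hΔk (hzd'.trans hτη) (Real.sqrt_nonneg _) (by positivity)
      _ = L * C * η * √q := by ring
      _ ≤ _ := mul_le_mul_of_nonneg_right hηe (Real.sqrt_nonneg _)
  have t4 : (1 - ω / 2) * √q ≤ √((k • a - k' • a') ⬝ᵥ (k • a - k' • a')) := by
    have t5 : (1 - ω / 8) * ((1 - ω / 4) * √q) ≤ k * √((a - a') ⬝ᵥ (a - a')) :=
      mul_le_mul hk t2 (mul_nonneg (by linarith) (Real.sqrt_nonneg _))
        (kfac_pos b (h.dist_nonneg z c)).le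
    nlinarith [mul_nonneg (Real.sqrt_nonneg q) (sq_nonneg ω)]
  have hnn : 0 ≤ (k • a - k' • a') ⬝ᵥ (k • a - k' • a') :=
    Finset.sum_nonneg fun i _ => mul_self_nonneg _
  have t6 := pow_le_pow_left₀ (mul_nonneg (by linarith) (Real.sqrt_nonneg _)) t4 2
  rw [mul_pow, Real.sq_sqrt hq, Real.sq_sqrt hnn] at t6
  show (1 - ω) * q ≤ (k • a - k' • a') ⬝ᵥ (k • a - k' • a')
  exact (mul_le_mul_of_nonneg_right (by nlinarith) hq).trans t6

end Vale.Agent.P219.CH.Bend
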