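import Vale.Agent.P219.Bend.Geom
import Vale.Agent.P219.CH.Yau

/-!
# P219: the Hessian comparison for `cosh (b d)` implies the weakened comparison for `d`
-/

noncomputable section

open MeasureTheory Set Filter Topology Matrix

namespace Vale.Agent.P219.CH.Bend

open Sharp

variable {n : ℕ} {G : (Fin n → ℝ) → Matrix (Fin n) (Fin n) ℝ}
  {D : (Fin n → ℝ) → (Fin n → ℝ) → ℝ} {b : ℝ}

/-- `BendCH` implies `Bent`. -/
theorem BendCH.bent (hb : BendCH G D b) (h : IsCH G D) : Bent G D b := by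
  intro x y v
  have hD := h.dist_nonneg x y
  have hX := arg_nonneg b hD
  have hode := csh_ode (√(2 * b ^ 2 * D x y))
  rw [Real.sq_sqrt hX] at hode
  have hs := cshd_pos hX
  have hh := mul_le_mul_of_nonneg_left (hb.hessian x y v) (mul_nonneg two_pos.le hD)
  have h1 : |pairing G y (cd (D x) y) (G y *ᵥ v)| ≤ _ := h.abs_pairing_le y _ _
  rw [pairing, h.inv_mulVec] at h1
  have h2 := pow_le_pow_left₀ (abs_nonneg _) h1 2
  have e : pairing G y (G y *ᵥ v) (G y *ᵥ v) = v ⬝ᵥ (G y *ᵥ v) := by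
    rw [pairing, h.inv_mulVec, dotProduct_comm]
  rw [sq_abs, mul_pow, h.conorm_sq, h.conorm_sq, h.eikonal, e] at h2
  have hkey : 2 * (b * √(2 * D x y)) * cshd (2 * b ^ 2 * D x y) ≤ csh (2 * b ^ 2 * D x y) := by
    have e2 : (b * √(2 * D x y)) ^ 2 = 2 * b ^ 2 * D x y := by
      rw [mul_pow, Real.sq_sqrt (by linarith)]; ring
    rw [← e2, two_mul_cshd_sq, csh_sq]
    exact (Real.sinh_lt_cosh _).le
  refine le_of_mul_le_mul_left ?_ (mul_pos two_pos hs)
  have h5 := mul_le_mul_of_nonneg_right hkey (sub_nonneg.2 h2)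
  linear_combination hh + h5 + (cd (D x) y ⬝ᵥ v) ^ 2 * hode

end Vale.Agent.P219.CH.Bend
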