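import Vale.Agent.P219.Bend.GainNode

/-!
# P219, curvature at most `-b ^ 2`: the entropy gain along the Klein channel
-/

noncomputable section

open MeasureTheory Set Filter Topology Matrix

namespace Vale.Agent.P219.CH.Bend

open Sharp

variable {n : ℕ} {G : (Fin n → ℝ) → Matrix (Fin n) (Fin n) ℝ}
  {D : (Fin n → ℝ) → (Fin n → ℝ) → ℝ} {K N : Set (Fin n → ℝ)} {u : (Fin n → ℝ) → ℝ}
  {ctr : ((Fin n → ℝ) → ℝ) → (Fin n → ℝ)} {b δ β : ℝ}

/-- The mean squared Klein distance of a weight to its centre. -/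
def centreIntB (G : (Fin n → ℝ) → Matrix (Fin n) (Fin n) ℝ) (D : (Fin n → ℝ) → (Fin n → ℝ) → ℝ)
    (b : ℝ) (ctr : ((Fin n → ℝ) → ℝ) → (Fin n → ℝ)) (u W : (Fin n → ℝ) → ℝ) : ℝ :=
  ∫ y, W y * bD D b (ctr W) y ∂pm G u

lemma gain_nodes_good_bend (h : IsCH G D) (hβ : β < 1)
    (hvb : ∀ c ∈ N, ∀ k, ∀ y ∈ K, |bstep G D b δ c k y| ≤ β) :
    ∀ j, ∀ W ∈ nodes N (bstep G D b δ) j, GoodW K W :=
  nodes_induction ⟨contDiff_const, continuousOn_const, fun _ _ => one_pos⟩ fun c hc k W hW => by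
    obtain ⟨hp, hm⟩ := hW.2.mul_step (contDiff_bstep h b δ c k).continuous.continuousOn
      fun y hy => (hvb c hc k y hy).trans_lt hβ
    exact ⟨⟨hW.1.mul (contDiff_const.add (contDiff_bstep h b δ c k)), hp⟩,
      ⟨hW.1.mul (contDiff_const.sub (contDiff_bstep h b δ c k)), hm⟩⟩

lemma chanAvg_mass_of_good (h : IsCH G D) (hK : IsCompact K) (hu : Comp K u) (hN : ∀ W, ctr W ∈ N)
    {vv : (Fin n → ℝ) → Fin n → (Fin n → ℝ) → ℝ} {j : ℕ}
    (hgood : ∀ W ∈ nodes N vv j, GoodW K W) :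
    chanAvg ctr vv j (fun W => ∫ y, W y ∂pm G u) (fun _ => 1) = per G u := by
  have := isFiniteMeasure_pm h hK hu
  have e := chanAvg_integral_mul hK (ae_mem_pm h hK hu) hN (vv := vv) (j := j)
    (fun W hW => (hgood W hW).2) (f := fun _ => (1 : ℝ)) continuousOn_const
  simp only [mul_one] at e
  rw [e, integral_const, smul_eq_mul, mul_one, Measure.real, pm_univ h hK hu]

lemma cd_bstep (h : IsCH G D) (b δ : ℝ) (c : Fin n → ℝ) (k : Fin n) (y : Fin n → ℝ) :
    cd (bstep G D b δ c k) y = √δ • cd (fun z => bucoord G D b c z k) y := by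
  funext i
  have := ((contDiff_bucoord h b c k).differentiable one_ne_zero y).hasFDerivAt.const_mul √δ
  simp only [cd, Pi.smul_apply]
  rw [show fderiv ℝ (bstep G D b δ c k) y = _ from this.fderiv]
  simp

/-- A block of Klein steps adds at most `δ (n - 1)` times the bent mass. -/
lemma fisher_block_bend (h : IsCH G D) (hb : BendCH G D b) (hK : IsCompact K) (hu : Comp K u)
    (hδ : 0 ≤ δ) {c : Fin n → ℝ} (hβ : β < 1) (hβ0 : 0 ≤ β)
    (hvb : ∀ k, ∀ y ∈ K, |bstep G D b δ c k y| ≤ β)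
    {W : (Fin n → ℝ) → ℝ} (hW : ContDiff ℝ 1 W) (hWp : PosOn K W) :
    blockAvg (bstep G D b δ c) (List.finRange n) (fisher G u) W ≤
      fisher G u W + δ * ((n : ℝ) - 1) / (1 - β ^ 2) *
        ((∫ y, W y ∂pm G u) - 2 * b ^ 2 * ∫ y, W y * bD D b c y ∂pm G u) := by
  have hlt : ∀ k, ∀ y ∈ K, |bstep G D b δ c k y| < 1 := fun k y hy => (hvb k y hy).trans_lt hβ
  have iW := integrable_pm_of_continuous h hK hu hWp.1
  have iD : Integrable (fun y => W y * bD D b c y) (pm G u) :=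
    integrable_pm_of_continuous h hK hu (hWp.1.mul (continuous_bD h b c).continuousOn)
  rw [fisher_block h hK hu (contDiff_bstep h b δ c) hlt _ _ hW hWp, ← integral_const_mul (2 * b ^ 2),
    ← integral_sub iW (iD.const_mul _), ← integral_const_mul]
  refine add_le_add le_rfl (integral_mono_ae
    (integrable_mul_list h hK hu hW.continuous (contDiff_bstep h b δ c) hlt _)
    ((iW.sub (iD.const_mul _)).const_mul _) ?_)
  filter_upwards [ae_mem_pm h hK hu, ae_cd_ne_zero h hu.1] with y hy hy0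
  have hb2 : 0 < 1 - β ^ 2 := sub_pos.2 ((sq_lt_one_iff₀ hβ0).2 hβ)
  rw [← List.ofFn_eq_map, List.sum_ofFn]
  calc W y * ∑ k, fstep G u (bstep G D b δ c k) y
      ≤ W y * ∑ k, δ * tanSq G y (cd u y) (cd (fun z => bucoord G D b c z k) y) / (1 - β ^ 2) :=
        mul_le_mul_of_nonneg_left (Finset.sum_le_sum fun k _ => by
          rw [fstep, cd_bstep h, tanSq_smul h, Real.sq_sqrt hδ]
          refine div_le_div_of_nonneg_left (mul_nonneg hδ (tanSq_nonneg' h _ _ _)) hb2 ?_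
          have := pow_le_pow_left₀ (abs_nonneg _) (hvb k y hy) 2
          rw [sq_abs] at this
          linarith) (hWp.2 y hy).le
    _ = δ / (1 - β ^ 2) * W y *
          ∑ k, tanSq G y (cd u y) (cd (fun z => bucoord G D b c z k) y) := by
        rw [Finset.mul_sum, Finset.mul_sum]
        exact Finset.sum_congr rfl fun k _ => by ring
    _ ≤ δ / (1 - β ^ 2) * W y * (((n : ℝ) - 1) * (1 - b ^ 2 * (2 * bD D b c y))) :=
        mul_le_mul_of_nonneg_left (sum_tanSq_bucoord_le h hb c y hy0)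
          (mul_nonneg (div_nonneg hδ hb2.le) (hWp.2 y hy).le)
    _ = _ := by ring

/-- The average Fisher information after `j` blocks, bounded and nonnegative. -/
lemma chanAvg_fisher_bend (h : IsCH G D) (hb : BendCH G D b) (hK : IsCompact K) (hu : Comp K u)
    (hN : ∀ W, ctr W ∈ N) (hδ : 0 ≤ δ) (hβ : β < 1) (hβ0 : 0 ≤ β)
    (hvb : ∀ c ∈ N, ∀ k, ∀ y ∈ K, |bstep G D b δ c k y| ≤ β) (j : ℕ) :
    0 ≤ chanAvg ctr (bstep G D b δ) j (fisher G u) (fun _ => 1) ∧
    chanAvg ctr (bstep G D b δ) j (fisher G u) (fun _ => 1) ≤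
      δ * ((n : ℝ) - 1) / (1 - β ^ 2) * (j * per G u - 2 * b ^ 2 * ∑ i ∈ Finset.range j,
        chanAvg ctr (bstep G D b δ) i (centreIntB G D b ctr u) (fun _ => 1)) := by
  refine ⟨(chanAvg_const ctr (bstep G D b δ) 0 j fun _ => 1).symm.trans_le
    (chanAvg_mono hN j fun W hW => integral_nonneg_of_ae ((ae_mem_pm h hK hu).mono fun y hy =>
      div_nonneg (tanSq_nonneg' h _ _ _) ((gain_nodes_good_bend h hβ hvb j W hW).2.2 y hy).le)), ?_⟩
  induction j with
  | zero =>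
    have e : fisher G u (fun _ => (1 : ℝ)) = 0 := by
      have : cd (fun _ : Fin n → ℝ => (1 : ℝ)) = fun _ => 0 := by funext y i; simp [cd]
      simp [fisher, this, tanSq, pairing]
    simp [chanAvg, e]
  | succ j ih =>
    rw [chanAvg_succ, Finset.sum_range_succ]
    have hgood := gain_nodes_good_bend h hβ hvb j
    refine (chanAvg_mono hN j (F' := fun W => fisher G u W +
      (δ * ((n : ℝ) - 1) / (1 - β ^ 2) * (∫ y, W y ∂pm G u) +
        -(δ * ((n : ℝ) - 1) / (1 - β ^ 2) * (2 * b ^ 2)) * centreIntB G D b ctr u W))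
      fun W hW => ?_).trans ?_
    · refine (fisher_block_bend h hb hK hu hδ hβ hβ0 (hvb (ctr W) (hN W)) (hgood W hW).1
        (hgood W hW).2).trans (le_of_eq ?_)
      rw [centreIntB]; ring
    · rw [chanAvg_add, chanAvg_add, chanAvg_const_mul, chanAvg_const_mul,
        chanAvg_mass_of_good h hK hu hN hgood]
      push_cast
      linarith

/-- The average entropy after `j` blocks. -/
lemma chanAvg_ent_bend (h : IsCH G D) (hK : IsCompact K) (hu : Comp K u) (hP : 0 < per G u)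
    (hN : ∀ W, ctr W ∈ N) {κ : ℝ} (hδ : 0 ≤ δ) (hβ : β < 1 / 2) (hβ0 : 0 ≤ β)
    (hvb : ∀ c ∈ N, ∀ k, ∀ y ∈ K, |bstep G D b δ c k y| ≤ β) (hρ : (1 + β) ^ n - 1 ≤ 1 / 2)
    (hctr : ∀ W, GoodW K W → ∀ k,
      |∫ y, W y * bucoord G D b (ctr W) y k ∂pm G u| ≤ κ * ∫ y, W y ∂pm G u) (j : ℕ) :
    chanAvg ctr (bstep G D b δ) j (ent (pm G u)) (fun _ => 1) +
        (1 - 2 * β) * δ * ∑ i ∈ Finset.range j,
          chanAvg ctr (bstep G D b δ) i (centreIntB G D b ctr u) (fun _ => 1) ≤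
      per G u * Real.log (per G u) +
        j * (n * (2 * (√δ * κ + ((1 + β) ^ n - 1) * β) ^ 2) * per G u) := by
  have := isFiniteMeasure_pm h hK hu
  have : NeZero (pm G u) := ⟨fun h0 => by
    have := pm_univ h hK hu; rw [h0] at this; simp at this; linarith⟩
  induction j with
  | zero =>
    simp [chanAvg, ent, integral_const, smul_eq_mul, Measure.real, pm_univ h hK hu]
  | succ j ih =>
    rw [chanAvg_succ, Finset.sum_range_succ]
    have hgood := gain_nodes_good_bend h (show β < 1 by linarith) hvb j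
    have key : ∀ W ∈ nodes N (bstep G D b δ) j,
        blockAvg (bstep G D b δ (ctr W)) (List.finRange n) (ent (pm G u)) W +
          (1 - 2 * β) * δ * centreIntB G D b ctr u W ≤
        ent (pm G u) W + n * (2 * (√δ * κ + ((1 + β) ^ n - 1) * β) ^ 2) * ∫ y, W y ∂pm G u := by
      intro W hW
      have h1 := ent_block hK (ae_mem_pm h hK hu)
        (fun k => (contDiff_bstep h b δ (ctr W) k).continuous.continuousOn) hβ0 hβ (hvb _ (hN W))
        (hgood W hW).2 (a := √δ * κ) (fun k => ?_) hρ (List.finRange n) (by simp)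
      · simp only [sum_bstep_sq h hδ, List.length_finRange] at h1
        have e : ∫ y, W y * (δ * (2 * bD D b (ctr W) y)) ∂pm G u =
            2 * δ * centreIntB G D b ctr u W := by
          rw [centreIntB, ← integral_const_mul]
          exact integral_congr_ae (Eventually.of_forall fun y => by ring)
        rw [e] at h1
        linarith
      · have e : ∫ y, W y * bstep G D b δ (ctr W) k y ∂pm G u =
            √δ * ∫ y, W y * bucoord G D b (ctr W) y k ∂pm G u := by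
          rw [← integral_const_mul]
          exact integral_congr_ae (Eventually.of_forall fun y => by simp only [bstep]; ring)
        rw [e, abs_mul, abs_of_nonneg (Real.sqrt_nonneg δ), mul_assoc]
        exact mul_le_mul_of_nonneg_left (hctr W (hgood W hW) k) (Real.sqrt_nonneg δ)
    have h2 := chanAvg_mono hN j key
    rw [chanAvg_add, chanAvg_const_mul, chanAvg_add, chanAvg_const_mul,
      chanAvg_mass_of_good h hK hu hN hgood] at h2
    push_cast
    linarith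

/-- The centre cost is the mean of the squared Klein distances to the centres. -/
lemma integral_centreCostB (h : IsCH G D) (hK : IsCompact K) (hu : Comp K u) (hN : ∀ W, ctr W ∈ N)
    {s : ℝ} {J : ℕ} (hβ : β < 1)
    (hvb : ∀ c ∈ N, ∀ k, ∀ y ∈ K, |bstep G D b (1 / (s ^ 2 * J)) c k y| ≤ β) :
    ∫ y, centreCostB G D b ctr s J y ∂pm G u = (J : ℝ)⁻¹ * ∑ i ∈ Finset.range J,
      chanAvg ctr (bstep G D b (1 / (s ^ 2 * J))) i (centreIntB G D b ctr u) (fun _ => 1) := by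
  have := isFiniteMeasure_pm h hK hu
  have hae := ae_mem_pm h hK hu
  have key : ∀ i, chanAvg ctr (bstep G D b (1 / (s ^ 2 * J))) i (centreIntB G D b ctr u) (fun _ => 1) =
      ∫ y, chanAvg ctr (bstep G D b (1 / (s ^ 2 * J))) i (fun W => W y * bD D b (ctr W) y) (fun _ => 1)
        ∂pm G u ∧
      ContinuousOn (fun y => chanAvg ctr (bstep G D b (1 / (s ^ 2 * J))) i
        (fun W => W y * bD D b (ctr W) y) (fun _ => 1)) K := fun i => by
    have h1 := integral_chanAvg hK hae hN (vv := bstep G D b (1 / (s ^ 2 * J))) i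
      (g := fun W y => W y * bD D b (ctr W) y) fun W hW =>
        ((gain_nodes_good_bend h hβ hvb i W hW).2.1.mul (continuous_bD h b _).continuousOn)
    exact ⟨h1.1, h1.2⟩
  simp only [centreCostB]
  rw [integral_const_mul, integral_finsetSum _ fun i _ => integrable_carrier hK hae (key i).2]
  exact congrArg _ (Finset.sum_congr rfl fun i _ => (key i).1.symm)

/-- The growth of the bent Fisher information against the centre distances, exactly. -/
lemma bent_growth {m A H η k b δ P κ : ℝ} {S Q : ℕ → ℝ} (hm : 0 < m) (hη : 0 < η) (hH : η ≤ H)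
    (hA : A - b ^ 2 * (m ^ 2 - 2 * m) ≤ H) (hk : 0 < k) (hk1 : k ≤ 1) (hδ : 0 ≤ δ) (hP : 0 < P)
    (hκ : 0 ≤ κ) (hS : ∀ j, 0 ≤ S j) (hQ0 : ∀ j, 0 ≤ Q j)
    (hQ : ∀ j : ℕ, Q j ≤ δ * m / k * (j * P - 2 * b ^ 2 * ∑ i ∈ Finset.range j, S i)) (J : ℕ)
    (hnode : ∀ j, j < J → ∀ lam : ℝ, 0 < lam →
      m * P ≤ lam / 2 * (A * P + Q j) + (lam⁻¹ + 2 * b ^ 2) * S j + κ) :
    H + m * (J * δ) - m * b ^ 2 * (2 * δ * (∑ i ∈ Finset.range J, S i) / P) ≤
      H * Real.exp ((2 * δ * (∑ i ∈ Finset.range J, S i) / P +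
        2 * (J * δ) * m * κ / (η * P)) / k / m) := by
  obtain ⟨Y, hY⟩ : ∃ Y : ℕ → ℝ, ∀ j : ℕ,
      Y j = H + m / k * (j * δ - b ^ 2 * (2 * δ * (∑ i ∈ Finset.range j, S i) / P)) := ⟨_, fun _ => rfl⟩
  have hH0 : 0 < H := hη.trans_le hH
  have hQY : ∀ j, Q j / P ≤ Y j - H := fun j => by
    rw [hY, add_sub_cancel_left, div_le_iff₀ hP]
    refine (hQ j).trans (le_of_eq ?_)
    field_simp
  have hYH : ∀ j, H ≤ Y j := fun j => by
    linarith [hQY j, div_nonneg (hQ0 j) hP.le]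
  have key : ∀ j, j ≤ J → Real.log (Y j) ≤ Real.log H +
      δ / k * (∑ i ∈ Finset.range j, (2 * S i / P / m + 2 * (κ / P) / η)) := by
    intro j
    induction j with
    | zero => intro _; simp [hY]
    | succ j ih =>
      intro hj
      have ih := ih (by omega)
      rw [Finset.sum_range_succ, mul_add]
      obtain ⟨T, hT⟩ : ∃ T, T = 2 * S j / P := ⟨_, rfl⟩
      obtain ⟨ε, hε⟩ : ∃ ε, ε = κ / P := ⟨_, rfl⟩
      have hT0 : 0 ≤ T := hT ▸ div_nonneg (by linarith [hS j]) hP.le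
      have hε0 : 0 ≤ ε := hε ▸ div_nonneg hκ hP.le
      have hYj : 0 < Y j := hH0.trans_le (hYH j)
      obtain ⟨Z, hZ⟩ : ∃ Z, Z = Y j + b ^ 2 * m ^ 2 := ⟨_, rfl⟩
      have hZ0 : 0 < Z := by rw [hZ]; positivity
      have h1 : m ≤ m / Z / 2 * (A + Q j / P) + ((m / Z)⁻¹ + 2 * b ^ 2) * (T / 2) + ε := by
        refine le_of_mul_le_mul_right ?_ hP
        refine (hnode j (by omega) (m / Z) (by positivity)).trans (le_of_eq ?_)
        rw [hT, hε]; field_simp
      have h2 : A + Q j / P ≤ Z - 2 * b ^ 2 * m := by rw [hZ]; linarith [hQY j]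
      have h3 : m ≤ m / Z / 2 * (Z - 2 * b ^ 2 * m) + ((m / Z)⁻¹ + 2 * b ^ 2) * (T / 2) + ε :=
        h1.trans (by linarith [mul_le_mul_of_nonneg_left h2 (show 0 ≤ m / Z / 2 by positivity)])
      have h4 : m ^ 2 * (Z + 2 * b ^ 2 * m) ≤ T * Z * (Z + 2 * b ^ 2 * m) + 2 * m * ε * Z := by
        have h := mul_le_mul_of_nonneg_left h3 (show 0 ≤ 2 * m * Z by positivity)
        have e : 2 * m * Z * (m / Z / 2 * (Z - 2 * b ^ 2 * m) +
            ((m / Z)⁻¹ + 2 * b ^ 2) * (T / 2) + ε) =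
            m ^ 2 * (Z - 2 * b ^ 2 * m) + T * Z * (Z + 2 * b ^ 2 * m) + 2 * m * ε * Z := by
          field_simp
        rw [e] at h
        linarith
      have h5 : m ^ 2 ≤ T * Z + 2 * m * ε := by
        refine le_of_mul_le_mul_right ?_ (show 0 < Z + 2 * b ^ 2 * m by positivity)
        have : 0 ≤ 2 * m * ε * (2 * b ^ 2 * m) := by positivity
        linarith
      have h6 : m * (1 - b ^ 2 * T) / Y j ≤ T / m + 2 * ε / η := by
        have h7 : 2 * ε / Y j ≤ 2 * ε / η :=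
          div_le_div_of_nonneg_left (by linarith) hη (hH.trans (hYH j))
        have h8 : m * (1 - b ^ 2 * T) / Y j ≤ T / m + 2 * ε / Y j := by
          rw [div_add_div _ _ hm.ne' hYj.ne', div_le_div_iff₀ hYj (by positivity)]
          have : m ^ 2 * (1 - b ^ 2 * T) ≤ T * Y j + 2 * m * ε := by rw [hZ] at h5; linarith
          linarith [mul_le_mul_of_nonneg_right this hYj.le]
        linarith
      have hs : Y (j + 1) = Y j + δ / k * (m * (1 - b ^ 2 * T)) := by
        rw [hY, hY, Finset.sum_range_succ, hT]; push_cast; ring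
      have h9 := Real.log_le_sub_one_of_pos (div_pos (hH0.trans_le (hYH (j + 1))) hYj)
      rw [Real.log_div (hH0.trans_le (hYH (j + 1))).ne' hYj.ne'] at h9
      have e2 : Y (j + 1) / Y j - 1 = δ / k * (m * (1 - b ^ 2 * T) / Y j) := by
        rw [hs]; field_simp; ring
      rw [e2] at h9
      have h10 := mul_le_mul_of_nonneg_left h6 (show 0 ≤ δ / k by positivity)
      rw [hT, hε] at h10
      rw [hT] at h9
      linarith
  obtain ⟨GG, hGG⟩ : ∃ GG, GG = 2 * δ * (∑ i ∈ Finset.range J, S i) / P := ⟨_, rfl⟩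
  have hJ := key J le_rfl
  have e : δ / k * (∑ i ∈ Finset.range J, (2 * S i / P / m + 2 * (κ / P) / η)) =
      (GG + 2 * (J * δ) * m * κ / (η * P)) / k / m := by
    rw [hGG, Finset.sum_add_distrib, Finset.sum_const, Finset.card_range, nsmul_eq_mul,
      ← Finset.sum_div, ← Finset.sum_div, ← Finset.mul_sum]
    field_simp
  rw [e] at hJ
  rw [← hGG]
  have hY' : H + m * (J * δ) - m * b ^ 2 * GG ≤ Y J := by
    have h1 := hYH J
    rw [hY, ← hGG] at h1 ⊢
    have h2 : 0 ≤ J * δ - b ^ 2 * GG := by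
      by_contra hcon
      have := mul_neg_of_pos_of_neg (show 0 < m / k by positivity) (not_le.1 hcon)
      linarith
    have h3 : m * (J * δ - b ^ 2 * GG) ≤ m / k * (J * δ - b ^ 2 * GG) :=
      mul_le_mul_of_nonneg_right (le_div_self hm.le hk hk1) h2
    linarith
  refine hY'.trans ?_
  calc Y J = Real.exp (Real.log (Y J)) := (Real.exp_log (hH0.trans_le (hYH J))).symm
    _ ≤ Real.exp (Real.log H + (GG + 2 * (J * δ) * m * κ / (η * P)) / k / m) := Real.exp_le_exp.2 hJ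
    _ = _ := by rw [Real.exp_add, Real.exp_log hH0]

/-- The budget of the bent gain. -/
lemma bend_budget {P P₀ Bd γ β S E plogp r e X c : ℝ} (hP : 0 < P) (hP₀ : P ≤ P₀) (hγ : 0 ≤ γ)
    (hBd : 0 ≤ Bd) (hβ0 : 0 ≤ β) (hβ : β ≤ 1 / 4) (hc : 0 ≤ c) (hS0 : 0 ≤ S) (hS : S ≤ γ * Bd * P)
    (hE : E + (1 - 2 * β) * S ≤ plogp + r) (hr : r ≤ e / 2)
    (hβe : 3 * β * (2 * γ * Bd * P₀) ≤ e / 2) (hce : 2 * c ≤ e / 2)
    (hX : 2 * ((plogp + e - E) / P) ≤ X) :
    (2 * S / P + c / P) / (1 - β ^ 2) ≤ X ∧ 2 * S / P ≤ X := by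
  rw [← mul_div_assoc, div_le_iff₀ hP] at hX
  have hβ2 : 0 < 1 - β ^ 2 := by nlinarith
  have h1 : S ≤ γ * Bd * P₀ :=
    hS.trans (mul_le_mul_of_nonneg_left hP₀ (mul_nonneg hγ hBd))
  have h2 : 3 * β * (2 * S) ≤ e / 2 :=
    le_trans (mul_le_mul_of_nonneg_left (by linarith) (by positivity)) hβe
  have hmain : (1 + β) * (2 * S + c) ≤ X * P := by
    have h3 : β * c ≤ c := mul_le_of_le_one_left hc (by linarith)
    linarith
  have hnum : 2 * S + c ≤ (1 - β ^ 2) * (X * P) := by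
    have h4 := mul_le_mul_of_nonneg_left hmain hβ2.le
    have h5 : (1 : ℝ) ≤ (1 - β ^ 2) * (1 + β) := by
      nlinarith [mul_nonneg hβ0 (show (0 : ℝ) ≤ 1 - β - β ^ 2 by nlinarith)]
    have h6 := mul_le_mul_of_nonneg_right h5 (show 0 ≤ 2 * S + c by linarith)
    linarith
  refine ⟨?_, ?_⟩
  · rw [← add_div, div_div, div_le_iff₀ (by positivity)]; linarith
  · rw [div_le_iff₀ hP]
    have := mul_nonneg hβ0 (show 0 ≤ 2 * S + c by linarith)
    linarith

/-- At almost minimisers the Klein channel lowers the entropy as much as on a hyperbolic sphere. -/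
theorem gainPinB (n : ℕ) : GainPinB n := by
  intro hn G D h b hb o R P₀ v₀ M θ s e η Φ hs hR hP₀ hv₀ hΦ hM hθ hs0 he hη
  have hn2 : (2 : ℝ) ≤ n := by exact_mod_cast hn
  obtain ⟨m, hm⟩ : ∃ m : ℝ, m = (n : ℝ) - 1 := ⟨_, rfl⟩
  have hm0 : 0 < m := by linarith
  set K : Set (Fin n → ℝ) := {y | D o y ≤ R}
  set K₁ : Set (Fin n → ℝ) := {y | D o y ≤ R + 1}
  have hK : IsCompact K := h.proper o R
  have hK₁ : IsCompact K₁ := h.proper o (R + 1)
  have hKK₁ : K ⊆ K₁ := fun y (hy : D o y ≤ R) => show D o y ≤ R + 1 by linarith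
  obtain ⟨B, hB0, hB⟩ : ∃ B : ℝ, 0 ≤ B ∧ ∀ y ∈ K₁, ∀ c ∈ K₁, D y c ≤ B := by
    obtain ⟨B, hB⟩ := (hK₁.prod hK₁).bddAbove_image (h.continuous_D.continuousOn (s := K₁ ×ˢ K₁))
    exact ⟨max B 0, le_max_right _ _,
      fun y hy c hc => (hB ⟨(y, c), ⟨hy, hc⟩, rfl⟩).trans (le_max_left _ _)⟩
  obtain ⟨κ₃, hκ₃⟩ : ∃ z : ℝ, z = e * η * s ^ 2 / (8 * m) := ⟨_, rfl⟩
  have hκ₃0 : 0 < κ₃ := by rw [hκ₃]; positivity
  obtain ⟨κ, hκ⟩ : ∃ z : ℝ, z = √(s ^ 2 * e / (16 * n * (P₀ + 1))) := ⟨_, rfl⟩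
  have hκ0 : 0 < κ := by rw [hκ]; positivity
  set bJ : ℕ → ℝ := fun J => √(1 / (s ^ 2 * J)) * √(2 * B)
  have hbt : Tendsto bJ atTop (𝓝 0) := by
    have h1 : Tendsto (fun J : ℕ => √(1 / (s ^ 2 * J))) atTop (𝓝 0) := by
      have h0 : Tendsto (fun J : ℕ => 1 / (s ^ 2 * J)) atTop (𝓝 0) :=
        (tendsto_const_div_atTop_nhds_zero_nat (1 / s ^ 2)).congr fun J => by rw [div_div]
      have := h0.sqrt
      rwa [Real.sqrt_zero] at this
    simpa [bJ] using h1.mul_const √(2 * B)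
  have hρt : Tendsto (fun J => (1 + bJ J) ^ n - 1) atTop (𝓝 0) := by
    simpa using ((hbt.const_add 1).pow n).sub_const 1
  obtain ⟨J₀, hJ₀⟩ := eventually_atTop.1 ((eventually_ge_atTop 1).and
    ((hbt.eventually (Iic_mem_nhds (by norm_num : (0 : ℝ) < 1 / 4))).and
    ((hρt.eventually (Iic_mem_nhds (by norm_num : (0 : ℝ) < 1 / 2))).and
    (((((hρt.pow 2).const_mul (4 * n * P₀ * (2 * B / s ^ 2))).eventually
        (Iic_mem_nhds (show 4 * n * P₀ * (2 * B / s ^ 2) * (0 : ℝ) ^ 2 < e / 4 by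
          simp only [zero_pow two_ne_zero, mul_zero]; positivity)))).and
      ((((hbt.const_mul 3).mul_const (2 * (1 / s ^ 2) * B * P₀)).eventually
        (Iic_mem_nhds (show (3 : ℝ) * 0 * (2 * (1 / s ^ 2) * B * P₀) < e / 2 by
          simp only [mul_zero, zero_mul]; positivity))))))))
  refine ⟨κ, hκ0, J₀, fun J hJ N hNf hNR => ?_⟩
  obtain ⟨hJ1, hb4, hρ, hρe, hbe⟩ := hJ₀ J hJ
  have hJpos : (0 : ℝ) < J := by exact_mod_cast hJ1
  obtain ⟨δ, hδ⟩ : ∃ z : ℝ, z = 1 / (s ^ 2 * J) := ⟨_, rfl⟩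
  have hδ0 : 0 ≤ δ := by rw [hδ]; positivity
  obtain ⟨β, hβ⟩ : ∃ z : ℝ, z = √δ * √(2 * B) := ⟨_, rfl⟩
  have hbJ : bJ J = β := by simp only [bJ, hβ, hδ]
  simp only [hbJ, mem_Iic] at hb4 hρ hρe hbe
  have hβ0 : 0 ≤ β := by rw [hβ]; positivity
  have hvb : ∀ c ∈ N, ∀ k, ∀ y ∈ K₁, |bstep G D b δ c k y| ≤ β := fun c hc k y hy =>
    hβ ▸ abs_bstep_le h hδ0 b (hB y hy c (hKK₁ (hNR c hc))) k
  have hvbK : ∀ c ∈ N, ∀ k, ∀ y ∈ K, |bstep G D b δ c k y| ≤ β :=
    fun c hc k y hy => hvb c hc k y (hKK₁ hy)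
  have hgood₁ := gain_nodes_good_bend h (show β < 1 by linarith) hvb
  have hfin : ((⋃ j ∈ Finset.range J, nodes N (bstep G D b δ) j) ×ˢ N).Finite :=
    (Set.Finite.biUnion (Finset.range J).finite_toSet fun j _ => nodes_finite hNf j).prod hNf
  have hev : ∀ᶠ d in 𝓝[>] (0 : ℝ), ∀ p ∈ (⋃ j ∈ Finset.range J, nodes N (bstep G D b δ) j) ×ˢ N,
      ∀ u, NearMinP G D o R P₀ v₀ Φ M d u → ∀ lam : ℝ, 0 < lam →
      ((n : ℝ) - 1) * ∫ y, p.1 y ∂pm G u ≤
        lam / 2 * ((θ * hs (vol G u)) ^ 2 * ∫ y, p.1 y ∂pm G u + fisher G u p.1)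
          + (lam⁻¹ + 2 * b ^ 2) * (∫ y, p.1 y * bD D b p.2 y ∂pm G u) + κ₃ := by
    refine hfin.eventually_all.2 fun p hp => ?_
    obtain ⟨hW, hc⟩ := hp
    simp only [mem_iUnion] at hW
    obtain ⟨j, -, hW⟩ := hW
    exact node_ineq_bend hn h hb o hR hP₀ hv₀ hΦ hM hθ hκ₃0 (hNR _ hc) (hgood₁ j _ hW).1
      (hgood₁ j _ hW).2.2
  obtain ⟨δ₀, hnode, hδ₀⟩ := (hev.and (self_mem_nhdsWithin : Ioi (0 : ℝ) ∈ 𝓝[>] (0 : ℝ))).exists
  refine ⟨δ₀, hδ₀, fun u hu hP ctr hN hctr => ?_⟩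
  obtain ⟨huc, hPu, hVu, -, -⟩ := id hu
  rw [← hδ, ← hm]
  set S : ℕ → ℝ := fun i => chanAvg ctr (bstep G D b δ) i (centreIntB G D b ctr u) (fun _ => 1)
  set Q : ℕ → ℝ := fun i => chanAvg ctr (bstep G D b δ) i (fisher G u) (fun _ => 1)
  have hgood : ∀ i, ∀ W ∈ nodes N (bstep G D b δ) i, GoodW K W :=
    gain_nodes_good_bend h (show β < 1 by linarith) hvbK
  have hS : ∀ i, 0 ≤ S i := fun i =>
    (chanAvg_const ctr (bstep G D b δ) 0 i fun _ => 1).symm.trans_le (chanAvg_mono hN i fun W hW =>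
      integral_nonneg_of_ae ((ae_mem_pm h hK huc).mono fun y hy => mul_nonneg
        ((hgood i W hW).2.2 y hy).le (bD_nonneg h b _ _)))
  have hSB : ∀ i, S i ≤ B * per G u := fun i => by
    refine (chanAvg_mono hN i (F' := fun W => B * ∫ y, W y ∂pm G u) fun W hW => ?_).trans
      (le_of_eq (by rw [chanAvg_const_mul, chanAvg_mass_of_good h hK huc hN (hgood i)]))
    rw [centreIntB, ← integral_const_mul]
    have hWc := (hgood i W hW).2.1
    refine integral_mono_ae (integrable_pm_of_continuous h hK huc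
      (hWc.mul (continuous_bD h b _).continuousOn))
      ((integrable_pm_of_continuous h hK huc hWc).const_mul _)
      ((ae_mem_pm h hK huc).mono fun y hy => ?_)
    simp only [mul_comm B]
    exact mul_le_mul_of_nonneg_left ((bD_le h b _ _).trans
      (hB _ (hKK₁ (hNR _ (hN W))) y (hKK₁ hy))) ((hgood i W hW).2.2 y hy).le
  have hent := chanAvg_ent_bend h hK huc hP hN hδ0 (by linarith) hβ0 hvbK hρ
    (fun W hW k => hctr W hW.2.1 hW.2.2 k) J
  have hJδ : (J : ℝ) * δ = 1 / s ^ 2 := by rw [hδ]; field_simp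
  have hr₁ : (J : ℝ) * (n * (2 * (√δ * κ + ((1 + β) ^ n - 1) * β) ^ 2) * per G u) ≤ e / 2 := by
    have h1 : (√δ * κ + ((1 + β) ^ n - 1) * β) ^ 2 ≤
        2 * (δ * κ ^ 2) + 2 * (((1 + β) ^ n - 1) ^ 2 * β ^ 2) :=
      add_sq_le.trans (le_of_eq (by rw [mul_pow, mul_pow, Real.sq_sqrt hδ0]; ring))
    calc (J : ℝ) * (n * (2 * (√δ * κ + ((1 + β) ^ n - 1) * β) ^ 2) * per G u)
        ≤ J * (n * (2 * (2 * (δ * κ ^ 2) + 2 * (((1 + β) ^ n - 1) ^ 2 * β ^ 2))) * P₀) := by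
          gcongr
      _ = 4 * n * P₀ * (J * δ * κ ^ 2) +
          4 * n * P₀ * (J * δ * (2 * B)) * ((1 + β) ^ n - 1) ^ 2 := by
          have : β ^ 2 = δ * (2 * B) := by
            rw [hβ, mul_pow, Real.sq_sqrt hδ0, Real.sq_sqrt (by positivity)]
          rw [this]; ring
      _ ≤ e / 4 + e / 4 := by
          refine add_le_add ?_ ?_
          · rw [hJδ, hκ, Real.sq_sqrt (by positivity)]
            have : 4 * n * P₀ * (1 / s ^ 2 * (s ^ 2 * e / (16 * n * (P₀ + 1)))) =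
                e / 4 * (P₀ / (P₀ + 1)) := by
              field_simp; ring
            rw [this]
            exact mul_le_of_le_one_right (by positivity) ((div_le_one (by positivity)).2 (by linarith))
          · rw [hJδ, show 1 / s ^ 2 * (2 * B) = 2 * B / s ^ 2 by ring]
            exact hρe
      _ = _ := by ring
  rw [mul_assoc] at hent
  have hsum0 : 0 ≤ δ * ∑ i ∈ Finset.range J, S i :=
    mul_nonneg hδ0 (Finset.sum_nonneg fun i _ => hS i)
  refine ⟨fun H hηH hAH X hX => ?_, ?_⟩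
  · have hgrow := bent_growth (A := (θ * hs (vol G u)) ^ 2) (k := 1 - β ^ 2) (S := S) (Q := Q) hm0 hη
      hηH hAH (sub_pos.2 ((sq_lt_one_iff₀ hβ0).2 (by linarith))) (by linarith [sq_nonneg β]) hδ0 hP
      hκ₃0.le hS (fun i => (chanAvg_fisher_bend h hb hK huc hN hδ0 (by linarith) hβ0 hvbK i).1)
      (fun i => by rw [hm]; exact (chanAvg_fisher_bend h hb hK huc hN hδ0 (by linarith) hβ0 hvbK i).2)
      J (fun i hi lam hlam => by
        have h1 := chanAvg_mono hN i (F := fun W => m * ∫ y, W y ∂pm G u)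
          (F' := fun W => lam / 2 * ((θ * hs (vol G u)) ^ 2 * (∫ y, W y ∂pm G u) + fisher G u W) +
            (lam⁻¹ + 2 * b ^ 2) * centreIntB G D b ctr u W + κ₃) fun W hW => by
            rw [hm]
            exact hnode (W, ctr W) ⟨Set.mem_biUnion (Finset.mem_range.2 hi) hW, hN W⟩ u hu lam hlam
        rw [chanAvg_add, chanAvg_add, chanAvg_const_mul, chanAvg_const_mul, chanAvg_const_mul,
          chanAvg_add, chanAvg_const_mul, chanAvg_const,
          chanAvg_mass_of_good h hK huc hN (hgood i)] at h1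
        exact h1)
    obtain ⟨hc1, hc2⟩ := bend_budget (γ := 1 / s ^ 2) (Bd := B) (S := δ * ∑ i ∈ Finset.range J, S i)
      (c := 2 * (1 / s ^ 2) * m * κ₃ / η) hP hPu (by positivity) hB0 hβ0 hb4 (by positivity) hsum0
      (by
        refine (mul_le_mul_of_nonneg_left (Finset.sum_le_sum fun i _ => hSB i) hδ0).trans (le_of_eq ?_)
        rw [Finset.sum_const, Finset.card_range, nsmul_eq_mul, ← hJδ]; ring)
      hent hr₁ hbe (le_of_eq (by rw [hκ₃]; field_simp; ring)) hX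
    rw [hJδ, mul_assoc 2 δ] at hgrow
    refine le_trans ?_ (hgrow.trans (mul_le_mul_of_nonneg_left (Real.exp_le_exp.2
      (div_le_div_of_nonneg_right ?_ hm0.le)) (hη.le.trans hηH)))
    · rw [mul_one_div]
      linarith [mul_le_mul_of_nonneg_left hc2 (show 0 ≤ m * b ^ 2 by positivity)]
    · refine le_trans (le_of_eq ?_) hc1
      rw [div_div (2 * (1 / s ^ 2) * m * κ₃) η]
  · rw [integral_centreCostB h hK huc hN (show β < 1 by linarith) (hδ ▸ hvbK), ← hδ]
    set Ss := ∑ i ∈ Finset.range J, chanAvg ctr (bstep G D b δ) i (centreIntB G D b ctr u) (fun _ => 1)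
    have e2 : (J : ℝ)⁻¹ * Ss / (2 * s ^ 2) = δ * Ss / 2 := by rw [hδ]; field_simp
    have h9 := mul_le_mul_of_nonneg_right (show (1 : ℝ) / 2 ≤ 1 - 2 * β by linarith) hsum0
    rw [e2]
    linarith

end Vale.Agent.P219.CH.Bend
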