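import Vale.Agent.P219.Bend.Cosine
import Vale.Agent.P219.Sharp.Geom

/-!
# P219, curvature at most `-b ^ 2`: the Klein coordinates
-/

noncomputable section

open MeasureTheory ProbabilityTheory Set Filter Topology Matrix
open scoped NNReal

namespace Vale.Agent.P219.CH.Bend

open Sharp

variable {n : ℕ} {G : (Fin n → ℝ) → Matrix (Fin n) (Fin n) ℝ}
  {D : (Fin n → ℝ) → (Fin n → ℝ) → ℝ} {b t : ℝ}

lemma arg_nonneg (b : ℝ) (ht : 0 ≤ t) : 0 ≤ 2 * b ^ 2 * t := by positivity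

lemma kfac_pos (b : ℝ) (ht : 0 ≤ t) : 0 < kfac b t :=
  div_pos (mul_pos two_pos (cshd_pos (arg_nonneg b ht))) (csh_pos (arg_nonneg b ht))

lemma kfac_zero (t : ℝ) : kfac 0 t = 1 := by simp [kfac, csh_zero, cshd_zero]

lemma kfac_at_zero (b : ℝ) : kfac b 0 = 1 := by simp [kfac, csh_zero, cshd_zero]

lemma contDiffAt_kfac (b : ℝ) (ht : 0 ≤ t) : ContDiffAt ℝ 2 (kfac b) t := by
  have ha : ContDiff ℝ 2 fun s : ℝ => 2 * b ^ 2 * s := contDiff_const.mul contDiff_id
  exact ((contDiff_const.mul (contDiff_cshd.comp ha)).contDiffAt).div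
    (contDiff_csh.comp ha).contDiffAt (csh_pos (arg_nonneg b ht)).ne'

lemma contDiff_kfac_dist (h : IsCH G D) (b : ℝ) :
    ContDiff ℝ 1 fun p : (Fin n → ℝ) × (Fin n → ℝ) => kfac b (D p.1 p.2) :=
  contDiff_iff_contDiffAt.2 fun p =>
    ContDiffAt.comp (g := kfac b) p ((contDiffAt_kfac b (h.dist_nonneg p.1 p.2)).of_le one_le_two)
      (h.smooth_dist.of_le one_le_two).contDiffAt

/-- The hyperbolic Pythagoras of the Klein radius. -/
lemma one_sub_kfac (b : ℝ) (ht : 0 ≤ t) :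
    1 - b ^ 2 * (kfac b t ^ 2 * (2 * t)) = 1 / csh (2 * b ^ 2 * t) ^ 2 := by
  have hc := (csh_pos (arg_nonneg b ht)).ne'
  have h4 := four_mul_cshd_sq (arg_nonneg b ht)
  rw [kfac]
  generalize csh (2 * b ^ 2 * t) = C at hc h4 ⊢
  generalize cshd (2 * b ^ 2 * t) = S at hc h4 ⊢
  field_simp
  linarith

/-- The Klein radius as a function of the distance. -/
def krad (b r : ℝ) : ℝ := kfac b (r ^ 2 / 2) * r

lemma hasDerivAt_krad (b r : ℝ) : HasDerivAt (krad b) (1 / csh ((b * r) ^ 2) ^ 2) r := by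
  have harg : ∀ s : ℝ, 2 * b ^ 2 * (s ^ 2 / 2) = (b * s) ^ 2 := fun s => by ring
  have e : krad b = fun s => 2 * cshd ((b * s) ^ 2) / csh ((b * s) ^ 2) * s := by
    funext s; rw [krad, kfac, harg]
  rw [e]
  have hp : HasDerivAt (fun s : ℝ => (b * s) ^ 2) (2 * (b * r) * b) r :=
    (((hasDerivAt_id r).const_mul b).pow 2).congr_deriv (by simp)
  have hc := (csh_pos (sq_nonneg (b * r))).ne'
  refine (((((hasDerivAt_cshd _).comp r hp).const_mul 2).div ((hasDerivAt_csh _).comp r hp) hc).mul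
    (hasDerivAt_id r)).congr_deriv ?_
  simp only [Function.comp_apply, id_eq, Pi.div_apply]
  have h1 := csh_ode (b * r)
  have h2 := four_mul_cshd_sq (sq_nonneg (b * r))
  generalize csh ((b * r) ^ 2) = C at hc h1 h2 ⊢
  generalize cshd ((b * r) ^ 2) = S at hc h1 h2 ⊢
  generalize cshdd ((b * r) ^ 2) = T at hc h1 h2 ⊢
  field_simp
  linear_combination C * h1 - h2

/-- The Klein radius shortens distances. -/
lemma abs_krad_sub (b r r' : ℝ) : |krad b r - krad b r'| ≤ |r - r'| := by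
  have := convex_univ.norm_image_sub_le_of_norm_hasDerivWithin_le (f := krad b) (C := 1)
    (fun x _ => (hasDerivAt_krad b x).hasDerivWithinAt) (fun x _ => ?_) (mem_univ r') (mem_univ r)
  · simpa using this
  · have h1 : 1 ≤ csh ((b * x) ^ 2) := by rw [csh_sq]; exact Real.one_le_cosh _
    rw [Real.norm_eq_abs, abs_of_nonneg (by positivity), div_le_one (by positivity)]
    exact one_le_pow₀ h1

lemma kfac_le_one (b : ℝ) (ht : 0 ≤ t) : kfac b t ≤ 1 := by
  rcases ht.eq_or_lt with rfl | h0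
  · rw [kfac_at_zero]
  have hr : 0 < √(2 * t) := Real.sqrt_pos.2 (by linarith)
  have h1 := abs_krad_sub b (√(2 * t)) 0
  rw [show krad b 0 = 0 by simp [krad], sub_zero, sub_zero, krad, Real.sq_sqrt (by linarith),
    mul_div_cancel_left₀ _ two_ne_zero, abs_mul, abs_of_pos (kfac_pos b ht), abs_of_pos hr] at h1
  exact le_of_mul_le_mul_right (by linarith) hr

/-! ## The coordinates -/

lemma bucoord_dot (h : IsCH G D) (b : ℝ) (c y : Fin n → ℝ) :
    bucoord G D b c y ⬝ᵥ bucoord G D b c y = 2 * bD D b c y := by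
  rw [bucoord, smul_dotProduct, dotProduct_smul, ucoord_dot h, bD, dist_symm h c y, smul_eq_mul,
    smul_eq_mul]
  ring

lemma bD_nonneg (h : IsCH G D) (b : ℝ) (c y : Fin n → ℝ) : 0 ≤ bD D b c y :=
  mul_nonneg (sq_nonneg _) (h.dist_nonneg c y)

lemma bD_le (h : IsCH G D) (b : ℝ) (c y : Fin n → ℝ) : bD D b c y ≤ D c y := by
  refine mul_le_of_le_one_left (h.dist_nonneg c y) ?_
  exact pow_le_one₀ (kfac_pos b (h.dist_nonneg c y)).le (kfac_le_one b (h.dist_nonneg c y))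

lemma one_sub_bD (h : IsCH G D) (b : ℝ) (c y : Fin n → ℝ) :
    1 - b ^ 2 * (2 * bD D b c y) = 1 / csh (2 * b ^ 2 * D c y) ^ 2 := by
  rw [← one_sub_kfac b (h.dist_nonneg c y), bD]; ring

lemma one_sub_bD_pos (h : IsCH G D) (b : ℝ) (c y : Fin n → ℝ) :
    0 < 1 - b ^ 2 * (2 * bD D b c y) := by
  rw [one_sub_bD h]
  have := csh_pos (arg_nonneg b (h.dist_nonneg c y))
  positivity

lemma contDiff_bucoord (h : IsCH G D) (b : ℝ) (c : Fin n → ℝ) (k : Fin n) :
    ContDiff ℝ 1 fun y => bucoord G D b c y k := by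
  simp only [bucoord, Pi.smul_apply, smul_eq_mul]
  exact ((contDiff_kfac_dist h b).comp (contDiff_id.prodMk contDiff_const)).mul (contDiff_ucoord h c k)

lemma contDiff_bstep (h : IsCH G D) (b δ : ℝ) (c : Fin n → ℝ) (k : Fin n) :
    ContDiff ℝ 1 (bstep G D b δ c k) :=
  contDiff_const.mul (contDiff_bucoord h b c k)

lemma sq_bucoord_le (h : IsCH G D) (b : ℝ) (c y : Fin n → ℝ) (k : Fin n) :
    bucoord G D b c y k ^ 2 ≤ 2 * bD D b c y := by
  rw [← bucoord_dot h, dotProduct, sq]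
  exact Finset.single_le_sum (f := fun i => bucoord G D b c y i * bucoord G D b c y i)
    (fun i _ => mul_self_nonneg _) (Finset.mem_univ k)

lemma sum_bstep_sq (h : IsCH G D) {δ : ℝ} (hδ : 0 ≤ δ) (b : ℝ) (c y : Fin n → ℝ) :
    ((List.finRange n).map fun k => bstep G D b δ c k y ^ 2).sum = δ * (2 * bD D b c y) := by
  rw [← List.ofFn_eq_map, List.sum_ofFn, ← bucoord_dot h, dotProduct, Finset.mul_sum]
  refine Finset.sum_congr rfl fun k _ => ?_
  rw [bstep, mul_pow, Real.sq_sqrt hδ]; ring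

lemma abs_bstep_le (h : IsCH G D) {δ B : ℝ} (hδ : 0 ≤ δ) (b : ℝ) {c y : Fin n → ℝ} (hB : D y c ≤ B)
    (k : Fin n) : |bstep G D b δ c k y| ≤ √δ * √(2 * B) := by
  rw [bstep, abs_mul, abs_of_nonneg (Real.sqrt_nonneg δ)]
  refine mul_le_mul_of_nonneg_left (Real.abs_le_sqrt ((sq_bucoord_le h b c y k).trans ?_))
    (Real.sqrt_nonneg δ)
  linarith [bD_le h b c y, dist_symm h c y]

/-- The Klein coordinates at any base point shorten distances. -/
lemma bucoord_contraction (h : IsCH G D) (b : ℝ) (c y z : Fin n → ℝ) :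
    (bucoord G D b c y - bucoord G D b c z) ⬝ᵥ (bucoord G D b c y - bucoord G D b c z)
      ≤ 2 * D y z := by
  have h1 := ucoord_contraction h c y z
  have hy := h.dist_nonneg y c
  have hz := h.dist_nonneg z c
  obtain ⟨r, hr⟩ : ∃ r, r = √(2 * D y c) := ⟨_, rfl⟩
  obtain ⟨r', hr'⟩ : ∃ r, r = √(2 * D z c) := ⟨_, rfl⟩
  obtain ⟨f, hf⟩ : ∃ f, f = kfac b (D y c) := ⟨_, rfl⟩
  obtain ⟨f', hf'⟩ : ∃ f, f = kfac b (D z c) := ⟨_, rfl⟩
  obtain ⟨P, hP⟩ : ∃ P, P = ucoord G D c y ⬝ᵥ ucoord G D c z := ⟨_, rfl⟩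
  have hr2 : r ^ 2 = 2 * D y c := by rw [hr, Real.sq_sqrt (by linarith)]
  have hr2' : r' ^ 2 = 2 * D z c := by rw [hr', Real.sq_sqrt (by linarith)]
  have hCS : P ≤ r * r' := by
    have h2 := Finset.sum_mul_sq_le_sq_mul_sq Finset.univ (ucoord G D c y) (ucoord G D c z)
    simp only [sq] at h2
    rw [show ∑ i, ucoord G D c y i * ucoord G D c y i = 2 * D y c from ucoord_dot h c y,
      show ∑ i, ucoord G D c z i * ucoord G D c z i = 2 * D z c from ucoord_dot h c z] at h2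
    refine (le_abs_self P).trans (abs_le_of_sq_le_sq ?_ (by rw [hr, hr']; positivity))
    rw [mul_pow, hr2, hr2', hP, sq]
    exact h2
  have hl : (f * r - f' * r') ^ 2 ≤ (r - r') ^ 2 := by
    have := abs_krad_sub b r r'
    rw [krad, krad, hr2, hr2', mul_div_cancel_left₀ _ two_ne_zero,
      mul_div_cancel_left₀ _ two_ne_zero, ← hf, ← hf'] at this
    exact sq_le_sq.2 this
  have hff : f * f' ≤ 1 :=
    mul_le_one₀ (hf ▸ kfac_le_one b hy) (hf' ▸ (kfac_pos b hz).le) (hf' ▸ kfac_le_one b hz)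
  simp only [sub_dotProduct, dotProduct_sub, bucoord, smul_dotProduct, dotProduct_smul, smul_eq_mul,
    dotProduct_comm (ucoord G D c z) (ucoord G D c y), ucoord_dot h, ← hf, ← hf', ← hP] at h1 ⊢
  rw [← hr2, ← hr2'] at h1 ⊢
  nlinarith [mul_nonneg (sub_nonneg.2 hff) (sub_nonneg.2 hCS)]

/-- The contraction of curvature at most `-b ^ 2`. -/
lemma bucoord_contraction_sharp (h : IsCH G D) (hb : BendCH G D b) (c y z : Fin n → ℝ) :
    (bucoord G D b c y - bucoord G D b c z) ⬝ᵥ (bucoord G D b c y - bucoord G D b c z) ≤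
      2 * D y z * (2 * cshd (2 * b ^ 2 * D y z)) ^ 2 * (1 - b ^ 2 * (2 * bD D b c z)) := by
  rcases eq_or_ne b 0 with rfl | hb0
  · simp only [zero_pow two_ne_zero, mul_zero, zero_mul, cshd_zero, sub_zero, mul_one]
    rw [show (2 : ℝ) * (1 / 2) = 1 by norm_num, one_pow, mul_one]
    exact bucoord_contraction h 0 c y z
  have hcy := h.dist_nonneg y c
  have hcz := h.dist_nonneg z c
  have hX := arg_nonneg b hcy
  have hX' := arg_nonneg b hcz
  have hδ := arg_nonneg b (h.dist_nonneg y z)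
  obtain ⟨C, hC⟩ : ∃ C, C = csh (2 * b ^ 2 * D y c) := ⟨_, rfl⟩
  obtain ⟨C', hC'⟩ : ∃ C, C = csh (2 * b ^ 2 * D z c) := ⟨_, rfl⟩
  obtain ⟨E, hE⟩ : ∃ E, E = csh (2 * b ^ 2 * D y z) := ⟨_, rfl⟩
  obtain ⟨P, hP⟩ : ∃ P, P = b ^ 2 * (bucoord G D b c y ⬝ᵥ bucoord G D b c z) := ⟨_, rfl⟩
  obtain ⟨A, hA⟩ : ∃ A, A = b ^ 2 * (2 * bD D b c y) := ⟨_, rfl⟩
  obtain ⟨B, hB⟩ : ∃ B, B = b ^ 2 * (2 * bD D b c z) := ⟨_, rfl⟩
  have hC0 : 0 < C := hC ▸ csh_pos hX
  have hC0' : 0 < C' := hC' ▸ csh_pos hX'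
  have hA1 : 1 - A = 1 / C ^ 2 := by rw [hA, one_sub_bD h, dist_symm h c y, hC]
  have hB1 : 1 - B = 1 / C' ^ 2 := by rw [hB, one_sub_bD h, dist_symm h c z, hC']
  have hA1' : 0 < 1 - A := by rw [hA1]; positivity
  have hB1' : 0 < 1 - B := by rw [hB1]; positivity
  have hA0 : 0 ≤ A := hA ▸ mul_nonneg (sq_nonneg b) (mul_nonneg two_pos.le (bD_nonneg h b c y))
  have hB0 : 0 ≤ B := hB ▸ mul_nonneg (sq_nonneg b) (mul_nonneg two_pos.le (bD_nonneg h b c z))
  have hPAB : P ^ 2 ≤ A * B := by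
    have h2 := Finset.sum_mul_sq_le_sq_mul_sq Finset.univ (bucoord G D b c y) (bucoord G D b c z)
    simp only [sq] at h2
    rw [show ∑ i, bucoord G D b c y i * bucoord G D b c y i = 2 * bD D b c y from bucoord_dot h b c y,
      show ∑ i, bucoord G D b c z i * bucoord G D b c z i = 2 * bD D b c z from bucoord_dot h b c z]
      at h2
    rw [hP, hA, hB]
    calc (b ^ 2 * (bucoord G D b c y ⬝ᵥ bucoord G D b c z)) ^ 2
        = b ^ 4 * ((bucoord G D b c y ⬝ᵥ bucoord G D b c z) *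
            (bucoord G D b c y ⬝ᵥ bucoord G D b c z)) := by ring
      _ ≤ b ^ 4 * (2 * bD D b c y * (2 * bD D b c z)) :=
          mul_le_mul_of_nonneg_left h2 (by positivity)
      _ = _ := by ring
  have hP1 : P < 1 := by
    by_contra hcon
    nlinarith [mul_lt_mul'' (show A < 1 by linarith) (show B < 1 by linarith) hA0 hB0]
  have hcos : C * C' * (1 - P) ≤ E := by
    have h3 := hb.cosine h y z c
    have e : pairing G c (cd (D y) c) (cd (D z) c) = ucoord G D c y ⬝ᵥ ucoord G D c z := by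
      rw [ucoord, ucoord, frame_dot h]
    rw [e, ← hC, ← hC', ← hE] at h3
    refine le_trans (le_of_eq ?_) h3
    rw [hP, bucoord, bucoord, smul_dotProduct, dotProduct_smul, smul_eq_mul, smul_eq_mul, kfac, kfac,
      ← hC, ← hC']
    field_simp
    ring
  have hsq : (1 - P) ^ 2 ≤ E ^ 2 * ((1 - A) * (1 - B)) := by
    have h4 := pow_le_pow_left₀ (mul_nonneg (mul_nonneg hC0.le hC0'.le) (by linarith)) hcos 2
    rw [hA1, hB1]
    field_simp
    linarith
  have hkey : A + B - 2 * P ≤ (E ^ 2 - 1) * (1 - B) := by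
    refine le_of_mul_le_mul_left ?_ hA1'
    nlinarith [sq_nonneg (A - P)]
  have hE2 : E ^ 2 - 1 = b ^ 2 * (2 * D y z * (2 * cshd (2 * b ^ 2 * D y z)) ^ 2) := by
    rw [hE, ← four_mul_cshd_sq hδ]; ring
  refine le_of_mul_le_mul_left ?_ (show 0 < b ^ 2 by positivity)
  have e : b ^ 2 * ((bucoord G D b c y - bucoord G D b c z) ⬝ᵥ
      (bucoord G D b c y - bucoord G D b c z)) = A + B - 2 * P := by
    simp only [sub_dotProduct, dotProduct_sub, bucoord_dot h,
      dotProduct_comm (bucoord G D b c z) (bucoord G D b c y), hA, hB, hP]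
    ring
  rw [e]
  refine hkey.trans (le_of_eq ?_)
  rw [hE2, hB]; ring

/-- The differential shortens vectors by the Klein factor. -/
lemma sum_fderiv_bucoord_le (h : IsCH G D) (hb : BendCH G D b) (c y v : Fin n → ℝ) :
    ∑ k, (cd (fun z => bucoord G D b c z k) y ⬝ᵥ v) ^ 2 ≤
      (1 - b ^ 2 * (2 * bD D b c y)) * qf G y v := by
  set κ := 1 - b ^ 2 * (2 * bD D b c y)
  have hκ : 0 ≤ κ := (one_sub_bD_pos h b c y).le
  have key : ∀ δ : ℝ, 0 < δ →
      ∑ k, (cd (fun z => bucoord G D b c z k) y ⬝ᵥ v) ^ 2 ≤ (1 + δ) * (κ * qf G y v) := by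
    intro δ hδ
    obtain ⟨ρ, hρ, hD⟩ := D_upper h (isCompact_singleton (x := y)) hδ
    set φ : Fin n → ℝ → ℝ := fun k t => bucoord G D b c (y + t • v) k
    have hd : ∀ k, HasDerivAt (φ k) (cd (fun z => bucoord G D b c z k) y ⬝ᵥ v) 0 := fun k => by
      rw [cd_dotProduct]
      exact (((contDiff_bucoord h b c k).differentiable one_ne_zero y).hasFDerivAt
        ).comp_hasDerivAt_of_eq 0 (hasDerivAt_line y v) (by simp)
    have ht : Tendsto (fun t => ∑ k, (slope (φ k) 0 t) ^ 2) (𝓝[≠] 0)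
        (𝓝 (∑ k, (cd (fun z => bucoord G D b c z k) y ⬝ᵥ v) ^ 2)) :=
      tendsto_finsetSum _ fun k _ => (hasDerivAt_iff_tendsto_slope.1 (hd k)).pow 2
    set F : ℝ → ℝ := fun t => (2 * cshd (2 * b ^ 2 * D y (y + t • v))) ^ 2
    have hF : Tendsto F (𝓝[≠] 0) (𝓝 1) := by
      have hc : Continuous F := (continuous_const.mul ((contDiff_cshd (k := 1)).continuous.comp
        (continuous_const.mul (h.continuous_D.comp (continuous_const.prodMk
          (continuous_const.add (continuous_id.smul continuous_const))))))).pow 2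
      exact (hc.tendsto' 0 _ (by simp [F, h.dist_self, cshd_zero])).mono_left nhdsWithin_le_nhds
    have hR : Tendsto (fun t => F t * ((1 + δ) * (κ * qf G y v))) (𝓝[≠] 0)
        (𝓝 ((1 + δ) * (κ * qf G y v))) := by simpa using hF.mul_const ((1 + δ) * (κ * qf G y v))
    refine le_of_tendsto_of_tendsto ht hR ?_
    have hev : ∀ᶠ t in 𝓝[≠] (0 : ℝ), ‖t • v‖ ≤ ρ := by
      have : Tendsto (fun t : ℝ => ‖t • v‖) (𝓝[≠] 0) (𝓝 0) :=
        (Continuous.tendsto' (by fun_prop) _ _ (by simp)).mono_left nhdsWithin_le_nhds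
      exact this.eventually (eventually_le_nhds hρ)
    filter_upwards [hev, self_mem_nhdsWithin] with t htρ ht0
    have h1 := bucoord_contraction_sharp h hb c (y + t • v) y
    rw [dist_symm h (y + t • v) y] at h1
    have h2 := hD y rfl (t • v) htρ
    rw [qf_smul] at h2
    have e : ∑ k, (slope (φ k) 0 t) ^ 2 = ((bucoord G D b c (y + t • v) - bucoord G D b c y) ⬝ᵥ
        (bucoord G D b c (y + t • v) - bucoord G D b c y)) / t ^ 2 := by
      rw [dotProduct, Finset.sum_div]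
      refine Finset.sum_congr rfl fun k _ => ?_
      simp only [slope_def_field, φ, zero_smul, add_zero, sub_zero, Pi.sub_apply]
      ring
    show ∑ k, (slope (φ k) 0 t) ^ 2 ≤ F t * ((1 + δ) * (κ * qf G y v))
    rw [e, div_le_iff₀ (sq_pos_of_ne_zero ht0)]
    calc _ ≤ 2 * D y (y + t • v) * F t * κ := h1
      _ ≤ 2 * ((1 + δ) * (t ^ 2 * qf G y v / 2)) * F t * κ := by gcongr
      _ = _ := by ring
  refine ge_of_tendsto (f := fun δ : ℝ => (1 + δ) * (κ * qf G y v)) (x := 𝓝[>] 0) ?_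
    (eventually_nhdsWithin_of_forall fun δ hδ => key δ hδ)
  exact (Continuous.tendsto' (by fun_prop) _ _ (by simp)).mono_left nhdsWithin_le_nhds

/-- The tangential trace of the pulled back metric. -/
lemma sum_tanSq_bucoord_le (h : IsCH G D) (hb : BendCH G D b) (c y : Fin n → ℝ)
    {ξ : Fin n → ℝ} (hξ : ξ ≠ 0) :
    ∑ k, tanSq G y ξ (cd (fun z => bucoord G D b c z k) y) ≤
      ((n : ℝ) - 1) * (1 - b ^ 2 * (2 * bD D b c y)) := by
  set κ := 1 - b ^ 2 * (2 * bD D b c y)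
  set a : Fin n → Fin n → ℝ := fun k => cd (fun z => bucoord G D b c z k) y
  set M : Matrix (Fin n) (Fin n) ℝ := (1 + κ) • G y - ∑ k, vecMulVec (a k) (a k)
  have hquad : ∀ v, v ⬝ᵥ (M *ᵥ v) = (1 + κ) * qf G y v - ∑ k, (a k ⬝ᵥ v) ^ 2 := fun v => by
    simp only [M, sub_mulVec, sum_mulVec, smul_mulVec, dotProduct_sub, dotProduct_sum,
      dotProduct_smul, vecMulVec_mulVec, op_smul_eq_smul, smul_eq_mul]
    rw [qf]
    congr 1
    exact Finset.sum_congr rfl fun k _ => by rw [dotProduct_comm v]; ring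
  have key := h.trace_bound y M (fun v => by
    rw [hquad]; have := sum_fderiv_bucoord_le h hb c y v; rw [← qf]
    linarith) hξ
  rw [hquad] at key
  have hη : qf G y ((G y)⁻¹ *ᵥ ξ) = pairing G y ξ ξ := by
    rw [qf, h.mulVec_inv, dotProduct_comm]; rfl
  have htr : ((G y)⁻¹ * M).trace = (1 + κ) * n - ∑ k, pairing G y (a k) (a k) := by
    simp only [M, Matrix.mul_sub, Matrix.mul_smul, Matrix.mul_sum, trace_sub, trace_smul, trace_sum,
      Matrix.nonsing_inv_mul _ (h.det_pos y).ne'.isUnit, trace_one, Fintype.card_fin, smul_eq_mul,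
      mul_vecMulVec, trace_vecMulVec]
    congr 1
    exact Finset.sum_congr rfl fun k _ => by rw [dotProduct_comm]; rfl
  rw [htr, hη] at key
  have hp := h.pairing_self_pos y hξ
  have e : ∀ k, a k ⬝ᵥ ((G y)⁻¹ *ᵥ ξ) = pairing G y ξ (a k) := fun k => by
    rw [h.pairing_comm y ξ]; rfl
  simp only [e] at key
  simp only [tanSq, Finset.sum_sub_distrib, ← Finset.sum_div]
  refine le_of_mul_le_mul_right ?_ hp
  rw [sub_mul, div_mul_cancel₀ _ hp.ne']
  linarith

end Vale.Agent.P219.CH.Bend
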