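import Vale.Agent.P219.Bend.Centre
import Vale.Agent.P219.Sharp.TerminalMain

/-!
# P219, curvature at most `-b ^ 2`: the terminal pin for the Klein channel
-/

noncomputable section

open MeasureTheory ProbabilityTheory Set Filter Topology Matrix
open scoped RealInnerProductSpace

namespace Vale.Agent.P219.CH.Bend

open Sharp

variable {n : ℕ}

/-- The channel dominates the Gaussian channel of the frozen metric. -/
theorem terminalPinB (n : ℕ) : TerminalPinB n := by
  intro _ G D h bb o R Rb e hR hRb he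
  set K := {z | D o z ≤ R}
  have hK : IsCompact K := h.proper o R
  obtain ⟨ω, hω0, hω1, hωe⟩ : ∃ ω : ℝ, 0 < ω ∧ ω ≤ 1 ∧ ((n : ℝ) + 1) * Rb ^ 2 * ω ≤ e / 2 := by
    refine ⟨min 1 (e / (2 * (((n : ℝ) + 1) * Rb ^ 2))), by positivity, min_le_left _ _, ?_⟩
    refine (mul_le_mul_of_nonneg_left (min_le_right _ _) (by positivity)).trans (le_of_eq ?_)
    field_simp
  obtain ⟨r₀, ρ₁, hr₀, hρ₁, hiso⟩ := exists_near_isometryB h bb hK hω0 hω1
  obtain ⟨ρ₂, hρ₂, hup⟩ := D_upper h hK hω0
  obtain ⟨CA, hCA, hCAb⟩ := exists_comparison hK (f := fun p : (Fin n → ℝ) × (Fin n → ℝ) => ‖p.2‖)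
    (g := fun p => √(qf G p.1 p.2)) (continuous_norm.comp continuous_snd)
    (Real.continuous_sqrt.comp (continuous_qf h))
    (fun y v a ha => by simp [norm_smul, abs_of_nonneg ha])
    (fun y v a ha => by simp [qf_smul, Real.sqrt_mul (sq_nonneg a), Real.sqrt_sq ha])
    (fun y _ v hv => Real.sqrt_pos.2 (qf_pos h y hv))
  obtain ⟨Dm, hDm0, hDm⟩ : ∃ Dm : ℝ, 0 ≤ Dm ∧ ∀ a ∈ K, ∀ c ∈ K, D a c ≤ Dm := by
    obtain ⟨B, hB⟩ := (hK.prod hK).bddAbove_image h.continuous_D.continuousOn
    exact ⟨max B 0, le_max_right _ _,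
      fun a ha c hc => (hB ⟨(a, c), ⟨ha, hc⟩, rfl⟩).trans (le_max_left _ _)⟩
  obtain ⟨k₀, hk₀, hk₀b⟩ := (hK.prod hK).exists_forall_le'
    (contDiff_kfac_dist h bb).continuous.continuousOn (a := (0 : ℝ))
    fun p _ => kfac_pos bb (h.dist_nonneg p.1 p.2)
  refine ⟨min ρ₁ ρ₂ / (CA * Rb), Rb ^ 2 / (k₀ ^ 2 * r₀), by positivity, by positivity,
    fun s hs hs₁ => ?_⟩
  set β := √(2 * Dm) / s
  set I3 := ∫ Z, ‖Z‖ ^ 3 ∂stdGaussian (EuclideanSpace ℝ (Fin n))
  set F : ℝ → ℝ := fun x => ((1 + 20 * (β * x)) * (1 + ω) - 1) * Rb ^ 2 / 2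
      + (n : ℝ) * (5400 * β ^ 3) * x + 200 * Rb ^ 3 * I3 * x
      + (n : ℝ) * Rb ^ 2 / 2 * (1 - Real.exp (-(10 * (β * x) * n +
          2 * (x ^ 2 * Rb ^ 2 + 5 * (n : ℝ) * (β * x) ^ 2))) * (1 - ω))
  have hF0 : F 0 < e := by
    simp only [F]
    norm_num
    nlinarith [sq_nonneg Rb, mul_nonneg hω0.le (sq_nonneg Rb)]
  have hlim : Tendsto (fun J : ℕ => (√(J : ℝ))⁻¹) atTop (𝓝 0) :=
    tendsto_inv_atTop_zero.comp (Real.tendsto_sqrt_atTop.comp tendsto_natCast_atTop_atTop)
  obtain ⟨J₀, hJ₀⟩ := eventually_atTop.1 ((((by fun_prop : Continuous F).tendsto 0).comp hlim).eventually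
    (eventually_lt_nhds hF0) |>.and (((Continuous.tendsto' (f := fun x => β * x) (by fun_prop) 0 0
      (mul_zero β)).comp hlim).eventually (eventually_le_nhds (by norm_num : (0:ℝ) < 1 / 20))) |>.and
      (eventually_gt_atTop 0))
  refine ⟨J₀, fun J hJ u ctr y hu hctr hy hpos => ?_⟩
  obtain ⟨⟨hFJ, hbJ⟩, hJpos⟩ := hJ₀ J hJ
  simp only [Function.comp_apply] at hFJ hbJ
  have hb16 : β * (√(J : ℝ))⁻¹ ≤ 1 / 16 := hbJ.trans (by norm_num)
  have hJR : 0 < (J : ℝ) := by exact_mod_cast hJpos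
  set x := (√(J : ℝ))⁻¹
  have hx2 : x ^ 2 = (J : ℝ)⁻¹ := by simp only [x]; rw [inv_pow, Real.sq_sqrt hJR.le]
  have hx : √(J : ℝ)⁻¹ = x := Real.sqrt_inv _
  set δ' := 1 / (s ^ 2 * (J : ℝ))
  have hδ' : 0 ≤ δ' := by positivity
  set b := β * x
  have hb0 : 0 ≤ b := by positivity
  have hbeq : √δ' * √(2 * Dm) = b := by
    simp only [δ', b, β, one_div, Real.sqrt_inv]
    rw [Real.sqrt_mul (sq_nonneg s), Real.sqrt_sq hs.le]
    simp only [x]
    field_simp
  have hvb : ∀ c ∈ K, ∀ k, ∀ z ∈ K, |bstep G D bb δ' c k z| ≤ b := fun c hc k z hz =>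
    hbeq ▸ abs_bstep_le h hδ' bb (hDm z hz c hc) k
  have hyb : ∀ c ∈ K, ∀ k, |bstep G D bb δ' c k y| ≤ b := fun c hc k => hvb c hc k y hy
  have hvc : ∀ (S : Set (Fin n → ℝ)), ∀ c ∈ K, ∀ k, ContinuousOn (bstep G D bb δ' c k) S :=
    fun S c _ k => (contDiff_bstep h bb δ' c k).continuous.continuousOn
  set μ := pm G u
  haveI hμf : IsFiniteMeasure μ := isFiniteMeasure_pm h hK hu
  have hμK := ae_mem_pm h hK hu
  haveI : NeZero μ := ⟨fun h0 => by rw [h0] at hpos; simp at hpos⟩
  have hdsum : ∀ (c z : Fin n → ℝ),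
      driftSum (bstep G D bb δ' c) y b (List.finRange n) z ≤ (1 + 20 * b) * (δ' * D y z) := by
    intro c z
    have e : driftSum (bstep G D bb δ' c) y b (List.finRange n) z = (1 + 20 * b) / 2 *
        (δ' * ((bucoord G D bb c z - bucoord G D bb c y) ⬝ᵥ (bucoord G D bb c z - bucoord G D bb c y))) := by
      simp only [driftSum]
      rw [← List.ofFn_eq_map, List.sum_ofFn, dotProduct, Finset.mul_sum, Finset.mul_sum]
      refine Finset.sum_congr rfl fun k _ => ?_
      simp only [drift, bstep, ← mul_sub, mul_pow, Real.sq_sqrt hδ', Pi.sub_apply]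
      ring
    rw [e]
    have h1 := bucoord_contraction h bb c z y
    rw [dist_symm h z y] at h1
    calc (1 + 20 * b) / 2 * (δ' * _) ≤ (1 + 20 * b) / 2 * (δ' * (2 * D y z)) :=
          mul_le_mul_of_nonneg_left (mul_le_mul_of_nonneg_left h1 hδ') (by positivity)
      _ = _ := by ring
  constructor
  · -- first order
    set d : (Fin n → ℝ) → ℝ := fun z => 2 * D y z / (s ^ 2 * J)
    have hd : ContinuousOn d K :=
      ((continuous_const.mul (continuous_D h y)).div_const _).continuousOn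
    have := chan_crude (ν := μ) (N := K) hK hμK hctr (hvc K) hb16 hvb hyb hd (fun c _ z _ => by
      refine (hdsum c z).trans ?_
      simp only [d, δ']
      rw [one_div, ← div_eq_inv_mul, ← mul_div_assoc]
      exact div_le_div_of_nonneg_right
        (mul_le_mul_of_nonneg_right (by linarith) (h.dist_nonneg y z)) (by positivity))
      J (continuousOn_const (c := (0 : ℝ)))
    refine le_trans (le_of_eq ?_) (this.trans (le_of_eq (chanAvg_congr (N := K) hctr fun W hW => ?_)))
    · simp only [crudeLower, lse, d]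
      congr 1
      refine integral_congr_ae (Eventually.of_forall fun z => ?_)
      simp only
      congr 1
      field_simp
      ring
    · obtain ⟨hWp, hWy⟩ := nodes_good (hvc K) (by linarith) hvb hyb J W hW
      congr 1
      simp only [lse, add_zero, logRatio]
      rw [integral_congr_ae (g := fun z => W z * (W y)⁻¹) (hμK.mono fun z hz => by
          simp only
          rw [Real.exp_sub, Real.exp_log (hWp.2 z hz), Real.exp_log hWy, div_eq_mul_inv]),
        integral_mul_const, Real.log_mul (integral_pos_of_posOn hK hμK hWp).ne' (inv_ne_zero hWy.ne'),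
        Real.log_inv]
      ring
  -- second order
  set B := K ∩ qball G s Rb y
  have hqc : IsClosed (qball G s Rb y) :=
    isClosed_le ((continuous_qf h).comp (continuous_const.prodMk (continuous_id.sub continuous_const)))
      continuous_const
  have hB : IsCompact B := hK.inter_right hqc
  set ν := μ.restrict (qball G s Rb y)
  haveI : NeZero ν := ⟨fun h0 => by
    rw [Measure.restrict_eq_zero] at h0; rw [h0] at hpos; simp at hpos⟩
  have hν : ∀ᵐ z ∂ν, z ∈ B := by
    filter_upwards [ae_restrict_of_ae hμK, ae_restrict_mem hqc.measurableSet] with z h1 h2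
    exact ⟨h1, h2⟩
  set α := acoord G s y
  have hαb : ∀ z ∈ B, ‖α z‖ ≤ Rb := fun z hz => by
    refine le_of_pow_le_pow_left₀ two_ne_zero (by linarith) ?_
    rw [norm_sq_acoord h hs.ne', div_le_iff₀ (by positivity)]
    exact hz.2
  have hnear : ∀ z ∈ B, ‖z - y‖ ≤ min ρ₁ ρ₂ := fun z hz => by
    refine (hCAb y hy (z - y)).trans ?_
    have h1 : √(qf G y (z - y)) ≤ Rb * s :=
      (Real.sqrt_le_left (by positivity)).2 (by rw [mul_pow]; exact hz.2)
    rw [lt_div_iff₀ (by positivity)] at hs₁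
    calc CA * √(qf G y (z - y)) ≤ CA * (Rb * s) := mul_le_mul_of_nonneg_left h1 hCA.le
      _ ≤ _ := by linarith
  set L : (Fin n → ℝ) → ℝ := fun c => 4 * Rb ^ 2 / ((J : ℝ) * (k₀ ^ 2 * r₀)) * bD D bb c y
  have hgauss := chan_gauss (ν := ν) (N := K) (L := L) (δ := (J : ℝ)⁻¹) (ω := ω)
    (ε₁ := ((1 + 20 * b) * (1 + ω) - 1) * Rb ^ 2 / (2 * J))
    hB hν hctr (hvc B) hb0 hb16 (fun c hc k z hz => hvb c hc k z hz.1) hyb
    (continuous_acoord G s y) (by linarith : (0:ℝ) ≤ Rb) hαb (inv_pos.2 hJR) hω0.le hω1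
    (fun c _ => mul_nonneg (by positivity) (bD_nonneg h bb c y))
    (fun c _ z hz => ?_) (fun c hc z hz z' hz' => ?_) J 0 le_rfl
  rotate_left
  · refine (hdsum c z).trans ?_
    have h1 := hup y hy (z - y) ((hnear z hz).trans (min_le_right _ _))
    rw [add_sub_cancel] at h1
    have h2 : (0:ℝ) ≤ ((1 + 20 * b) * (1 + ω) - 1) := by nlinarith
    have h3 := pow_le_pow_left₀ (norm_nonneg _) (hαb z hz) 2
    have h4 : qf G y (z - y) = s ^ 2 * ‖α z‖ ^ 2 := by
      rw [norm_sq_acoord h hs.ne']; field_simp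
    rw [h4] at h1
    calc (1 + 20 * b) * (δ' * D y z)
        ≤ (1 + 20 * b) * (δ' * ((1 + ω) * (s ^ 2 * ‖α z‖ ^ 2 / 2))) :=
          mul_le_mul_of_nonneg_left (mul_le_mul_of_nonneg_left h1 hδ') (by positivity)
      _ = (J : ℝ)⁻¹ * ‖α z‖ ^ 2 / 2 + ((1 + 20 * b) * (1 + ω) - 1) * ‖α z‖ ^ 2 / (2 * J) := by
          simp only [δ']; field_simp; ring
      _ ≤ _ := add_le_add le_rfl
          (div_le_div_of_nonneg_right (mul_le_mul_of_nonneg_left h3 h2) (by positivity))
  · have e1 : ∑ k, ((bstep G D bb δ' c k z - bstep G D bb δ' c k y) -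
        (bstep G D bb δ' c k z' - bstep G D bb δ' c k y)) ^ 2 =
        δ' * ((bucoord G D bb c z - bucoord G D bb c z') ⬝ᵥ (bucoord G D bb c z - bucoord G D bb c z')) := by
      rw [dotProduct, Finset.mul_sum]
      refine Finset.sum_congr rfl fun k _ => ?_
      simp only [bstep, sub_sub_sub_cancel_right, ← mul_sub, mul_pow, Real.sq_sqrt hδ', Pi.sub_apply]
      ring
    rw [e1, sum_acoord_sub_sq h hs.ne']
    have hLn : 0 ≤ L c := mul_nonneg (by positivity) (bD_nonneg h bb c y)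
    rcases le_or_gt (D y c) r₀ with hgood | hbad
    · have h1 := hiso y hy c hc hgood z z' ((hnear z hz).trans (min_le_left _ _))
        ((hnear z' hz').trans (min_le_left _ _))
      have h2 := mul_le_mul_of_nonneg_left h1 hδ'
      have e2 : (1 - ω) * (J : ℝ)⁻¹ * (qf G y (z - z') / s ^ 2) =
          δ' * ((1 - ω) * qf G y (z - z')) := by simp only [δ']; field_simp
      linarith
    · have h1 : 0 ≤ δ' * ((bucoord G D bb c z - bucoord G D bb c z') ⬝ᵥ
          (bucoord G D bb c z - bucoord G D bb c z')) :=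
        mul_nonneg hδ' (Finset.sum_nonneg fun i _ => mul_self_nonneg _)
      have h2 : qf G y (z - z') / s ^ 2 ≤ (2 * Rb) ^ 2 := by
        rw [← norm_sq_acoord_sub h hs.ne' y (z - z')]
        refine pow_le_pow_left₀ (norm_nonneg _) ?_ 2
        have e3 : (WithLp.toLp 2 (s⁻¹ • (frame G y *ᵥ (G y *ᵥ (z - z')))) :
            EuclideanSpace ℝ (Fin n)) = α z - α z' := by
          simp only [α, acoord, ← WithLp.toLp_sub, ← smul_sub, ← mulVec_sub, sub_sub_sub_cancel_right]
        rw [e3]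
        exact (norm_sub_le _ _).trans (by linarith [hαb z hz, hαb z' hz'])
      have h3 : (1 - ω) * (J : ℝ)⁻¹ * (qf G y (z - z') / s ^ 2) ≤
          4 * Rb ^ 2 / ((J : ℝ) * (k₀ ^ 2 * r₀)) * (k₀ ^ 2 * r₀) := by
        calc _ ≤ 1 * (J : ℝ)⁻¹ * (2 * Rb) ^ 2 := mul_le_mul
              (mul_le_mul_of_nonneg_right (by linarith) (by positivity)) h2
              (div_nonneg (qf_nonneg h _ _) (sq_nonneg _)) (by positivity)
          _ = _ := by field_simp; ring
      have h4 : 4 * Rb ^ 2 / ((J : ℝ) * (k₀ ^ 2 * r₀)) * (k₀ ^ 2 * r₀) ≤ L c := by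
        refine mul_le_mul_of_nonneg_left ?_ (by positivity)
        exact mul_le_mul (pow_le_pow_left₀ hk₀.le (hk₀b (c, y) ⟨hc, hy⟩) 2)
          (by rw [dist_symm h c y]; exact hbad.le) hr₀.le (sq_nonneg _)
      linarith
  rw [zero_add, show (J : ℝ) * (J : ℝ)⁻¹ = 1 from mul_inv_cancel₀ hJR.ne'] at hgauss
  -- error
  have herr : (J : ℝ) * blockErr n b (J : ℝ)⁻¹ Rb ω
      (((1 + 20 * b) * (1 + ω) - 1) * Rb ^ 2 / (2 * J)) = F x := by
    have hJx : (J : ℝ) * x ^ 2 = 1 := by rw [hx2, mul_inv_cancel₀ hJR.ne']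
    simp only [blockErr, F, b, hx, ← hx2]
    have e1 : ((1 + 20 * (β * x)) * (1 + ω) - 1) * Rb ^ 2 / (2 * (J : ℝ)) =
        ((1 + 20 * (β * x)) * (1 + ω) - 1) * Rb ^ 2 / 2 * x ^ 2 := by rw [hx2]; ring
    rw [e1, Real.sqrt_sq (show (0:ℝ) ≤ x by positivity)]
    linear_combination (((1 + 20 * (β * x)) * (1 + ω) - 1) * Rb ^ 2 / 2
      + (n : ℝ) * (5400 * β ^ 3) * x + 200 * Rb ^ 3 * x * I3
      + (n : ℝ) * Rb ^ 2 / 2 * (1 - Real.exp (-(10 * (β * x) * n +
          2 * (x ^ 2 * Rb ^ 2 + 5 * (n : ℝ) * (β * x) ^ 2))) * (1 - ω))) * hJx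
  rw [herr] at hgauss
  -- cost
  have hcost : (∑ i ∈ Finset.range J, chanAvg ctr (bstep G D bb δ') i (fun W => W y * L (ctr W))
      (fun _ => 1)) / 4 = Rb ^ 2 / (k₀ ^ 2 * r₀) * centreCostB G D bb ctr s J y := by
    simp only [centreCostB, L, Finset.mul_sum, Finset.sum_div]
    refine Finset.sum_congr rfl fun i _ => ?_
    rw [show (fun W : (Fin n → ℝ) → ℝ => W y * (4 * Rb ^ 2 / ((J : ℝ) * (k₀ ^ 2 * r₀)) * bD D bb (ctr W) y)) =
      fun W => 4 * Rb ^ 2 / ((J : ℝ) * (k₀ ^ 2 * r₀)) * (W y * bD D bb (ctr W) y) from funext fun W => by ring,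
      chanAvg_const_mul]
    ring
  rw [hcost] at hgauss
  -- start
  have hstart : gaussValue ν α y 1 (fun _ => 1) = termLower G u s Rb y := by
    refine integral_congr_ae (Eventually.of_forall fun Z => ?_)
    have hsm : 0 < shiftMass G u s Rb y Z := by
      have hc : ContinuousOn
          (fun z => -(qf G y (z - toFrame (frame G y) s y Z) / (2 * s ^ 2))) B :=
        (((continuous_qf h).comp (continuous_const.prodMk (continuous_id.sub continuous_const))
          ).div_const _).neg.continuousOn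
      exact tilt_pos hB hν hc
    simp only [lse, logRatio, Real.log_one, sub_self, zero_add, Real.sqrt_one, one_smul]
    rw [← Real.log_exp (‖Z‖ ^ 2 / 2), ← Real.log_mul (Real.exp_pos _).ne' hsm.ne', shiftMass,
      ← integral_const_mul]
    congr 1
    refine integral_congr_ae (Eventually.of_forall fun z => ?_)
    simp only
    rw [← Real.exp_add, gaussTilt, mul_comm 2 (s ^ 2), ← div_div, ← norm_acoord_sub_shift h hs.ne',
      norm_sub_sq_real, real_inner_comm Z]
    congr 1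
    simp only [α]
    ring
  rw [hstart] at hgauss
  -- end
  have hend : chanAvg ctr (bstep G D bb δ') J (fun W => W y * gaussValue ν α y 0 W) (fun _ => 1) ≤
      termAtB G D bb u ctr s J y := by
    refine chanAvg_mono (N := K) hctr J fun W hW => ?_
    obtain ⟨hWp, hWy⟩ := nodes_good (hvc K) (by linarith) hvb hyb J W hW
    refine mul_le_mul_of_nonneg_left ?_ hWy.le
    have hWB : PosOn B W := ⟨hWp.1.mono inter_subset_left, fun z hz => hWp.2 z hz.1⟩
    have e : ∀ Z : EuclideanSpace ℝ (Fin n),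
        (lse ν fun z => logRatio y W z + gaussTilt α (√(0:ℝ) • Z) 0 z) =
          Real.log (∫ z, W z ∂ν) - Real.log (W y) := fun Z => by
      simp only [lse, gaussTilt, Real.sqrt_zero, zero_smul, inner_zero_left, zero_mul, zero_div,
        sub_zero, add_zero, logRatio]
      rw [integral_congr_ae (g := fun z => W z * (W y)⁻¹) (hν.mono fun z hz => by
          simp only
          rw [Real.exp_sub, Real.exp_log (hWB.2 z hz), Real.exp_log hWy, div_eq_mul_inv]),
        integral_mul_const, Real.log_mul (integral_pos_of_posOn hB hν hWB).ne' (inv_ne_zero hWy.ne'),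
        Real.log_inv]
      ring
    simp only [gaussValue, e, integral_const, probReal_univ, one_smul]
    refine sub_le_sub_right (Real.log_le_log (integral_pos_of_posOn hB hν hWB) ?_) _
    exact setIntegral_le_integral (integrable_carrier hK hμK hWp.1)
      (hμK.mono fun z hz => (hWp.2 z hz).le)
  linarith

end Vale.Agent.P219.CH.Bend
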