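import Vale.Agent.P219.Bend.SharpPins
import Vale.Agent.P219.Bend.Geom
import Vale.Agent.P219.Bend.Model
import Vale.Agent.P219.Bend.Min
import Vale.Agent.P219.Bend.Centre
import Vale.Agent.P219.Bend.Terminal
import Vale.Agent.P219.Bend.Gain
import Vale.Agent.P219.Bend.Compare
import Vale.Agent.P219.Sharp.Assembly
import Vale.Agent.P219.CH.Kappa

/-!
# P219: the inequality up to `1 - 2 / n` in every dimension, assembly

All losses along the channel are an absolute constant for each unit of perimeter, less than the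
logarithm gained from a factor `1 - 1 / n`.
-/

noncomputable section

open MeasureTheory ProbabilityTheory Set Filter Topology Matrix
open scoped ENNReal NNReal Real

namespace Vale.Agent.P219.CH.Bend

open Sharp

variable {n : ℕ} {G : (Fin n → ℝ) → Matrix (Fin n) (Fin n) ℝ}
  {D : (Fin n → ℝ) → (Fin n → ℝ) → ℝ}

/-- The channel facts: the pointwise function has the entropy and the cost as its integral. -/
lemma channel_factsE (h : IsCH G D) (b : ℝ) (o : Fin n → ℝ) (R : ℝ) {u : (Fin n → ℝ) → ℝ}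
    (hu : Comp {y | D o y ≤ R} u) {N : Set (Fin n → ℝ)} {s : ℝ} (hs : 0 < s) {J : ℕ}
    {ctr : ((Fin n → ℝ) → ℝ) → (Fin n → ℝ)} (hctr : ∀ W, ctr W ∈ N) {B : ℝ} (hB0 : 0 ≤ B)
    (hB : ∀ y, D o y ≤ R → ∀ c ∈ N, D y c ≤ B) (hJ : 2 * B / s ^ 2 + 1 ≤ J) (C k : ℝ) :
    ContinuousOn (fun y => termAtB G D b u ctr s J y + C * centreCostB G D b ctr s J y + k)
        {y | D o y ≤ R} ∧
      (∀ y, D o y ≤ R → 0 ≤ centreCostB G D b ctr s J y) ∧
      ∫ y, (termAtB G D b u ctr s J y + C * centreCostB G D b ctr s J y + k) ∂pm G u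
        = chanAvg ctr (bstep G D b (1 / (s ^ 2 * J))) J (ent (pm G u)) (fun _ => 1)
          + C * ∫ y, centreCostB G D b ctr s J y ∂pm G u + k * per G u := by
  set K := {y | D o y ≤ R}
  have hK : IsCompact K := h.proper o R
  set μ := pm G u
  have hμf := isFiniteMeasure_pm h hK hu
  have hμK : ∀ᵐ y ∂μ, y ∈ K := ae_mem_pm h hK hu
  set vv := bstep G D b (1 / (s ^ 2 * J))
  have hsJ : 0 < s ^ 2 * (J : ℝ) := mul_pos (by positivity)
    (lt_of_lt_of_le (by positivity) hJ)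
  have hvv : ∀ c ∈ N, ∀ k, ∀ y ∈ K, |vv c k y| < 1 := fun c hc k y hy => by
    refine (abs_bstep_le h (by positivity) b (hB y hy c hc) k).trans_lt ?_
    rw [← Real.sqrt_mul (by positivity), Real.sqrt_lt' one_pos, one_pow, one_div_mul_eq_div,
      div_lt_one hsJ]
    have h1 := mul_le_mul_of_nonneg_left hJ (sq_nonneg s)
    rw [mul_add, mul_div_cancel₀ _ (by positivity : s ^ 2 ≠ 0)] at h1
    nlinarith
  have hpos : ∀ j, ∀ W ∈ nodes N vv j, PosOn K W :=
    nodes_posOn (fun c _ k => (contDiff_bstep h b _ c k).continuous.continuousOn) hvv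
  have hgc : ∀ W ∈ nodes N vv J,
      ContinuousOn (fun y => W y * (Real.log (∫ z, W z ∂μ) - Real.log (W y))) K := fun W hW =>
    (hpos J W hW).1.mul (continuousOn_const.sub
      ((hpos J W hW).1.log fun y hy => ((hpos J W hW).2 y hy).ne'))
  obtain ⟨hEnt, hEntc⟩ := integral_chanAvg hK hμK hctr J hgc
  have hbDc : ∀ c, ContinuousOn (bD D b c) K := fun c =>
    ((((contDiff_kfac_dist h b).continuous.comp
      (continuous_const.prodMk continuous_id)).pow 2).mul (continuous_D h c)).continuousOn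
  have hcostc : ContinuousOn (centreCostB G D b ctr s J) K :=
    (continuousOn_finsetSum _ fun j _ => (integral_chanAvg hK hμK hctr j
      (g := fun W y => W y * bD D b (ctr W) y) fun W hW =>
        (hpos j W hW).1.mul (hbDc _)).2).const_mul _
  refine ⟨(hEntc.add (hcostc.const_mul C)).add continuousOn_const, fun y hy => ?_, ?_⟩
  · refine mul_nonneg (by positivity) (Finset.sum_nonneg fun j _ => ?_)
    have h0 : chanAvg ctr vv j (fun W => (0 : ℝ) * W y) (fun _ => 1)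
        ≤ chanAvg ctr vv j (fun W => W y * bD D b (ctr W) y) (fun _ => 1) :=
      chanAvg_mono hctr j fun W hW => by
        rw [zero_mul]
        exact mul_nonneg ((hpos j W hW).2 y hy).le (bD_nonneg h b _ _)
    rwa [chanAvg_const_mul, zero_mul] at h0
  · have i1 : Integrable (termAtB G D b u ctr s J) μ := integrable_carrier hK hμK hEntc
    have i2 : Integrable (fun y => C * centreCostB G D b ctr s J y) μ :=
      (integrable_carrier hK hμK hcostc).const_mul _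
    have i12 : Integrable (fun y => termAtB G D b u ctr s J y + C * centreCostB G D b ctr s J y) μ :=
      i1.add i2
    rw [integral_add i12 (integrable_const _), integral_add i1 i2, integral_const_mul,
      integral_const, smul_eq_mul, mul_comm _ k]
    exact congrArg₂ (· + ·) (congrArg₂ (· + ·) hEnt.symm rfl)
      (congrArg (k * ·) (pm_univ h hK hu))

/-! ## The constant -/

/-- Stirling for the Gamma function at half integers. -/
theorem Gamma_half_stirling {n : ℕ} (hn : 1 ≤ n) :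
    1 / 2 * Real.log (π * n) + (n : ℝ) / 2 * (Real.log n - Real.log 2 - 1) ≤
      Real.log (Real.Gamma ((n : ℝ) / 2 + 1)) := by
  have hn0 : (0 : ℝ) < n := by exact_mod_cast hn
  have g1 := Real.Gamma_pos_of_pos (show (0 : ℝ) < (n : ℝ) / 2 by positivity)
  have g2 := Real.Gamma_pos_of_pos (show (0 : ℝ) < (n : ℝ) / 2 + 1 by positivity)
  have g3 := Real.Gamma_pos_of_pos (show (0 : ℝ) < (n : ℝ) / 2 + 1 / 2 by positivity)
  have hdup := Real.Gamma_mul_Gamma_add_half ((n : ℝ) / 2 + 1 / 2)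
  rw [show (n : ℝ) / 2 + 1 / 2 + 1 / 2 = (n : ℝ) / 2 + 1 by ring,
    show 2 * ((n : ℝ) / 2 + 1 / 2) = (n : ℝ) + 1 by ring, Real.Gamma_nat_eq_factorial] at hdup
  have h1 := congrArg Real.log hdup
  rw [Real.log_mul g3.ne' g2.ne', Real.log_mul (by positivity) (by positivity),
    Real.log_mul (by positivity) (by positivity), Real.log_sqrt Real.pi_pos.le,
    Real.log_rpow two_pos] at h1
  have h2 := Real.convexOn_log_Gamma.2 (show (n : ℝ) / 2 ∈ Ioi (0 : ℝ) from mem_Ioi.2 (by positivity))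
    (show (n : ℝ) / 2 + 1 ∈ Ioi (0 : ℝ) from mem_Ioi.2 (by positivity))
    (show (0 : ℝ) ≤ 1 / 2 by norm_num) (show (0 : ℝ) ≤ 1 / 2 by norm_num) (by norm_num)
  simp only [smul_eq_mul, Function.comp_apply] at h2
  rw [show 1 / 2 * ((n : ℝ) / 2) + 1 / 2 * ((n : ℝ) / 2 + 1) = (n : ℝ) / 2 + 1 / 2 by ring] at h2
  have h3 := congrArg Real.log (Real.Gamma_add_one (show (n : ℝ) / 2 ≠ 0 by positivity))
  rw [Real.log_mul (by positivity) g1.ne', Real.log_div hn0.ne' two_ne_zero] at h3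
  have h4 := Stirling.le_log_factorial_stirling (n := n) (by omega)
  rw [Real.log_mul (by positivity) Real.pi_pos.ne'] at h4
  rw [Real.log_mul Real.pi_pos.ne' hn0.ne']
  linarith

/-- The model constant against the Gaussian one. -/
theorem log_model_const_le {n : ℕ} (hn : 2 ≤ n) :
    Real.log (unitBall n) + Real.log n + ((n : ℝ) - 1) * Real.log ((n : ℝ) - 1) ≤
      ((n : ℝ) - 1) / 2 * Real.log (2 * π * ((n : ℝ) - 1)) + (n : ℝ) / 2 + Real.log 2 / 2 - 1 / 4 := by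
  have hn0 : (2 : ℝ) ≤ n := by exact_mod_cast hn
  have hm0 : (0 : ℝ) < (n : ℝ) - 1 := by linarith
  have : Nonempty (Fin n) := ⟨⟨0, by omega⟩⟩
  have hΓ0 : 0 < Real.Gamma ((n : ℝ) / 2 + 1) := Real.Gamma_pos_of_pos (by positivity)
  have hG := Gamma_half_stirling (n := n) (by omega)
  have hω : unitBall n = √π ^ n / Real.Gamma ((n : ℝ) / 2 + 1) := by
    rw [unitBall, EuclideanSpace.volume_ball, Fintype.card_fin, ENNReal.ofReal_one, one_pow, one_mul,
      ENNReal.toReal_ofReal (by positivity)]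
  have hq : 1 / (n : ℝ) ≤ Real.log n - Real.log ((n : ℝ) - 1) := by
    have h1 := Real.log_le_sub_one_of_pos (show 0 < ((n : ℝ) - 1) / n by positivity)
    rw [Real.log_div hm0.ne' (by linarith),
      show ((n : ℝ) - 1) / n - 1 = -(1 / (n : ℝ)) by field_simp; ring] at h1
    linarith
  have hhalf : 1 / 4 ≤ ((n : ℝ) - 1) / 2 * (1 / (n : ℝ)) := by
    rw [mul_one_div, le_div_iff₀ (by linarith)]
    linarith
  have h2 := mul_le_mul_of_nonneg_left hq (show 0 ≤ ((n : ℝ) - 1) / 2 by linarith)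
  rw [hω, Real.log_div (by positivity) hΓ0.ne', Real.log_pow, Real.log_sqrt Real.pi_pos.le,
    Real.log_mul (by positivity) hm0.ne', Real.log_mul two_ne_zero Real.pi_pos.ne']
  rw [Real.log_mul Real.pi_pos.ne' (by linarith : (n : ℝ) ≠ 0)] at hG
  linarith

/-! ## The inequalities combined -/

/-- The entropy drop is at most what the terminal bound leaves. -/
lemma drop_small {P W T κ Ent F e : ℝ} (hP : 0 < P) (he : e ≤ P / 100) (hκ0 : 0 ≤ κ)
    (hκ1 : κ ≤ 1 / 2) (hκT : κ * (W - T + 1) ≤ 1 / 100) (hF : 0 ≤ F)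
    (hgain : F + Ent ≤ P * W + e) (hlow : P * T - e ≤ Ent + κ * F + 1 / 50 * P) :
    2 * ((P * W + e - Ent) / P) ≤ 2 * (W - T + 1 / 10) := by
  obtain ⟨Δ, hΔ⟩ : ∃ Δ, Δ = (P * W + e - Ent) / P := ⟨_, rfl⟩
  have hPΔ : P * Δ = P * W + e - Ent := by rw [hΔ]; field_simp
  have hΔ0 : 0 ≤ Δ := nonneg_of_mul_nonneg_right (by rw [hPΔ]; linarith) hP
  have h2 : κ * F ≤ κ * (P * Δ) := mul_le_mul_of_nonneg_left (by linarith) hκ0
  have h3 : (1 - κ) * Δ ≤ W - T + 1 / 25 := le_of_mul_le_mul_left (by nlinarith) hP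
  have h4 : κ * Δ ≤ 1 / 50 := by
    have h5 := mul_le_mul_of_nonneg_left h3 hκ0
    have h6 : κ * κ * Δ ≤ 1 / 2 * (κ * Δ) := by
      rw [mul_assoc]; exact mul_le_mul_of_nonneg_right hκ1 (mul_nonneg hκ0 hΔ0)
    linarith
  rw [← hΔ]
  linarith

/-- Solving the gain inequality. -/
lemma gain_solveS {m s H b W K0 X : ℝ} (hm : 1 ≤ m) (hs : 0 < s) (hH : 0 < H)
    (hX : X = 2 * (W - (m * Real.log s + K0) + 1 / 10))
    (hgain : H + m / s ^ 2 - m * b ^ 2 * X ≤ H * Real.exp (X / m))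
    (hsmall : b ^ 2 * X * s ^ 2 ≤ 1 / (100 * (m + 1))) :
    m / 2 * Real.log m - 1 / 50 ≤ m / 2 * Real.log H + (W - K0 + 1 / 10) := by
  obtain ⟨x, hx⟩ : ∃ x : ℝ, x = 1 / (100 * (m + 1)) := ⟨_, rfl⟩
  have hx0 : 0 < x := by rw [hx]; positivity
  have hxm : m * x ≤ 1 / 100 := by
    rw [hx, mul_one_div, div_le_iff₀ (by positivity)]; linarith
  have hx1 : x ≤ 1 / 2 := by nlinarith
  have e1 : X / m = 2 * (W - K0 + 1 / 10) / m - 2 * Real.log s := by
    rw [hX]; field_simp; ring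
  have e2 : Real.exp (X / m) * s ^ 2 = Real.exp (2 * (W - K0 + 1 / 10) / m) := by
    rw [e1, Real.exp_sub, show 2 * Real.log s = Real.log (s ^ 2) by rw [Real.log_pow]; norm_num,
      Real.exp_log (by positivity)]
    field_simp
  have h1 := mul_le_mul_of_nonneg_right hgain (sq_nonneg s)
  rw [mul_assoc H, e2, sub_mul, add_mul, div_mul_cancel₀ _ (by positivity : s ^ 2 ≠ 0)] at h1
  have h2 : m * (1 - x) ≤ H * Real.exp (2 * (W - K0 + 1 / 10) / m) := by
    have h4 := mul_le_mul_of_nonneg_left (hx ▸ hsmall) (show 0 ≤ m by linarith)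
    have h5 : 0 ≤ H * s ^ 2 := by positivity
    linarith
  have h3 := Real.log_le_log (mul_pos (by linarith) (by linarith)) h2
  rw [Real.log_mul (by linarith) (by linarith), Real.log_mul hH.ne' (Real.exp_pos _).ne',
    Real.log_exp] at h3
  have h4 : -(2 * x) ≤ Real.log (1 - x) := by
    have h5 := Real.one_sub_inv_le_log_of_pos (show 0 < 1 - x by linarith)
    have h6 : (1 - x)⁻¹ ≤ 1 + 2 * x := by
      rw [inv_le_iff_one_le_mul₀ (by linarith)]; nlinarith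
    linarith
  have h6 := mul_le_mul_of_nonneg_left (show Real.log m + -(2 * x) ≤
    Real.log H + 2 * (W - K0 + 1 / 10) / m by linarith) (by linarith : 0 ≤ m / 2)
  have e4 : m / 2 * (2 * (W - K0 + 1 / 10) / m) = W - K0 + 1 / 10 := by field_simp
  linarith

/-- The bound of the entropy drop contradicts a factor `lam` with `n log lam ≤ -1`. -/
lemma end_contradiction {n : ℕ} {lam θ S W : ℝ} (hn : 2 ≤ n) (hlam : 0 < lam)
    (hlog : (n : ℝ) * Real.log lam ≤ -1) (hθ : 0 < θ) (hθm : ((n : ℝ) - 1) * Real.log θ ≤ 1 / 100)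
    (hS : 0 < S) (hW : W ≤ Real.log (lam * (unitBall n * ((n : ℝ) * S ^ (n - 1)))))
    (h : ((n : ℝ) - 1) / 2 * Real.log ((n : ℝ) - 1) - 1 / 50 ≤
      ((n : ℝ) - 1) / 2 * Real.log ((lam * θ * ((n : ℝ) - 1) / S) ^ 2) +
        (W - (((n : ℝ) - 1) / 2 * Real.log (2 * π) + (n : ℝ) / 2 + Real.log 4 - 2) + 1 / 10)) :
    False := by
  have hn0 : (2 : ℝ) ≤ n := by exact_mod_cast hn
  have hm0 : (0 : ℝ) < (n : ℝ) - 1 := by linarith
  have hω := unitBall_pos (n := n) (by omega)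
  have hc := log_model_const_le hn
  rw [Real.log_mul (by positivity) hm0.ne'] at hc
  rw [Real.log_mul hlam.ne' (by positivity), Real.log_mul hω.ne' (by positivity),
    Real.log_mul (by linarith) (by positivity), Real.log_pow, Nat.cast_sub (by omega : 1 ≤ n),
    Nat.cast_one] at hW
  rw [Real.log_pow, Real.log_div (by positivity) hS.ne', Real.log_mul (by positivity) hm0.ne',
    Real.log_mul hlam.ne' hθ.ne'] at h
  have h4 : Real.log 4 = 2 * Real.log 2 := by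
    rw [show (4 : ℝ) = 2 ^ 2 by norm_num, Real.log_pow]; norm_num
  push_cast at h
  linarith [Real.log_two_gt_d9]

/-- A factor close to one keeps the slope condition. -/
lemma exists_theta {b lam m : ℝ} (hm : 0 < m)
    (hc : b = 0 ∨ lam ^ 2 * m ^ 2 < m ^ 2 - 2 * m) :
    ∃ θ : ℝ, 1 < θ ∧ m * Real.log θ ≤ 1 / 100 ∧
      (b = 0 ∨ (lam * θ) ^ 2 * m ^ 2 ≤ m ^ 2 - 2 * m) := by
  have hlim : Tendsto (fun t : ℝ => (lam * Real.exp t) ^ 2 * m ^ 2) (𝓝[>] 0)
      (𝓝 (lam ^ 2 * m ^ 2)) :=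
    ((by fun_prop : Continuous fun t : ℝ => (lam * Real.exp t) ^ 2 * m ^ 2).tendsto' 0 _
      (by simp)).mono_left nhdsWithin_le_nhds
  have h1 : ∀ᶠ t in 𝓝[>] (0 : ℝ), b = 0 ∨ (lam * Real.exp t) ^ 2 * m ^ 2 ≤ m ^ 2 - 2 * m := by
    rcases hc with hb | hlt
    · exact Eventually.of_forall fun _ => Or.inl hb
    · exact (hlim.eventually (eventually_le_nhds hlt)).mono fun _ ht => Or.inr ht
  have h2 : ∀ᶠ t in 𝓝[>] (0 : ℝ), m * t ≤ 1 / 100 :=
    (((continuous_const.mul continuous_id).tendsto' (0 : ℝ) 0 (by simp)).mono_left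
      nhdsWithin_le_nhds).eventually (eventually_le_nhds (by norm_num))
  obtain ⟨t, ⟨ht1, ht2⟩, ht0⟩ := ((h1.and h2).and self_mem_nhdsWithin).exists
  exact ⟨Real.exp t, Real.one_lt_exp_iff.2 ht0, by rw [Real.log_exp]; exact ht2, ht1⟩

/-- On the model profile the multiplier has at most the size of the Euclidean one at `sn r`. -/
lemma multiplier_le_or {m b q S Cc : ℝ} (hS : 0 < S) (hC : Cc ^ 2 = 1 + b ^ 2 * S ^ 2)
    (hq : b = 0 ∨ q ^ 2 * m ^ 2 ≤ m ^ 2 - 2 * m) :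
    (q * (m * Cc / S)) ^ 2 - b ^ 2 * (m ^ 2 - 2 * m) ≤ (q * m / S) ^ 2 := by
  have e : (q * (m * Cc / S)) ^ 2 = (q * m / S) ^ 2 + b ^ 2 * (q ^ 2 * m ^ 2) := by
    calc (q * (m * Cc / S)) ^ 2 = (q * m / S) ^ 2 * Cc ^ 2 := by ring
      _ = _ := by rw [hC]; field_simp
  rw [e]
  rcases hq with hb | hq
  · rw [hb]; simp
  · linarith [mul_le_mul_of_nonneg_left hq (sq_nonneg b)]

/-- Small scales exist. -/
lemma exists_scaleS {s₀ s₁ s₂ : ℝ} (h₀ : 0 < s₀) (h₁ : 0 < s₁) (h₂ : 0 < s₂) (C b' c m : ℝ)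
    (hm : 0 < m) :
    ∃ s : ℝ, 0 < s ∧ s < 1 ∧ s < s₀ ∧ s < s₁ ∧ s < s₂ ∧ 2 * C * s ^ 2 ≤ 1 / 2 ∧
      2 * C * (c * s) ≤ 1 / 100 ∧ b' * (c * s) ≤ 1 / (100 * (m + 1)) := by
  have h1 : ∀ᶠ s in 𝓝[>] (0 : ℝ), s < 1 ∧ s < s₀ ∧ s < s₁ ∧ s < s₂ ∧ 2 * C * s ^ 2 ≤ 1 / 2 ∧
      2 * C * (c * s) ≤ 1 / 100 ∧ b' * (c * s) ≤ 1 / (100 * (m + 1)) := by
    refine ((eventually_lt_nhds one_pos).and ((eventually_lt_nhds h₀).and ((eventually_lt_nhds h₁).and
      ((eventually_lt_nhds h₂).and ((?_ : ∀ᶠ s in 𝓝 (0 : ℝ), _).and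
        ((?_ : ∀ᶠ s in 𝓝 (0 : ℝ), _).and ?_)))))).filter_mono nhdsWithin_le_nhds
    · exact ((continuous_const.mul (continuous_pow 2)).tendsto' 0 0 (by simp)).eventually
        (eventually_le_nhds one_half_pos)
    · exact ((continuous_const.mul (continuous_const.mul continuous_id)).tendsto' 0 0
        (by simp)).eventually (eventually_le_nhds (by norm_num))
    · exact ((continuous_const.mul (continuous_const.mul continuous_id)).tendsto' 0 0
        (by simp)).eventually (eventually_le_nhds (by positivity))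
  obtain ⟨s, hs1, hs2⟩ := (h1.and self_mem_nhdsWithin).exists
  exact ⟨s, hs2, hs1⟩

/-- The bound on the drop is small against `1 / s ^ 2`. -/
lemma drop_bound_mul_le {m s W K0 p₀ P₀ P : ℝ} (hm : 0 ≤ m) (hs : 0 < s) (hs1 : s ≤ 1)
    (hp₀ : 0 < p₀) (hpP : p₀ ≤ P) (hPu : P ≤ P₀) (hW : W = Real.log P) :
    (2 * (W - (m * Real.log s + K0) + 1)) * s ^ 2 ≤
      2 * (|Real.log p₀| + |Real.log P₀| + m + |K0| + 1) * s := by
  have hls : -Real.log s * s ≤ 1 := by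
    have := Real.log_le_sub_one_of_pos (inv_pos.2 hs)
    rw [Real.log_inv] at this
    calc -Real.log s * s ≤ s⁻¹ * s := mul_le_mul_of_nonneg_right (by linarith) hs.le
      _ = 1 := inv_mul_cancel₀ hs.ne'
  have hWb : W ≤ |Real.log p₀| + |Real.log P₀| := by
    rw [hW]
    linarith [Real.log_le_log (hp₀.trans_le hpP) hPu, abs_nonneg (Real.log p₀), le_abs_self (Real.log P₀)]
  have h1 : (W - K0 + 1) * s ≤ |Real.log p₀| + |Real.log P₀| + |K0| + 1 := by
    calc (W - K0 + 1) * s ≤ (|Real.log p₀| + |Real.log P₀| + |K0| + 1) * s :=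
          mul_le_mul_of_nonneg_right (by linarith [neg_abs_le K0]) hs.le
      _ ≤ _ := mul_le_of_le_one_right (by positivity) hs1
  have h2 : 2 * (W - (m * Real.log s + K0) + 1) * s ≤
      2 * (|Real.log p₀| + |Real.log P₀| + m + |K0| + 1) := by
    linarith [mul_le_mul_of_nonneg_left hls hm]
  calc _ = 2 * (W - (m * Real.log s + K0) + 1) * s * s := by ring
    _ ≤ _ := mul_le_mul_of_nonneg_right h2 hs.le

/-- The inequality with a factor `lam` against the space form, from the last two parts. -/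
theorem isoperimetric_factor (hS : ∀ n, GoodShiftPinS n) (hL : ∀ n, LowerPinS n) (hn : 2 ≤ n)
    (h : IsCH G D) {b : ℝ} (hb : 0 ≤ b) (hB : BendCH G D b) {lam : ℝ} (hlam : 0 < lam)
    (hlog : (n : ℝ) * Real.log lam ≤ -1)
    (hslope : b = 0 ∨ lam ^ 2 * ((n : ℝ) - 1) ^ 2 < ((n : ℝ) - 1) ^ 2 - 2 * ((n : ℝ) - 1))
    {Ω : Set (Fin n → ℝ)} {A : ℝ} (hΩ : MeasurableSet Ω) (hΩb : Bornology.IsBounded Ω)
    (hper : PerimeterLE G Ω A) :
    ∃ r, 0 ≤ r ∧ unitBall n * modelVol n b r = volG G Ω ∧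
      lam * (unitBall n * modelArea n b r) ≤ A := by
  have hn2 : (2 : ℝ) ≤ n := by exact_mod_cast hn
  have hn1 : 1 ≤ n := by omega
  have hω := unitBall_pos hn1
  have hVΩ : 0 ≤ volG G Ω := setIntegral_nonneg hΩ fun y _ => (h.dens_pos y).le
  obtain ⟨hr0, hr⟩ := modelRad_spec hn1 b (div_nonneg hVΩ hω.le)
  refine ⟨modelRad n b (volG G Ω / unitBall n), hr0, by rw [hr]; field_simp, ?_⟩
  by_contra hlt
  rw [not_le] at hlt
  have hΦ := modelPin n hn b lam hb hlam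
  obtain ⟨R, M, P₀, v₀, hR, hM, hP₀, hv₀, hmin⟩ :=
    minPinP n hn G D h Ω A _ _ hΩ hΩb hper hΦ hlt 0
  set K := {y | D 0 y ≤ R}
  have hK : IsCompact K := h.proper 0 R
  obtain ⟨p₀, hp₀, hperlow⟩ := exists_per_lower h 0 R hn1 hv₀
  obtain ⟨η₁, e₁, Rb, s₂, hη₁, hη₁1, he₁, hRb, hs₂, hLow⟩ :=
    hL n hn G D h 0 R P₀ v₀ (p₀ / 100) hR hP₀ hv₀ (by positivity)
  obtain ⟨s₀, hs₀, hGood⟩ := hS n hn G D h 0 R P₀ v₀ M _ _ 1 η₁ e₁ hR hP₀ hv₀ hΦ hM le_rfl
    hη₁.le hη₁1 he₁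
  obtain ⟨s₁, C, hs₁, hC, hTerm⟩ := terminalPinB n hn G D h b 0 R Rb (1 / 50) hR hRb (by norm_num)
  -- scales
  have hm0 : (0 : ℝ) < (n : ℝ) - 1 := by linarith
  obtain ⟨θ, hθ1, hθm, hθc⟩ := exists_theta hm0 hslope
  obtain ⟨u₁, ⟨hu₁, -, hvu₁, -⟩, -⟩ := hmin 1 one_pos
  have hVK : 0 < volG G K := hv₀.trans_le (hvu₁.trans (h.vol_le hK hu₁))
  obtain ⟨Smax, hSmax⟩ : ∃ S : ℝ, S = sn b (modelRad n b (volG G K / unitBall n)) := ⟨_, rfl⟩
  have hSmax0 : 0 < Smax := hSmax ▸ sn_pos b (modelRad_pos hn1 b (div_pos hVK hω))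
  obtain ⟨η, hη⟩ : ∃ η : ℝ, η = (lam * θ * ((n : ℝ) - 1) / Smax) ^ 2 := ⟨_, rfl⟩
  have hη0 : 0 < η := by rw [hη]; positivity
  obtain ⟨K0, hK0⟩ : ∃ K0 : ℝ, K0 = ((n : ℝ) - 1) / 2 * Real.log (2 * π) + (n : ℝ) / 2
      + Real.log 4 - 2 := ⟨_, rfl⟩
  obtain ⟨c, hc, hc0⟩ : ∃ c : ℝ, c = 2 * (|Real.log p₀| + |Real.log P₀| + ((n : ℝ) - 1) + |K0| + 1)
      ∧ 0 ≤ c := ⟨_, rfl, by positivity⟩
  obtain ⟨s, hs, hs1, hss₀, hss₁, hss₂, hsC, hsc, hsb⟩ := exists_scaleS hs₀ hs₁ hs₂ C (b ^ 2) c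
    ((n : ℝ) - 1) hm0
  obtain ⟨δ₁, hδ₁, hLow⟩ := hLow s hs hss₂
  obtain ⟨δ₂, hδ₂, hGood⟩ := hGood s hs hss₀
  obtain ⟨J₀, hTerm⟩ := hTerm s hs hss₁
  obtain ⟨κ, hκ, J₁, hGain⟩ := gainPinB n hn G D h b hB 0 R P₀ v₀ M θ s (p₀ / 100) η _ _ hR hP₀ hv₀
    hΦ hM hθ1 hs (by positivity) hη0
  obtain ⟨B, hB0, hBd⟩ : ∃ B : ℝ, 0 ≤ B ∧ ∀ y ∈ K, ∀ c ∈ K, D y c ≤ B := by
    obtain ⟨B, hB⟩ := (hK.prod hK).bddAbove_image h.continuous_D.continuousOn
    exact ⟨max B 0, le_max_right _ _,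
      fun y hy c hc => (hB ⟨(y, c), ⟨hy, hc⟩, rfl⟩).trans (le_max_left _ _)⟩
  obtain ⟨J, hJ₀, hJ₁, hJB⟩ : ∃ J : ℕ, J₀ ≤ J ∧ J₁ ≤ J ∧ 2 * B / s ^ 2 + 1 ≤ J :=
    ⟨max (max J₀ J₁) ⌈2 * B / s ^ 2 + 1⌉₊, le_trans (le_max_left _ _) (le_max_left _ _),
      le_trans (le_max_right _ _) (le_max_left _ _),
      (Nat.le_ceil _).trans (by exact_mod_cast le_max_right _ _)⟩
  obtain ⟨N, hNf, hoN, hNR, hNet⟩ := netPinB n G D h b 0 R κ hR hκ
  obtain ⟨δ₃, hδ₃, hGain⟩ := hGain J hJ₁ N hNf hNR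
  obtain ⟨u, ⟨hu, hPu, hVu, hgu, hopt⟩, hPV⟩ := hmin (min δ₁ (min δ₂ δ₃)) (by positivity)
  have hnear : ∀ δ, min δ₁ (min δ₂ δ₃) ≤ δ →
      NearMinP G D 0 R P₀ v₀ (modelProfile n b lam) M δ u := fun δ hδ =>
    ⟨hu, hPu, hVu, hgu.trans hδ, fun u' hu' => (hopt u' hu').trans (by linarith)⟩
  have hpP : p₀ ≤ per G u := hperlow u hu hVu
  have hP0 : 0 < per G u := hp₀.trans_le hpP
  have hμf := isFiniteMeasure_pm h hK hu
  have hμK : ∀ᵐ y ∂pm G u, y ∈ K := ae_mem_pm h hK hu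
  have : NeZero (pm G u) := ⟨fun h0 => by
    have h1 := pm_univ h hK hu
    rw [h0] at h1
    simp at h1
    linarith⟩
  -- the centres
  classical
  set ctr : ((Fin n → ℝ) → ℝ) → (Fin n → ℝ) := fun W =>
    if hh : ∃ c ∈ N, ∀ k, |∫ y, W y * bucoord G D b c y k ∂pm G u| ≤ κ * ∫ y, W y ∂pm G u
      then hh.choose else 0
  have hctrN : ∀ W, ctr W ∈ N := fun W => by
    simp only [ctr]
    split_ifs with hh
    · exact hh.choose_spec.1
    · exact hoN
  have hgood := hGood u (hnear δ₂ (le_trans (min_le_right _ _) (min_le_left _ _)))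
  obtain ⟨hgain1, hgain2⟩ := hGain u (hnear δ₃ (le_trans (min_le_right _ _) (min_le_right _ _))) hP0
    ctr hctrN fun W hWc hWp k => by
      have hh := hNet (pm G u) W hμK ⟨hWc, hWp⟩ (integral_pos_of_posOn hK hμK ⟨hWc, hWp⟩)
      simp only [ctr, dif_pos hh]
      exact hh.choose_spec.2 k
  obtain ⟨hfc, hcost0, hint⟩ := channel_factsE h b 0 R hu hs hctrN hB0
    (fun y hy c hc => hBd y hy c (hNR c hc)) hJB C (1 / 50)
  have hlow := hLow u hu hPu hVu (hgu.trans (min_le_left _ _)) (hgood.trans (by linarith)) _ hfc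
    fun y hy hq => by
      obtain ⟨ha, hb⟩ := hTerm J hJ₀ u ctr y hu (fun W => hNR _ (hctrN W)) hy hq
      have := mul_nonneg hC (hcost0 y hy)
      constructor <;> linarith
  rw [hint] at hlow
  -- the entropy drop
  obtain ⟨W, hW⟩ : ∃ W : ℝ, W = Real.log (per G u) := ⟨_, rfl⟩
  obtain ⟨X, hX⟩ : ∃ X : ℝ, X = 2 * (W - (((n : ℝ) - 1) * Real.log s + K0) + 1 / 10) := ⟨_, rfl⟩
  have hXb := drop_bound_mul_le (K0 := K0) hm0.le hs hs1.le hp₀ hpP hPu hW
  rw [← hc] at hXb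
  set Xc := (∫ y, centreCostB G D b ctr s J y ∂pm G u) / (2 * s ^ 2)
  have hXe : C * ∫ y, centreCostB G D b ctr s J y ∂pm G u = 2 * C * s ^ 2 * Xc := by
    simp only [Xc]; field_simp
  have hXc0 : 0 ≤ Xc :=
    div_nonneg (integral_nonneg_of_ae (hμK.mono fun y hy => hcost0 y hy)) (by positivity)
  rw [hXe] at hlow
  rw [← hW] at hgain1 hgain2
  have hdrop := drop_small (F := Xc) (W := W) (T := ((n : ℝ) - 1) * Real.log s + K0)
    (e := p₀ / 100) (κ := 2 * C * s ^ 2) hP0 (by linarith) (by positivity) hsC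
    (by
      have h1 := mul_le_mul_of_nonneg_left hXb (by positivity : 0 ≤ 2 * C)
      linarith) hXc0 hgain2 (by rw [hK0]; linarith)
  rw [← hX] at hdrop
  -- the multiplier
  have hV : 0 < vol G u := hv₀.trans_le hVu
  obtain ⟨S, hSdef⟩ : ∃ S : ℝ, S = sn b (modelRad n b (vol G u / unitBall n)) := ⟨_, rfl⟩
  have hS0 : 0 < S := hSdef ▸ sn_pos b (modelRad_pos hn1 b (div_pos hV hω))
  have hηH : η ≤ (lam * θ * ((n : ℝ) - 1) / S) ^ 2 := by
    rw [hη]
    refine pow_le_pow_left₀ (by positivity) (div_le_div_of_nonneg_left (by positivity) hS0 ?_) 2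
    rw [hSdef, hSmax]
    exact sn_monotoneOn b (modelRad_spec hn1 b (by positivity)).1
      (modelRad_spec hn1 b (by positivity)).1 (modelRad_mono hn1 b (by positivity)
        (div_le_div_of_nonneg_right (h.vol_le hK hu) hω.le))
  have hmult : (θ * modelSlope n b lam (vol G u)) ^ 2
      - b ^ 2 * (((n : ℝ) - 1) ^ 2 - 2 * ((n : ℝ) - 1)) ≤ (lam * θ * ((n : ℝ) - 1) / S) ^ 2 := by
    rw [modelSlope, ← hSdef, ← mul_assoc, mul_comm θ lam]
    exact multiplier_le_or hS0 (hSdef ▸ cosh_sq_sn b _) hθc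
  have hsolve := gain_solveS (K0 := K0) (b := b) (by linarith) hs (lt_of_lt_of_le hη0 hηH) hX
    (hgain1 _ hηH hmult X hdrop) (by
      have h1 := mul_le_mul_of_nonneg_left hXb (sq_nonneg b)
      have h2 : b ^ 2 * X * s ^ 2 ≤ b ^ 2 * (2 * (W - (((n : ℝ) - 1) * Real.log s + K0) + 1)) * s ^ 2 := by
        refine mul_le_mul_of_nonneg_right (mul_le_mul_of_nonneg_left ?_ (sq_nonneg b)) (sq_nonneg s)
        linarith
      linarith)
  rw [hK0] at hsolve
  exact end_contradiction hn hlam hlog (by linarith) hθm hS0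
    (hW ▸ Real.log_le_log hP0 (by rw [hSdef]; exact hPV)) hsolve

/-- The inequality against every space form up to `1 - 2 / n`, from the last two parts. -/
theorem generalisedCHUpTo_of_pins (hS : ∀ n, GoodShiftPinS n) (hL : ∀ n, LowerPinS n) :
    GeneralisedCHUpTo := by
  intro n hn G D h b hb0 hb Ω A hΩ hΩb hper
  have hn2 : (2 : ℝ) ≤ n := by exact_mod_cast hn
  rcases le_or_gt 4 n with h4 | h4
  · have h4' : (4 : ℝ) ≤ n := by exact_mod_cast h4
    have hlam : 0 < 1 - 2 / (n : ℝ) := by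
      rw [sub_pos, div_lt_one (by linarith)]; linarith
    refine isoperimetric_factor hS hL hn h hb0 hb hlam ?_ (Or.inr ?_) hΩ hΩb hper
    · have h1 := mul_le_mul_of_nonneg_left (Real.log_le_sub_one_of_pos hlam)
        (show (0 : ℝ) ≤ n by linarith)
      rw [show (n : ℝ) * (1 - 2 / n - 1) = -2 by field_simp; ring] at h1
      linarith
    · rw [show (1 - 2 / (n : ℝ)) = ((n : ℝ) - 2) / n by field_simp, div_pow, div_mul_eq_mul_div,
        div_lt_iff₀ (by positivity)]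
      nlinarith [mul_pos (show (0 : ℝ) < (n : ℝ) - 1 by linarith)
        (show (0 : ℝ) < 2 * (n : ℝ) ^ 2 - 8 * n + 4 by nlinarith)]
  · have h3 : (n : ℝ) ≤ 3 := by exact_mod_cast (show n ≤ 3 by omega)
    obtain ⟨r, hr0, hrV, hrA⟩ := h.three_fifths hn hb0 (hb.bent h) hΩ hΩb hper
    refine ⟨r, hr0, hrV, le_trans (mul_le_mul_of_nonneg_right ?_ (mul_nonneg ENNReal.toReal_nonneg
      (mul_nonneg (Nat.cast_nonneg n) (pow_nonneg (sn_nonneg b hr0) _)))) hrA⟩
    have : 2 / 5 ≤ 2 / (n : ℝ) := by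
      rw [div_le_div_iff₀ (by norm_num) (by linarith)]; linarith
    linarith

end Vale.Agent.P219.CH.Bend
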