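import Vale.Agent.P219.Bend.Defs
import Vale.Agent.P219.CH.VarAlgebra

/-!
# P219, curvature at most `-b ^ 2`: the hyperbolic law of cosines from the Hessian comparison
-/

noncomputable section

open MeasureTheory ProbabilityTheory Set Filter Topology Matrix

namespace Vale.Agent.P219.CH.Bend

open Sharp

variable {n : ℕ} {G : (Fin n → ℝ) → Matrix (Fin n) (Fin n) ℝ}
  {D : (Fin n → ℝ) → (Fin n → ℝ) → ℝ} {b : ℝ}

/-- The differential of `D o` applied to the gradient of `D x`, differentiated along that gradient. -/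
lemma fderiv_pair_grad (h : IsCH G D) (o x w : Fin n → ℝ) :
    fderiv ℝ (fun z => fderiv ℝ (D o) z (grad G (D x) z)) w (grad G (D x) w) =
      hess G (D o) w (grad G (D x) w) + pairing G w (cd (D o) w) (cd (D x) w) := by
  set g := grad G (D x) w with hg
  set η := grad G (D o) w with hη
  have hd : ∀ p v, fderiv ℝ (fun z => fderiv ℝ (D p) z (grad G (D x) z)) w v =
      fderiv ℝ (fderiv ℝ (D p)) w v g + fderiv ℝ (D p) w (fderiv ℝ (grad G (D x)) w v) := by
    intro p v
    have h1 := (((h.contDiff_D p).fderiv_right (m := 1) le_rfl).differentiable one_ne_zero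
      w).hasFDerivAt
    have h2 := ((h.contDiff_grad_dist x).differentiable one_ne_zero w).hasFDerivAt
    rw [(h1.clm_apply h2).fderiv]
    simp [add_comm, hg]
  have hswap : ∀ u a c : Fin n → ℝ, a ⬝ᵥ (dG G w u *ᵥ c) = c ⬝ᵥ (dG G w u *ᵥ a) := fun u a c => by
    simp only [dotProduct, mulVec, Finset.mul_sum]
    rw [Finset.sum_comm]
    exact Finset.sum_congr rfl fun i _ => Finset.sum_congr rfl fun j _ => by
      rw [h.dG_symm w u j i]; ring
  have hval : ∀ p v, fderiv ℝ (D p) w (fderiv ℝ (grad G (D x)) w v) =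
      fderiv ℝ (fderiv ℝ (D x)) w v (grad G (D p) w) - grad G (D p) w ⬝ᵥ (dG G w v *ᵥ g) := by
    intro p v
    rw [h.fderiv_grad_dist, ← cd_dotProduct, show ∀ ξ : Fin n → ℝ, cd (D p) w ⬝ᵥ ((G w)⁻¹ *ᵥ ξ) =
      pairing G w (cd (D p) w) ξ from fun ξ => rfl, h.pairing_comm,
      show ∀ ξ : Fin n → ℝ, pairing G w ξ (cd (D p) w) = ξ ⬝ᵥ grad G (D p) w from fun ξ => rfl,
      sub_dotProduct, dotProduct_comm (dG G w v *ᵥ grad G (D x) w), ← hg]
    congr 1
    conv_rhs => rw [clm_eq_sum (fderiv ℝ (fderiv ℝ (D x)) w v) (grad G (D p) w)]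
    simp [dotProduct, mul_comm]
  have heik : (fun z => fderiv ℝ (D x) z (grad G (D x) z)) = fun z => 2 * D x z := by
    funext z; rw [← cd_dotProduct, ← h.eikonal]; rfl
  have hE : fderiv ℝ (fderiv ℝ (D x)) w η g =
      fderiv ℝ (D x) w η + 1 / 2 * (g ⬝ᵥ (dG G w η *ᵥ g)) := by
    have h1 := hd x η
    rw [heik, hval x η, ← hg] at h1
    have h2 : fderiv ℝ (fun z => 2 * D x z) w η = 2 * fderiv ℝ (D x) w η := by
      rw [((((h.contDiff_D x).differentiable two_ne_zero) w).hasFDerivAt.const_mul 2).fderiv]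
      simp
    linarith
  have hsymm : fderiv ℝ (fderiv ℝ (D x)) w g η = fderiv ℝ (fderiv ℝ (D x)) w η g :=
    ((h.contDiff_D x).contDiffAt.isSymmSndFDerivAt (by simp [minSmoothness_of_isRCLikeNormedField])) g η
  rw [hd o g, hval o g, ← hη, hsymm, hE, hess, ← hη, ← cd_dotProduct (f := D x),
    show cd (D x) w ⬝ᵥ η = pairing G w (cd (D x) w) (cd (D o) w) from rfl,
    h.pairing_comm w (cd (D x) w)]
  ring

/-- The hyperbolic law of cosines. -/
theorem BendCH.cosine (hb : BendCH G D b) (h : IsCH G D) (o x y : Fin n → ℝ) :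
    csh (2 * b ^ 2 * D o y) * csh (2 * b ^ 2 * D x y) -
      4 * b ^ 2 * cshd (2 * b ^ 2 * D o y) * cshd (2 * b ^ 2 * D x y) *
        pairing G y (cd (D o) y) (cd (D x) y) ≤ csh (2 * b ^ 2 * D o x) := by
  set P : (Fin n → ℝ) → ℝ := fun w => fderiv ℝ (D o) w (grad G (D x) w) with hP
  have hPeq : ∀ w, P w = pairing G w (cd (D o) w) (cd (D x) w) := fun w => by
    rw [hP]; simp only; rw [← cd_dotProduct]; rfl
  set F : (Fin n → ℝ) → ℝ := fun w => csh (2 * b ^ 2 * D o x) -
    csh (2 * b ^ 2 * D o w) * csh (2 * b ^ 2 * D x w) +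
      4 * b ^ 2 * (cshd (2 * b ^ 2 * D o w) * cshd (2 * b ^ 2 * D x w) * P w) with hF
  suffices 0 ≤ F y by
    simp only [hF, hPeq] at this
    linarith
  have hPd : ContDiff ℝ 1 P :=
    ((h.contDiff_D o).fderiv_right (m := 1) le_rfl).clm_apply (h.contDiff_grad_dist x)
  have hder : ∀ w, DifferentiableAt ℝ F w ∧ 0 ≤ fderiv ℝ F w (grad G (D x) w) := by
    intro w
    set g := grad G (D x) w
    have ho := ((h.contDiff_D o).differentiable two_ne_zero w).hasFDerivAt.const_mul (2 * b ^ 2)
    have hx := ((h.contDiff_D x).differentiable two_ne_zero w).hasFDerivAt.const_mul (2 * b ^ 2)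
    have hP' := (hPd.differentiable one_ne_zero w).hasFDerivAt
    have hA := (hasDerivAt_csh (2 * b ^ 2 * D o w)).comp_hasFDerivAt w ho
    have hB := (hasDerivAt_csh (2 * b ^ 2 * D x w)).comp_hasFDerivAt w hx
    have hA' := (hasDerivAt_cshd (2 * b ^ 2 * D o w)).comp_hasFDerivAt w ho
    have hB' := (hasDerivAt_cshd (2 * b ^ 2 * D x w)).comp_hasFDerivAt w hx
    have hFd := ((hA.mul hB).const_sub (csh (2 * b ^ 2 * D o x))).add
      (((hA'.mul hB').mul hP').const_mul (4 * b ^ 2))
    refine ⟨hFd.differentiableAt, ?_⟩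
    rw [show fderiv ℝ F w = _ from hFd.fderiv]
    have eo : fderiv ℝ (D o) w g = P w := rfl
    have ex : fderiv ℝ (D x) w g = 2 * D x w := by rw [← cd_dotProduct, ← h.eikonal]; rfl
    simp only [_root_.add_apply, _root_.smul_apply, _root_.neg_apply, smul_eq_mul, eo, ex,
      Function.comp_apply]
    rw [show fderiv ℝ P w g = hess G (D o) w g + pairing G w (cd (D o) w) (cd (D x) w) from
      fderiv_pair_grad h o x w, ← hPeq]
    simp only [Pi.mul_apply, Function.comp_apply]
    have hX := h.dist_nonneg x w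
    have hh := hb.hessian o w g
    have eg : g ⬝ᵥ (G w *ᵥ g) = 2 * D x w := by
      rw [show G w *ᵥ g = cd (D x) w from h.mulVec_inv _ _, dotProduct_comm, ← h.eikonal]; rfl
    rw [eg, show cd (D o) w ⬝ᵥ g = P w by rw [cd_dotProduct]] at hh
    have hode : 2 * cshd (2 * b ^ 2 * D x w) + 4 * (2 * b ^ 2 * D x w) * cshdd (2 * b ^ 2 * D x w)
        = csh (2 * b ^ 2 * D x w) := by
      have := csh_ode (√(2 * b ^ 2 * D x w))
      rwa [Real.sq_sqrt (by positivity)] at this
    have hs := cshd_pos (show 0 ≤ 2 * b ^ 2 * D x w by positivity)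
    have hk := mul_le_mul_of_nonneg_left hh (mul_nonneg (sq_nonneg b) hs.le)
    rw [← hode]
    linarith
  have hx0 : cd (D x) x = 0 := by
    by_contra hne
    have := h.pairing_self_pos x hne
    rw [h.eikonal, h.dist_self] at this
    linarith
  have hFx : F x = 0 := by
    simp only [hF, hPeq, h.dist_self, hx0, mul_zero, csh_zero, pairing, mulVec_zero, dotProduct_zero,
      mul_one, sub_self, add_zero]
  by_contra hcon
  rw [not_le] at hcon
  obtain ⟨ε, hε, hεy⟩ : ∃ ε : ℝ, 0 < ε ∧ F y + ε * D x y < 0 :=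
    ⟨-F y / (2 * (D x y + 1)), div_pos (neg_pos.2 hcon) (by linarith [h.dist_nonneg x y]), by
      have h0 := h.dist_nonneg x y
      have : -F y / (2 * (D x y + 1)) * D x y ≤ -F y / 2 := by
        rw [div_mul_eq_mul_div, div_le_div_iff₀ (by linarith) two_pos]
        nlinarith
      linarith⟩
  have hcontF : Continuous fun w => F w + ε * D x w :=
    (continuous_iff_continuousAt.2 fun w => (hder w).1.continuousAt).add
      (continuous_const.mul (h.contDiff_D x).continuous)
  obtain ⟨w, hwK, hmin⟩ := (h.proper x (D x y)).exists_isMinOn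
    ⟨y, show D x y ≤ D x y from le_rfl⟩ hcontF.continuousOn
  have hw0 : F w + ε * D x w < 0 := lt_of_le_of_lt (hmin (show D x y ≤ D x y from le_rfl)) hεy
  have hDw : 0 < D x w := by
    refine (h.dist_nonneg x w).lt_of_ne' fun h0 => ?_
    have hz : cd (D x) w = 0 := by
      by_contra hne
      have := h.pairing_self_pos w hne
      rw [h.eikonal, h0] at this
      linarith
    have hox : D o w = D o x := by
      have t1 := Sharp.dist_triangle h o x w
      have t2 := Sharp.dist_triangle h o w x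
      rw [h0] at t1
      rw [Sharp.dist_symm h w x, h0] at t2
      simp only [mul_zero, Real.sqrt_zero, add_zero] at t1 t2
      have := le_antisymm t1 t2
      rw [Real.sqrt_inj (by linarith [h.dist_nonneg o w]) (by linarith [h.dist_nonneg o x])] at this
      linarith
    have : F w = 0 := by
      simp only [hF, hPeq, h0, hz, hox, mul_zero, csh_zero, pairing, mulVec_zero, dotProduct_zero,
        mul_one, sub_self, add_zero]
    rw [this, h0] at hw0
    linarith
  set g := grad G (D x) w with hg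
  have ex : fderiv ℝ (D x) w g = 2 * D x w := by rw [← cd_dotProduct, ← h.eikonal]; rfl
  have d1 : HasDerivAt (fun t : ℝ => D x (w + t • (-g))) (fderiv ℝ (D x) w (-g)) 0 :=
    ((h.contDiff_D x).differentiable two_ne_zero w).hasFDerivAt.comp_hasDerivAt_of_eq 0
      (hasDerivAt_line w (-g)) (by simp)
  have d2 : HasDerivAt (fun t : ℝ => F (w + t • (-g)) + ε * D x (w + t • (-g)))
      (fderiv ℝ F w (-g) + ε * fderiv ℝ (D x) w (-g)) 0 :=
    ((hder w).1.hasFDerivAt.comp_hasDerivAt_of_eq 0 (hasDerivAt_line w (-g)) (by simp)).add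
      (d1.const_mul ε)
  have n1 : fderiv ℝ (D x) w (-g) < 0 := by rw [map_neg, ex]; linarith
  have n2 : fderiv ℝ F w (-g) + ε * fderiv ℝ (D x) w (-g) < 0 := by
    rw [map_neg, map_neg, ex]
    linarith [(hder w).2, mul_pos hε hDw]
  have ev : ∀ {φ : ℝ → ℝ} {c : ℝ}, HasDerivAt φ c 0 → c < 0 → ∀ᶠ t in 𝓝[>] (0 : ℝ), φ t < φ 0 := by
    intro φ c hφ hc
    filter_upwards [((hasDerivAt_iff_tendsto_slope.1 hφ).mono_left
      (nhdsWithin_mono _ fun t (ht : 0 < t) => ne_of_gt ht)).eventually (eventually_lt_nhds hc),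
      self_mem_nhdsWithin] with t ht ht0
    rw [slope_def_field, sub_zero, div_lt_iff₀ ht0, zero_mul, sub_neg] at ht
    exact ht
  obtain ⟨t, t1, t2⟩ := ((ev d1 n1).and (ev d2 n2)).exists
  simp only [zero_smul, add_zero] at t1 t2
  exact absurd (hmin (show D x (w + t • (-g)) ≤ D x y from t1.le.trans hwK)) (not_le.2 t2)

end Vale.Agent.P219.CH.Bend
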