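import Mathlib

/-!
# P219, curvature at most `-b ^ 2`: the entire function `csh X = cosh √X`
-/

noncomputable section

open Filter Topology

namespace Vale.Agent.P219.CH.Bend

/-- `cosh √X`, continued to an entire function. -/
def csh : ℝ → ℝ := FormalMultilinearSeries.ofScalarsSum fun k => ((2 * k).factorial : ℝ)⁻¹

/-- Its derivative, `sinh √X / (2 √X)` for positive `X`. -/
def cshd : ℝ → ℝ := deriv csh

/-- Its second derivative. -/
def cshdd : ℝ → ℝ := deriv cshd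

lemma analyticOnNhd_csh : AnalyticOnNhd ℝ csh Set.univ := by
  set c : ℕ → ℝ := fun k => ((2 * k).factorial : ℝ)⁻¹
  have hr : (FormalMultilinearSeries.ofScalars ℝ c).radius = ⊤ := by
    refine FormalMultilinearSeries.ofScalars_radius_eq_top_of_tendsto ℝ c
      (Eventually.of_forall fun k => by simp [c, Nat.factorial_ne_zero]) ?_
    have e : ∀ k : ℕ, ‖c k.succ‖ / ‖c k‖ = (((2 * k + 2 : ℕ) : ℝ) * ((2 * k + 1 : ℕ) : ℝ))⁻¹ := by
      intro k
      simp only [c, norm_inv, Real.norm_natCast]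
      rw [show 2 * k.succ = (2 * k + 1) + 1 by omega, Nat.factorial_succ, Nat.factorial_succ]
      push_cast
      have : ((2 * k).factorial : ℝ) ≠ 0 := Nat.cast_ne_zero.2 (Nat.factorial_ne_zero _)
      field_simp
      ring
    simp only [e]
    refine tendsto_inv_atTop_zero.comp (tendsto_atTop_mono (f := fun k : ℕ => (k : ℝ)) (fun k => ?_)
      tendsto_natCast_atTop_atTop)
    push_cast
    nlinarith [sq_nonneg (k : ℝ), (Nat.cast_nonneg k : (0 : ℝ) ≤ k)]
  have := ((FormalMultilinearSeries.ofScalars ℝ c).hasFPowerSeriesOnBall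
    (by rw [hr]; exact ENNReal.zero_lt_top)).analyticOnNhd
  rwa [hr, Metric.eball_top] at this

lemma contDiff_csh {k : WithTop ℕ∞} : ContDiff ℝ k csh := analyticOnNhd_csh.contDiff

lemma contDiff_cshd {k : WithTop ℕ∞} : ContDiff ℝ k cshd := analyticOnNhd_csh.deriv.contDiff

lemma contDiff_cshdd {k : WithTop ℕ∞} : ContDiff ℝ k cshdd :=
  analyticOnNhd_csh.deriv.deriv.contDiff

lemma hasDerivAt_csh (x : ℝ) : HasDerivAt csh (cshd x) x :=
  ((contDiff_csh (k := 1)).differentiable one_ne_zero x).hasDerivAt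

lemma hasDerivAt_cshd (x : ℝ) : HasDerivAt cshd (cshdd x) x :=
  ((contDiff_cshd (k := 1)).differentiable one_ne_zero x).hasDerivAt

lemma csh_sq (a : ℝ) : csh (a ^ 2) = Real.cosh a := by
  rw [csh, FormalMultilinearSeries.ofScalars_sum_eq, Real.cosh_eq_tsum]
  exact tsum_congr fun k => by rw [smul_eq_mul, ← pow_mul, inv_mul_eq_div]

lemma csh_zero : csh 0 = 1 := by simpa using csh_sq 0

lemma csh_eq_cosh {x : ℝ} (hx : 0 ≤ x) : csh x = Real.cosh (√x) := by
  rw [← csh_sq, Real.sq_sqrt hx]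

lemma csh_pos {x : ℝ} (hx : 0 ≤ x) : 0 < csh x := by rw [csh_eq_cosh hx]; exact Real.cosh_pos _

lemma two_mul_cshd_sq (a : ℝ) : 2 * a * cshd (a ^ 2) = Real.sinh a := by
  have h1 : HasDerivAt (fun t => csh (t ^ 2)) (cshd (a ^ 2) * (2 * a)) a :=
    ((hasDerivAt_csh _).comp a (hasDerivAt_pow 2 a)).congr_deriv (by norm_num)
  have h2 : HasDerivAt (fun t => csh (t ^ 2)) (Real.sinh a) a :=
    (Real.hasDerivAt_cosh a).congr_of_eventuallyEq (Eventually.of_forall fun t => csh_sq t)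
  linarith [h2.unique h1]

lemma two_mul_sqrt_cshd {x : ℝ} (hx : 0 ≤ x) : 2 * √x * cshd x = Real.sinh (√x) := by
  rw [← two_mul_cshd_sq, Real.sq_sqrt hx]

lemma four_mul_cshd_sq {x : ℝ} (hx : 0 ≤ x) : 4 * x * cshd x ^ 2 = csh x ^ 2 - 1 := by
  have h1 := two_mul_sqrt_cshd hx
  calc 4 * x * cshd x ^ 2 = (2 * √x * cshd x) ^ 2 := by
        rw [mul_pow, mul_pow, Real.sq_sqrt hx]; ring
    _ = csh x ^ 2 - 1 := by rw [h1, csh_eq_cosh hx, Real.cosh_sq]; ring

lemma cshd_zero : cshd 0 = 1 / 2 := by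
  have hc : Continuous fun a => cshd (a ^ 2) :=
    (contDiff_cshd (k := 1)).continuous.comp (continuous_pow 2)
  have h1 : Tendsto (fun a => cshd (a ^ 2)) (𝓝[≠] 0) (𝓝 (cshd 0)) :=
    (hc.tendsto' 0 _ (by simp)).mono_left nhdsWithin_le_nhds
  have h2 : Tendsto (fun a => Real.sinh a / a / 2) (𝓝[≠] 0) (𝓝 (1 / 2)) := by
    have h := (hasDerivAt_iff_tendsto_slope.1 (Real.hasDerivAt_sinh 0)).div_const 2
    simpa [slope_def_field] using h
  refine tendsto_nhds_unique h1 (h2.congr' ?_)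
  filter_upwards [self_mem_nhdsWithin] with a ha
  rw [← two_mul_cshd_sq a]
  have ha' : a ≠ 0 := ha
  field_simp

lemma cshd_pos {x : ℝ} (hx : 0 ≤ x) : 0 < cshd x := by
  rcases hx.eq_or_lt with rfl | h
  · rw [cshd_zero]; norm_num
  · have h1 := two_mul_sqrt_cshd hx
    have h2 : 0 < Real.sinh (√x) := Real.sinh_pos_iff.2 (Real.sqrt_pos.2 h)
    exact pos_of_mul_pos_right (h1 ▸ h2) (by positivity)

/-- `csh` satisfies the equation of `cosh √X`. -/
lemma csh_ode (a : ℝ) : 2 * cshd (a ^ 2) + 4 * a ^ 2 * cshdd (a ^ 2) = csh (a ^ 2) := by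
  have h1 : HasDerivAt (fun s => 2 * s * cshd (s ^ 2))
      (2 * 1 * cshd (a ^ 2) + 2 * a * (cshdd (a ^ 2) * (2 * a))) a := by
    have h2 : HasDerivAt (fun s => cshd (s ^ 2)) (cshdd (a ^ 2) * (2 * a)) a :=
      ((hasDerivAt_cshd _).comp a (hasDerivAt_pow 2 a)).congr_deriv (by norm_num)
    exact ((hasDerivAt_id a).const_mul 2).mul h2
  have h3 : HasDerivAt (fun s => 2 * s * cshd (s ^ 2)) (Real.cosh a) a :=
    (Real.hasDerivAt_sinh a).congr_of_eventuallyEq (Eventually.of_forall two_mul_cshd_sq)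
  rw [csh_sq]
  linarith [h3.unique h1]

end Vale.Agent.P219.CH.Bend
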