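import Vale.Agent.P219.Sharp.Basic
import Vale.Agent.P219.CH.Profile
import Vale.Agent.P219.Bend.Csh

/-!
# P219: curvature at most `-b ^ 2`, objects

With `C = cosh (b d) = csh (2 b ^ 2 D)` the comparison is `Hess C ≥ b ^ 2 C g`; the hyperbolic law
of cosines follows from it (`BendCH.cosine`). The Klein coordinates `tanh (b d) / b` times the direction are
`kfac b D` times the logarithm coordinates. For `b = 0` everything reduces to the flat objects.
-/

noncomputable section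

open MeasureTheory ProbabilityTheory Set Filter Topology Matrix

namespace Vale.Agent.P219.CH.Bend

open Sharp

variable {n : ℕ}

/-- The Hessian comparison of curvature at most `-b ^ 2`: `Hess cosh (b d) ≥ b ^ 2 cosh (b d) g`
for the distance `d` to any point, written for `D = d ^ 2 / 2`. -/
structure BendCH (G : (Fin n → ℝ) → Matrix (Fin n) (Fin n) ℝ)
    (D : (Fin n → ℝ) → (Fin n → ℝ) → ℝ) (b : ℝ) : Prop where
  hessian : ∀ x y v, csh (2 * b ^ 2 * D x y) * (v ⬝ᵥ (G y *ᵥ v)) ≤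
    2 * cshd (2 * b ^ 2 * D x y) * hess G (D x) y v +
      4 * b ^ 2 * cshdd (2 * b ^ 2 * D x y) * (cd (D x) y ⬝ᵥ v) ^ 2

/-- `tanh (b r) / (b r)` as a function of `D = r ^ 2 / 2`. -/
def kfac (b t : ℝ) : ℝ := 2 * cshd (2 * b ^ 2 * t) / csh (2 * b ^ 2 * t)

/-- The Klein coordinates of `y` seen from `c`, up to a sign. -/
def bucoord (G : (Fin n → ℝ) → Matrix (Fin n) (Fin n) ℝ) (D : (Fin n → ℝ) → (Fin n → ℝ) → ℝ)
    (b : ℝ) (c y : Fin n → ℝ) : Fin n → ℝ :=
  kfac b (D y c) • ucoord G D c y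

/-- Half the squared length of the Klein coordinates. -/
def bD (D : (Fin n → ℝ) → (Fin n → ℝ) → ℝ) (b : ℝ) (c y : Fin n → ℝ) : ℝ :=
  kfac b (D c y) ^ 2 * D c y

/-- The steps of a block with precision `δ`. -/
def bstep (G : (Fin n → ℝ) → Matrix (Fin n) (Fin n) ℝ) (D : (Fin n → ℝ) → (Fin n → ℝ) → ℝ)
    (b δ : ℝ) (c : Fin n → ℝ) (k : Fin n) (y : Fin n → ℝ) : ℝ :=
  Real.sqrt δ * bucoord G D b c y k

/-- The differential of the potential `log cosh (b d) / b ^ 2` of the centre `c`. -/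
def bcov (D : (Fin n → ℝ) → (Fin n → ℝ) → ℝ) (b : ℝ) (c y : Fin n → ℝ) : Fin n → ℝ :=
  kfac b (D c y) • cd (D c) y

/-- The first variation density of the field `W` times the gradient of the potential. -/
def varB (G : (Fin n → ℝ) → Matrix (Fin n) (Fin n) ℝ) (D : (Fin n → ℝ) → (Fin n → ℝ) → ℝ)
    (b : ℝ) (c : Fin n → ℝ) (W : (Fin n → ℝ) → ℝ) (y ξ : Fin n → ℝ) : ℝ :=
  (((n : ℝ) - 1) * W y + pairing G y (cd W y) (bcov D b c y)
      - b ^ 2 * W y * pairing G y (bcov D b c y) (bcov D b c y)) * conorm G y ξ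
    - pairing G y ξ (bcov D b c y) *
        (pairing G y ξ (cd W y) - b ^ 2 * W y * pairing G y ξ (bcov D b c y)) / conorm G y ξ

/-- The terminal entropy at `y` of `J` blocks of precision `1 / (s ^ 2 J)`. -/
def termAtB (G : (Fin n → ℝ) → Matrix (Fin n) (Fin n) ℝ) (D : (Fin n → ℝ) → (Fin n → ℝ) → ℝ)
    (b : ℝ) (u : (Fin n → ℝ) → ℝ) (ctr : ((Fin n → ℝ) → ℝ) → (Fin n → ℝ)) (s : ℝ) (J : ℕ)
    (y : Fin n → ℝ) : ℝ :=
  chanAvg ctr (bstep G D b (1 / (s ^ 2 * J))) J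
    (fun W => W y * (Real.log (∫ z, W z ∂pm G u) - Real.log (W y))) fun _ => 1

/-- The expected squared Klein distance from `y` to the centres, times the precision. -/
def centreCostB (G : (Fin n → ℝ) → Matrix (Fin n) (Fin n) ℝ) (D : (Fin n → ℝ) → (Fin n → ℝ) → ℝ)
    (b : ℝ) (ctr : ((Fin n → ℝ) → ℝ) → (Fin n → ℝ)) (s : ℝ) (J : ℕ) (y : Fin n → ℝ) : ℝ :=
  (J : ℝ)⁻¹ * ∑ j ∈ Finset.range J,
    chanAvg ctr (bstep G D b (1 / (s ^ 2 * J))) j (fun W => W y * bD D b (ctr W) y) fun _ => 1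

/-! ## Profiles -/

/-- A concave profile vanishing at zero, with its slope. -/
structure IsProfile (Φ h : ℝ → ℝ) : Prop where
  zero : Φ 0 = 0
  mono : MonotoneOn Φ (Ici 0)
  cont : ContinuousOn Φ (Ici 0)
  scale : ∀ V W, 0 ≤ W → W ≤ V → W * Φ V ≤ V * Φ W
  cont_slope : ContinuousOn h (Ioi 0)
  slope_pos : ∀ V, 0 < V → 0 < h V
  step : ∀ V W, 0 < W → W ≤ V → Φ V - Φ W ≤ h W * (V - W)

/-- An almost minimiser of the functional penalised by the profile among competitors in the ball. -/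
def NearMinP (G : (Fin n → ℝ) → Matrix (Fin n) (Fin n) ℝ)
    (D : (Fin n → ℝ) → (Fin n → ℝ) → ℝ) (o : Fin n → ℝ) (R P₀ v₀ : ℝ) (Φ : ℝ → ℝ) (M δ : ℝ)
    (u : (Fin n → ℝ) → ℝ) : Prop :=
  Comp {y | D o y ≤ R} u ∧ per G u ≤ P₀ ∧ v₀ ≤ vol G u ∧ gap G u ≤ δ ∧
    ∀ u', Comp {y | D o y ≤ R} u' →
      per G u - Φ (vol G u) + M * gap G u ≤ per G u' - Φ (vol G u') + M * gap G u' + δ

/-- The radius of the model ball of volume `ω_n q`. -/
def modelRad (n : ℕ) (b q : ℝ) : ℝ := Function.invFunOn (modelVol n b) (Ici 0) q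

/-- The volume of the Euclidean unit ball. -/
def unitBall (n : ℕ) : ℝ :=
  (volume (Metric.ball (0 : EuclideanSpace ℝ (Fin n)) 1)).toReal

/-- A multiple of the isoperimetric profile of the space form of curvature `-b ^ 2`. -/
def modelProfile (n : ℕ) (b l V : ℝ) : ℝ :=
  l * (unitBall n * modelArea n b (modelRad n b (V / unitBall n)))

/-- The slope of the profile: the mean curvature sum of the model sphere, times the multiple. -/
def modelSlope (n : ℕ) (b l V : ℝ) : ℝ :=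
  l * (((n : ℝ) - 1) * Real.cosh (b * modelRad n b (V / unitBall n)) /
    sn b (modelRad n b (V / unitBall n)))

/-- The sharp inequality against every space form holds in all large dimensions up to any factor
below one. -/
def AsymptoticGeneralisedCH : Prop :=
  ∀ ε : ℝ, 0 < ε → ∃ n₀ : ℕ, ∀ n : ℕ, n₀ ≤ n →
    ∀ (G : (Fin n → ℝ) → Matrix (Fin n) (Fin n) ℝ) (D : (Fin n → ℝ) → (Fin n → ℝ) → ℝ),
    IsCH G D → ∀ b : ℝ, 0 ≤ b → BendCH G D b →
    ∀ (Ω : Set (Fin n → ℝ)) (A : ℝ), MeasurableSet Ω → Bornology.IsBounded Ω →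
      PerimeterLE G Ω A →
      ∃ r, 0 ≤ r ∧ unitBall n * modelVol n b r = volG G Ω ∧
        (1 - ε) * (unitBall n * modelArea n b r) ≤ A

end Vale.Agent.P219.CH.Bend
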