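import Vale.Agent.P219.Bend.AssemblyS

/-!
# P219: every Cartan-Hadamard metric, every dimension, the factor `exp (-1 / n)`
-/

noncomputable section

open MeasureTheory Set Filter Topology Matrix
open scoped Real

namespace Vale.Agent.P219.CH.Bend

open Sharp

variable {n : ℕ} {G : (Fin n → ℝ) → Matrix (Fin n) (Fin n) ℝ}
  {D : (Fin n → ℝ) → (Fin n → ℝ) → ℝ}

lemma modelVol_flat (hn : 1 ≤ n) (r : ℝ) : modelVol n 0 r = r ^ n := by
  simp only [modelVol, sn, if_true, integral_pow]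
  obtain ⟨k, rfl⟩ : ∃ k, n = k + 1 := ⟨n - 1, by omega⟩
  simp only [Nat.add_sub_cancel, zero_pow (Nat.succ_ne_zero k), sub_zero]
  push_cast
  field_simp

lemma modelArea_flat (n : ℕ) (r : ℝ) : modelArea n 0 r = (n : ℝ) * r ^ (n - 1) := by
  simp [modelArea, sn]

/-- Every Cartan-Hadamard metric is bent by `0`. -/
theorem bendCH_zero (h : IsCH G D) : BendCH G D 0 :=
  ⟨fun x y v => by simpa [csh_zero, cshd_zero] using h.hessian x y v⟩

/-- The Euclidean inequality up to the factor `exp (-1 / n)`, from the last two parts. -/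
theorem euclidean_factor_of_pins (hS : ∀ n, GoodShiftPinS n) (hL : ∀ n, LowerPinS n) (hn : 2 ≤ n)
    (h : IsCH G D) {Ω : Set (Fin n → ℝ)} {A : ℝ} (hΩ : MeasurableSet Ω)
    (hΩb : Bornology.IsBounded Ω) (hper : PerimeterLE G Ω A) :
    Real.exp (-1 / (n : ℝ)) * ((n : ℝ) * unitBall n ^ (1 / n : ℝ))
      * volG G Ω ^ (((n : ℝ) - 1) / n) ≤ A := by
  have hn0 : (0 : ℝ) < n := by exact_mod_cast (by omega : 0 < n)
  obtain ⟨r, hr, hV, hA⟩ := isoperimetric_factor hS hL hn h le_rfl (bendCH_zero h)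
    (Real.exp_pos (-1 / (n : ℝ))) (by rw [Real.log_exp]; field_simp; rfl) (Or.inl rfl) hΩ hΩb hper
  have hω := unitBall_pos (n := n) (by omega)
  rw [modelVol_flat (by omega)] at hV
  rw [modelArea_flat] at hA
  refine le_trans (le_of_eq ?_) hA
  rw [← hV, Real.mul_rpow hω.le (pow_nonneg hr n), mul_assoc, ← Real.rpow_natCast r n,
    ← Real.rpow_mul hr, mul_div_cancel₀ _ hn0.ne', ← Real.rpow_natCast r (n - 1),
    Nat.cast_sub (by omega : 1 ≤ n), Nat.cast_one,
    show (n : ℝ) * unitBall n ^ (1 / n : ℝ) * (unitBall n ^ (((n : ℝ) - 1) / n) * r ^ ((n : ℝ) - 1)) =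
      (n : ℝ) * (unitBall n ^ (1 / n : ℝ) * unitBall n ^ (((n : ℝ) - 1) / n)) * r ^ ((n : ℝ) - 1) by ring,
    ← Real.rpow_add hω, show 1 / (n : ℝ) + ((n : ℝ) - 1) / n = 1 by field_simp; ring, Real.rpow_one]
  ring

end Vale.Agent.P219.CH.Bend
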