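import Vale.Agent.P219.Bend.Var
import Vale.Agent.P219.Sharp.Gain

/-!
# P219, curvature at most `-b ^ 2`: near minimality at one node
-/

noncomputable section

open MeasureTheory Set Filter Topology Matrix

namespace Vale.Agent.P219.CH.Bend

open Sharp

variable {n : ℕ} {G : (Fin n → ℝ) → Matrix (Fin n) (Fin n) ℝ}
  {D : (Fin n → ℝ) → (Fin n → ℝ) → ℝ} {K : Set (Fin n → ℝ)} {u : (Fin n → ℝ) → ℝ}

lemma continuous_bD (h : IsCH G D) (b : ℝ) (c : Fin n → ℝ) : Continuous fun y => bD D b c y :=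
  ((contDiff_kfac_left h b c).continuous.pow 2).mul (h.continuous_D_left c)

lemma pairing_bcov_self (h : IsCH G D) (b : ℝ) (c y : Fin n → ℝ) :
    pairing G y (bcov D b c y) (bcov D b c y) = 2 * bD D b c y := by
  rw [bcov, pairing_smul_left, h.pairing_comm, pairing_smul_left, h.eikonal, bD]
  ring

/-- The part of the potential normal to the level sets. -/
def nratio (G : (Fin n → ℝ) → Matrix (Fin n) (Fin n) ℝ) (D : (Fin n → ℝ) → (Fin n → ℝ) → ℝ)
    (b : ℝ) (c : Fin n → ℝ) (u : (Fin n → ℝ) → ℝ) (y : Fin n → ℝ) : ℝ :=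
  |pairing G y (cd u y) (bcov D b c y)| / conorm G y (cd u y)

lemma nratio_nonneg (b : ℝ) (c y : Fin n → ℝ) : 0 ≤ nratio G D b c u y :=
  div_nonneg (abs_nonneg _) (conorm_nonneg y _)

lemma sq_nratio (h : IsCH G D) (b : ℝ) (c y : Fin n → ℝ) :
    nratio G D b c u y ^ 2 + tanSq G y (cd u y) (bcov D b c y) = 2 * bD D b c y := by
  rw [nratio, div_pow, sq_abs, h.conorm_sq, tanSq, pairing_bcov_self h]
  ring

lemma nratio_le (h : IsCH G D) (b : ℝ) (c y : Fin n → ℝ) :
    nratio G D b c u y ≤ √(2 * bD D b c y) := by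
  refine (le_abs_self _).trans (Real.abs_le_sqrt ?_)
  linarith [sq_nratio (u := u) h b c y, tanSq_nonneg' h y (cd u y) (bcov D b c y)]

lemma abs_normalPart_bend (h : IsCH G D) (b : ℝ) (c : Fin n → ℝ) (W : (Fin n → ℝ) → ℝ)
    (y : Fin n → ℝ) :
    |kfac b (D c y) * normalPart G D c u y| * W y * dens G y =
      W y * nratio G D b c u y * (conorm G y (cd u y) * dens G y) := by
  have e : pairing G y (cd u y) (bcov D b c y) = kfac b (D c y) * normalPart G D c u y := by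
    rw [normalPart, bcov, h.pairing_comm, pairing_smul_left, h.pairing_comm]
  rw [nratio, e]
  rcases eq_or_ne (conorm G y (cd u y)) 0 with h0 | h0
  · have : |normalPart G D c u y| = 0 := le_antisymm
      ((h.abs_normalPart_le c u y).trans_eq (by rw [h0, zero_mul])) (abs_nonneg _)
    simp [h0, this, abs_mul]
  · field_simp

lemma integrable_mul_nratio (h : IsCH G D) (hK : IsCompact K) (hu : Comp K u) (b : ℝ) (c : Fin n → ℝ)
    {W : (Fin n → ℝ) → ℝ} (hW : Continuous W) :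
    Integrable (fun y => W y * nratio G D b c u y) (pm G u) := by
  refine integrable_pm_of_le h hK hu (g := fun y => |W y| * √(2 * bD D b c y))
    (hW.measurable.mul ((continuous_pairing_field h (continuous_cd hu.1)
      (continuous_bcov h b c)).abs.measurable.div (h.continuous_conorm_cd hu.1).measurable))
    (hW.abs.mul (continuous_const.mul (continuous_bD h b c)).sqrt).continuousOn fun y _ => ?_
  rw [abs_mul, abs_of_nonneg (a := nratio G D b c u y) (nratio_nonneg b c y)]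
  exact mul_le_mul_of_nonneg_left (nratio_le h b c y) (abs_nonneg _)

lemma varB_mul_dens (h : IsCH G D) (b : ℝ) (c : Fin n → ℝ) (W : (Fin n → ℝ) → ℝ)
    (y ξ : Fin n → ℝ) :
    varB G D b c W y ξ * dens G y =
      (((n : ℝ) - 1) * W y + tanB G y ξ (bvec D b c W y) (bcov D b c y)) *
        (conorm G y ξ * dens G y) := by
  rw [varB_eq h, varG, tanB, ← h.conorm_sq y ξ]
  rcases eq_or_ne (conorm G y ξ) 0 with h0 | h0
  · simp [h0]
  · field_simp
    ring

lemma tanB_bvec (h : IsCH G D) (b : ℝ) (c : Fin n → ℝ) (W : (Fin n → ℝ) → ℝ) (y ξ : Fin n → ℝ) :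
    tanB G y ξ (bvec D b c W y) (bcov D b c y) = tanB G y ξ (cd W y) (bcov D b c y)
      - b ^ 2 * W y * tanSq G y ξ (bcov D b c y) := by
  simp only [bvec, tanB, tanSq, pairing_add_left, pairing_smul_left]
  rw [h.pairing_comm y ξ (cd W y + _), pairing_add_left, pairing_smul_left,
    h.pairing_comm y (cd W y) ξ, h.pairing_comm y (bcov D b c y) ξ]
  ring

/-- The weighted arithmetic geometric mean inequality at one point. -/
lemma node_pointwise_bend (h : IsCH G D) (b : ℝ) (c y : Fin n → ℝ) {W : (Fin n → ℝ) → ℝ}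
    (hw : 0 < W y) {lam : ℝ} (hlam : 0 < lam) (hh : ℝ) :
    hh * (W y * nratio G D b c u y) - tanB G y (cd u y) (bvec D b c W y) (bcov D b c y) ≤
      lam / 2 * hh ^ 2 * W y + lam / 2 * (tanSq G y (cd u y) (cd W y) / W y)
        + (lam⁻¹ + 2 * b ^ 2) * (W y * bD D b c y) := by
  set a := nratio G D b c u y
  set T := tanSq G y (cd u y) (bcov D b c y)
  have hs : a ^ 2 + T = 2 * bD D b c y := sq_nratio h b c y
  have h1 := neg_tanB_le h y (cd u y) (cd W y) (bcov D b c y) hlam hw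
  have h2 : hh * (W y * a) ≤ lam / 2 * hh ^ 2 * W y + W y * a ^ 2 / (2 * lam) := by
    have e : lam / 2 * hh ^ 2 * W y + W y * a ^ 2 / (2 * lam) - hh * (W y * a) =
        W y * (lam * hh - a) ^ 2 / (2 * lam) := by
      field_simp; ring
    have : 0 ≤ W y * (lam * hh - a) ^ 2 / (2 * lam) := by positivity
    linarith
  have h3 : lam⁻¹ * (W y * bD D b c y) = W y * a ^ 2 / (2 * lam) + W y * T / (2 * lam) := by
    rw [← add_div, ← mul_add, hs]
    field_simp
  have h4 : b ^ 2 * W y * T ≤ 2 * b ^ 2 * (W y * bD D b c y) := by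
    have := mul_le_mul_of_nonneg_left (show T ≤ 2 * bD D b c y by linarith [sq_nonneg a])
      (show 0 ≤ b ^ 2 * W y by positivity)
    linarith
  rw [tanB_bvec h, add_mul]
  linarith

/-- Near minimality against one competitor for a profile, with the numbers only. -/
lemma stationary_profile {Φ h : ℝ → ℝ} (hΦ : IsProfile Φ h)
    {P P' P₀ V V' g g' F Ψ M C δ t e d hh hmax : ℝ} (hd0 : 0 ≤ d) (hdV : d < V)
    (hd : d = t * F + t * e * P) (hvol : V - t * F - t * e * P ≤ V') (hM : 0 ≤ M) (hC : 0 ≤ C)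
    (ht : 0 < t) (he : 0 ≤ e) (hP : 0 ≤ P) (hP₀ : P ≤ P₀) (hb : h (V - d) ≤ hh) (hh0 : 0 ≤ hh)
    (hhmax : hh ≤ hmax) (hg : g ≤ δ) (hper : P' ≤ P - t * Ψ + t * e * P)
    (hgap : g' ≤ (1 + C * t) * g) (hopt : P - Φ V + M * g ≤ P' - Φ V' + M * g' + δ) :
    Ψ - hh * F ≤ e * P₀ * (1 + hmax) + M * C * δ + δ / t := by
  have h1 : Φ (V - d) ≤ Φ V' := hΦ.mono (show (0 : ℝ) ≤ V - d by linarith)
    (show (0 : ℝ) ≤ V' by linarith) (by linarith)
  have h3 : Φ V - Φ V' ≤ hh * d := by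
    have h2 := hΦ.step V (V - d) (by linarith) (by linarith)
    rw [sub_sub_cancel] at h2
    linarith [mul_le_mul_of_nonneg_right hb hd0]
  have h4 : M * g' ≤ M * g + M * C * t * δ :=
    calc M * g' ≤ M * ((1 + C * t) * g) := mul_le_mul_of_nonneg_left hgap hM
      _ = M * g + M * C * t * g := by ring
      _ ≤ M * g + M * C * t * δ :=
        add_le_add le_rfl (mul_le_mul_of_nonneg_left hg (by positivity))
  have h6 : hh * (t * e * P) ≤ hmax * (t * e * P₀) :=
    mul_le_mul hhmax (mul_le_mul_of_nonneg_left hP₀ (by positivity)) (by positivity)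
      (hh0.trans hhmax)
  have h6' : t * e * P ≤ t * e * P₀ := mul_le_mul_of_nonneg_left hP₀ (by positivity)
  refine le_of_mul_le_mul_left ?_ ht
  have e1 : t * (e * P₀ * (1 + hmax) + M * C * δ + δ / t) =
      t * e * P₀ + hmax * (t * e * P₀) + M * C * t * δ + δ := by
    field_simp
  rw [e1]
  rw [hd] at h3
  linarith

/-- The inequality at one node for all almost minimisers. -/
theorem node_ineq_bend (hn : 2 ≤ n) (h : IsCH G D) {b : ℝ} (hb : BendCH G D b) (o : Fin n → ℝ)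
    {R P₀ v₀ M θ κ : ℝ} {Φ hs : ℝ → ℝ} (hR : 0 < R) (hP₀ : 0 ≤ P₀) (hv₀ : 0 < v₀)
    (hΦ : IsProfile Φ hs) (hM : 0 ≤ M) (hθ : 1 < θ) (hκ : 0 < κ) {c : Fin n → ℝ} (hc : D o c ≤ R)
    {W : (Fin n → ℝ) → ℝ} (hW : ContDiff ℝ 1 W) (hWp : ∀ y, D o y ≤ R + 1 → 0 < W y) :
    ∀ᶠ δ in 𝓝[>] (0 : ℝ), ∀ u, NearMinP G D o R P₀ v₀ Φ M δ u → ∀ lam : ℝ, 0 < lam →
      ((n : ℝ) - 1) * ∫ y, W y ∂pm G u ≤
        lam / 2 * ((θ * hs (vol G u)) ^ 2 * ∫ y, W y ∂pm G u + fisher G u W)
          + (lam⁻¹ + 2 * b ^ 2) * (∫ y, W y * bD D b c y ∂pm G u) + κ := by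
  set K : Set (Fin n → ℝ) := {y | D o y ≤ R}
  have hK : IsCompact K := h.proper o R
  have hθ0 : 0 < θ := by linarith
  have hWK : ∀ y ∈ K, 0 < W y := fun y hy => hWp y (by have : D o y ≤ R := hy; linarith)
  obtain ⟨VK, hVK⟩ : ∃ z : ℝ, z = max (volG G K) v₀ := ⟨_, rfl⟩
  set I := Icc (v₀ / 2) VK
  have hIsub : I ⊆ Ioi (0 : ℝ) := fun x hx => show 0 < x by linarith [hx.1]
  have hI : ContinuousOn hs I := hΦ.cont_slope.mono hIsub
  have hIne : I.Nonempty := nonempty_Icc.2 (by linarith [hVK ▸ le_max_right (volG G K) v₀])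
  obtain ⟨xm, hxm, hlo⟩ := isCompact_Icc.exists_isMinOn hIne hI
  obtain ⟨xM, hxM, hhi⟩ := isCompact_Icc.exists_isMaxOn hIne hI
  have hm0 : 0 < hs xm := hΦ.slope_pos _ (hIsub hxm)
  obtain ⟨ρ, hρ, huc⟩ := Metric.uniformContinuousOn_iff.1
    (isCompact_Icc.uniformContinuousOn_of_continuous hI) ((θ - 1) * hs xm)
    (mul_pos (by linarith) hm0)
  obtain ⟨hmax, hhmax⟩ : ∃ z : ℝ, z = θ * hs xM := ⟨_, rfl⟩
  have hmax0 : 0 < hmax := hhmax ▸ mul_pos hθ0 (hΦ.slope_pos _ (hIsub hxM))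
  obtain ⟨e, he⟩ : ∃ z : ℝ, z = κ / (2 * (P₀ * (1 + hmax) + 1)) := ⟨_, rfl⟩
  have he0 : 0 < e := by rw [he]; positivity
  obtain ⟨τ, C, hτ, hC, hvar⟩ := weightVarPinB n hn G D h b hb o R c W e hR hc hW hWp he0
  obtain ⟨Bw, hBw0, hBw⟩ : ∃ B : ℝ, 0 ≤ B ∧ ∀ y ∈ K, W y * √(2 * bD D b c y) ≤ B := by
    obtain ⟨B, hB⟩ := hK.bddAbove_image (f := fun y => W y * √(2 * bD D b c y))
      (hW.continuous.mul (continuous_const.mul (continuous_bD h b c)).sqrt).continuousOn
    exact ⟨max B 0, le_max_right _ _, fun y hy => (hB ⟨y, hy, rfl⟩).trans (le_max_left _ _)⟩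
  obtain ⟨Fm, hFm⟩ : ∃ z : ℝ, z = Bw * P₀ + e * P₀ + 1 := ⟨_, rfl⟩
  have hFm0 : 0 < Fm := by rw [hFm]; positivity
  obtain ⟨t, ht⟩ : ∃ z : ℝ, z = min τ (min (ρ / 2) (v₀ / 2) / Fm) := ⟨_, rfl⟩
  have ht0 : 0 < t := ht ▸ lt_min hτ (div_pos (lt_min (by linarith) (by linarith)) hFm0)
  have htF : t * Fm ≤ min (ρ / 2) (v₀ / 2) := (le_div_iff₀ hFm0).1 (ht ▸ min_le_right _ _)
  filter_upwards [Ioc_mem_nhdsGT (show (0 : ℝ) < κ / (2 * (M * C + 1 / t + 1)) by positivity)]
    with δ hδ u hmin lam hlam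
  obtain ⟨hu, hPu, hVu, hgu, hopt⟩ := hmin
  obtain ⟨u', hu', hper, hvol, hgap⟩ := hvar t u ht0 (ht ▸ min_le_left _ _) hu
  have hKae := ae_mem_pm h hK hu
  have iW := integrable_pm_of_continuous h hK hu hW.continuous.continuousOn
  have iA := integrable_mul_nratio h hK hu b c hW.continuous
  have iB : Integrable (fun y => tanB G y (cd u y) (bvec D b c W y) (bcov D b c y)) (pm G u) :=
    integrable_tanB h hK hu (continuous_bvec h b c hW) (continuous_bcov h b c)
  have iT := integrable_fisher h hK hu hW ⟨hW.continuous.continuousOn, hWK⟩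
  have iD : Integrable (fun y => W y * bD D b c y) (pm G u) :=
    integrable_pm_of_continuous h hK hu (hW.continuous.mul (continuous_bD h b c)).continuousOn
  have eV : (∫ y, varB G D b c W y (cd u y) * dens G y) =
      ((n : ℝ) - 1) * (∫ y, W y ∂pm G u) +
        ∫ y, tanB G y (cd u y) (bvec D b c W y) (bcov D b c y) ∂pm G u := by
    rw [← integral_const_mul, ← integral_add (iW.const_mul _) iB, integral_pm h hu.1]
    exact integral_congr_ae (Eventually.of_forall fun y => varB_mul_dens h b c W y (cd u y))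
  obtain ⟨F, hF⟩ : ∃ z : ℝ, z = ∫ y, W y * nratio G D b c u y ∂pm G u := ⟨_, rfl⟩
  have eF : (∫ y, |kfac b (D c y) * normalPart G D c u y| * W y * dens G y) = F := by
    rw [hF, integral_pm h hu.1]
    exact integral_congr_ae (Eventually.of_forall fun y => abs_normalPart_bend h b c W y)
  have hF0 : 0 ≤ F := hF ▸ integral_nonneg_of_ae (hKae.mono fun y hy =>
    mul_nonneg (hWK y hy).le (nratio_nonneg b c y))
  have hFle : F ≤ Bw * P₀ := by
    have := isFiniteMeasure_pm h hK hu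
    have h1 : F ≤ ∫ _, Bw ∂pm G u := hF ▸ integral_mono_ae iA (integrable_const Bw)
      (hKae.mono fun y hy =>
        (mul_le_mul_of_nonneg_left (nratio_le h b c y) (hWK y hy).le).trans (hBw y hy))
    rw [integral_const, smul_eq_mul, Measure.real, pm_univ h hK hu] at h1
    exact h1.trans (by rw [mul_comm]; exact mul_le_mul_of_nonneg_left hPu hBw0)
  rw [eV] at hper
  rw [eF] at hvol
  have hP := h.per_nonneg u
  have hVle : vol G u ≤ VK := (h.vol_le hK hu).trans (hVK ▸ le_max_left _ _)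
  obtain ⟨V, hV⟩ : ∃ z : ℝ, z = vol G u := ⟨_, rfl⟩
  rw [← hV] at hVu hvol hopt hVle ⊢
  obtain ⟨d, hd⟩ : ∃ z : ℝ, z = t * F + t * e * per G u := ⟨_, rfl⟩
  have hd0 : 0 ≤ d := by rw [hd]; positivity
  have hdle : d ≤ t * Fm := by
    rw [hd, hFm]
    have h2 := mul_le_mul_of_nonneg_left hFle ht0.le
    have h3 := mul_le_mul_of_nonneg_left hPu (mul_nonneg ht0.le he0.le)
    linarith
  have hd1 : d ≤ ρ / 2 := hdle.trans (htF.trans (min_le_left _ _))
  have hd2 : d ≤ v₀ / 2 := hdle.trans (htF.trans (min_le_right _ _))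
  have hVI : V ∈ I := ⟨by linarith, hVle⟩
  have hWI : V - d ∈ I := ⟨by linarith, by linarith⟩
  have hh0 : 0 < θ * hs V := mul_pos hθ0 (hΦ.slope_pos _ (hIsub hVI))
  have hb' : hs (V - d) ≤ θ * hs V := by
    have h1 := huc (V - d) hWI V hVI (by
      rw [Real.dist_eq, sub_sub_cancel_left, abs_neg, abs_of_nonneg hd0]; linarith)
    rw [Real.dist_eq] at h1
    have h2 := mul_le_mul_of_nonneg_left (hlo hVI) (show 0 ≤ θ - 1 by linarith)
    have h3 := (abs_le.1 h1.le).2
    linarith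
  have hhle : θ * hs V ≤ hmax := hhmax.symm ▸ mul_le_mul_of_nonneg_left (hhi hVI) hθ0.le
  have h7 := stationary_profile hΦ hd0 (show d < V by linarith) hd hvol hM hC ht0 he0.le hP hPu hb'
    hh0.le hhle hgu hper hgap (hopt u' hu')
  have herr : e * P₀ * (1 + hmax) + M * C * δ + δ / t ≤ κ :=
    error_le hκ hP₀ hmax0 (mul_nonneg hM hC) ht0 hδ.1 he hδ.2
  have h8 : θ * hs V * F - (∫ y, tanB G y (cd u y) (bvec D b c W y) (bcov D b c y) ∂pm G u) ≤
      lam / 2 * (θ * hs V) ^ 2 * (∫ y, W y ∂pm G u) + lam / 2 * fisher G u W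
        + (lam⁻¹ + 2 * b ^ 2) * (∫ y, W y * bD D b c y ∂pm G u) := by
    have i12 : Integrable (fun y => lam / 2 * (θ * hs V) ^ 2 * W y +
        lam / 2 * (tanSq G y (cd u y) (cd W y) / W y)) (pm G u) :=
      (iW.const_mul _).add (iT.const_mul _)
    rw [hF, fisher, ← integral_const_mul, ← integral_const_mul, ← integral_const_mul,
      ← integral_const_mul, ← integral_sub (iA.const_mul _) iB,
      ← integral_add (iW.const_mul _) (iT.const_mul _), ← integral_add i12 (iD.const_mul _)]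
    exact integral_mono_ae ((iA.const_mul _).sub iB) (i12.add (iD.const_mul _))
      (hKae.mono fun y hy => node_pointwise_bend h b c y (hWK y hy) hlam (θ * hs V))
  linarith

end Vale.Agent.P219.CH.Bend
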