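import Vale.Agent.P219.Bend.Compare

/-!
# P219: curvature at most `-b ^ 2`, the exact Hessian comparison of the half squared distance

`csh X / (2 cshd X) = b r / tanh (b r)` at `X = (b r) ^ 2 = 2 b ^ 2 D`.
-/

noncomputable section

open MeasureTheory Set Filter Topology Matrix

namespace Vale.Agent.P219.CH.Bend

variable {n : ℕ} {G : (Fin n → ℝ) → Matrix (Fin n) (Fin n) ℝ}
  {D : (Fin n → ℝ) → (Fin n → ℝ) → ℝ} {b : ℝ}

/-- `b r coth (b r)` as a function of `t = r ^ 2 / 2`. -/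
def cfac (b t : ℝ) : ℝ := csh (2 * b ^ 2 * t) / (2 * cshd (2 * b ^ 2 * t))

/-- `Hess (r ^ 2 / 2) ≥ dr ⊗ dr + b r coth (b r) (g - dr ⊗ dr)`, multiplied by `r ^ 2`. -/
theorem BendCH.hess_ge (hb : BendCH G D b) (h : IsCH G D) (x y v : Fin n → ℝ) :
    (cd (D x) y ⬝ᵥ v) ^ 2 +
        cfac b (D x y) * (2 * D x y * (v ⬝ᵥ (G y *ᵥ v)) - (cd (D x) y ⬝ᵥ v) ^ 2) ≤
      2 * D x y * hess G (D x) y v := by
  have hD := h.dist_nonneg x y
  have hX := arg_nonneg b hD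
  obtain ⟨X, hX'⟩ : ∃ X, X = 2 * b ^ 2 * D x y := ⟨_, rfl⟩
  obtain ⟨a, ha⟩ : ∃ a, a = cd (D x) y ⬝ᵥ v := ⟨_, rfl⟩
  obtain ⟨q, hq⟩ : ∃ q, q = v ⬝ᵥ (G y *ᵥ v) := ⟨_, rfl⟩
  have hode : 2 * cshd X + 4 * X * cshdd X = csh X := by
    have := csh_ode (√X)
    rwa [Real.sq_sqrt (hX' ▸ hX)] at this
  have hs : 0 < 2 * cshd X := mul_pos two_pos (cshd_pos (hX' ▸ hX))
  have hh := hb.hessian x y v
  rw [← ha, ← hq, ← hX'] at hh
  have hh2 := mul_le_mul_of_nonneg_left hh (mul_nonneg two_pos.le hD)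
  have e : 2 * D x y * (4 * b ^ 2 * cshdd X * a ^ 2) = (csh X - 2 * cshd X) * a ^ 2 := by
    rw [show 2 * D x y * (4 * b ^ 2 * cshdd X * a ^ 2) =
      4 * (2 * b ^ 2 * D x y) * cshdd X * a ^ 2 by ring, ← hX', ← hode]
    ring
  rw [mul_add, e] at hh2
  rw [← ha, ← hq, cfac, ← hX']
  refine le_of_mul_le_mul_left ?_ hs
  rw [mul_add, ← mul_assoc, mul_div_cancel₀ _ hs.ne']
  linarith

/-- `cfac` is one without curvature. -/
lemma cfac_zero (t : ℝ) : cfac 0 t = 1 := by simp [cfac, csh_zero, cshd_zero]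

end Vale.Agent.P219.CH.Bend
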