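import Vale.Agent.P219.Bend.Geom
import Vale.Agent.P219.CH.Flat

/-!
# P219: hyperbolic space satisfies the hypotheses with equality

The hyperboloid `(√(1 / b ^ 2 + |y| ^ 2), y)` in the coordinates `y`.
-/

noncomputable section

open MeasureTheory Set Filter Topology Matrix

namespace Vale.Agent.P219.CH.Bend

open Sharp

variable {n : ℕ} {b : ℝ}

/-- The time coordinate on the hyperboloid, times `b`. -/
def hypT (b : ℝ) (y : Fin n → ℝ) : ℝ := Real.sqrt (1 + b ^ 2 * (y ⬝ᵥ y))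

/-- The hyperbolic metric in hyperboloid coordinates. -/
def hypG (n : ℕ) (b : ℝ) (y : Fin n → ℝ) : Matrix (Fin n) (Fin n) ℝ :=
  1 - (b ^ 2 / hypT b y ^ 2) • vecMulVec y y

/-- The hyperbolic cosine of `b` times the distance. -/
def hypC (b : ℝ) (x y : Fin n → ℝ) : ℝ := hypT b x * hypT b y - b ^ 2 * (x ⬝ᵥ y)

/-- A neighbourhood of `[0, ∞)` on which `csh` increases. -/
def cshDom : Set ℝ := {x | ∀ z, x ≤ z → 0 < cshd z}

/-- Half the squared hyperbolic distance. -/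
def hypD (n : ℕ) (b : ℝ) (x y : Fin n → ℝ) : ℝ :=
  Function.invFunOn csh cshDom (hypC b x y) / (2 * b ^ 2)

/-! ## The inverse of `csh` -/

lemma Ici_subset_cshDom : Ici (0 : ℝ) ⊆ cshDom := fun _ hx _ hz => cshd_pos (le_trans hx hz)

lemma csh_strictMonoOn : StrictMonoOn csh cshDom := by
  intro x hx y _ hxy
  have hm : StrictMonoOn csh (Ici x) := strictMonoOn_of_deriv_pos (convex_Ici x)
    (contDiff_csh (k := 1)).continuous.continuousOn fun z hz => by
      rw [interior_Ici] at hz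
      exact hx z (le_of_lt hz)
  exact hm self_mem_Ici hxy.le hxy

lemma eventually_mem_cshDom {a : ℝ} (ha : 0 ≤ a) : ∀ᶠ x in 𝓝 a, x ∈ cshDom := by
  obtain ⟨ε, hε, hb⟩ := Metric.eventually_nhds_iff.1
    ((contDiff_cshd (k := 1)).continuous.continuousAt.eventually
      (eventually_gt_nhds (cshd_pos (le_refl (0 : ℝ)))))
  filter_upwards [eventually_gt_nhds (show -ε < a by linarith)] with x hx z hz
  rcases le_or_gt 0 z with h0 | h0
  · exact cshd_pos h0
  · exact hb (by rw [Real.dist_eq, sub_zero, abs_of_neg h0]; linarith)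

lemma cshInv_spec {c : ℝ} (hc : 1 ≤ c) :
    0 ≤ Function.invFunOn csh cshDom c ∧ csh (Function.invFunOn csh cshDom c) = c := by
  have hz : csh (Real.arcosh c ^ 2) = c := by rw [csh_sq, Real.cosh_arcosh hc]
  have hex : ∃ a ∈ cshDom, csh a = c :=
    ⟨_, Ici_subset_cshDom (sq_nonneg (Real.arcosh c) : (0 : ℝ) ≤ _), hz⟩
  have e : Function.invFunOn csh cshDom c = Real.arcosh c ^ 2 :=
    csh_strictMonoOn.injOn (Function.invFunOn_mem hex)
      (Ici_subset_cshDom (sq_nonneg (Real.arcosh c) : (0 : ℝ) ≤ _))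
      ((Function.invFunOn_eq hex).trans hz.symm)
  exact ⟨e ▸ sq_nonneg _, Function.invFunOn_eq hex⟩

lemma contDiffAt_cshInv {c : ℝ} (hc : 1 ≤ c) :
    ContDiffAt ℝ 2 (Function.invFunOn csh cshDom) c := by
  obtain ⟨ha, he⟩ := cshInv_spec hc
  set a := Function.invFunOn csh cshDom c with haa
  have hd : HasFDerivAt csh
      ((ContinuousLinearEquiv.unitsEquivAut ℝ (Units.mk0 _ (cshd_pos ha).ne')) : ℝ →L[ℝ] ℝ) a := by
    refine (hasDerivAt_csh a).hasFDerivAt.congr_fderiv ?_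
    ext
    simp
  have hf : ContDiffAt ℝ 2 csh a := contDiff_csh.contDiffAt
  have h := hf.to_localInverse hd (by norm_num)
  have hcont := h.continuousAt
  have hli := hf.localInverse_apply_image hd (by norm_num)
  rw [he] at h hcont hli
  refine h.congr_of_eventuallyEq ?_
  have hr : ∀ᶠ z in 𝓝 c, csh (hf.localInverse hd (by norm_num) z) = z := by
    have := (hf.hasStrictFDerivAt' hd (by norm_num)).eventually_right_inverse
    rwa [he] at this
  have hm : ∀ᶠ z in 𝓝 c, hf.localInverse hd (by norm_num) z ∈ cshDom :=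
    hcont.eventually (by rw [hli]; exact eventually_mem_cshDom ha)
  filter_upwards [hr, hm] with z h1 h2
  exact csh_strictMonoOn.injOn (Function.invFunOn_mem ⟨_, h2, h1⟩) h2
    ((Function.invFunOn_eq ⟨_, h2, h1⟩).trans h1.symm)

/-! ## The hyperboloid -/

lemma hypT_arg_pos (b : ℝ) (y : Fin n → ℝ) : 0 < 1 + b ^ 2 * (y ⬝ᵥ y) := by
  have : 0 ≤ y ⬝ᵥ y := Finset.sum_nonneg fun i _ => mul_self_nonneg _
  positivity

lemma hypT_pos (b : ℝ) (y : Fin n → ℝ) : 0 < hypT b y := Real.sqrt_pos.2 (hypT_arg_pos b y)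

lemma hypT_sq (b : ℝ) (y : Fin n → ℝ) : hypT b y ^ 2 = 1 + b ^ 2 * (y ⬝ᵥ y) :=
  Real.sq_sqrt (hypT_arg_pos b y).le

lemma hypC_self (b : ℝ) (x : Fin n → ℝ) : hypC b x x = 1 := by
  rw [hypC, ← sq, hypT_sq]; ring

lemma dot_sq_le (x y : Fin n → ℝ) : (x ⬝ᵥ y) ^ 2 ≤ (x ⬝ᵥ x) * (y ⬝ᵥ y) := by
  have h := Finset.sum_mul_sq_le_sq_mul_sq Finset.univ x y
  simpa [dotProduct, sq] using h

lemma one_le_hypC (b : ℝ) (x y : Fin n → ℝ) : 1 ≤ hypC b x y := by
  have hx := hypT_pos b x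
  have hy := hypT_pos b y
  have hd : 0 ≤ (x - y) ⬝ᵥ (x - y) := Finset.sum_nonneg fun i _ => mul_self_nonneg _
  rw [sub_dotProduct, dotProduct_sub, dotProduct_sub, dotProduct_comm y x] at hd
  have h : (1 + b ^ 2 * (x ⬝ᵥ y)) ^ 2 ≤ (hypT b x * hypT b y) ^ 2 := by
    rw [mul_pow, hypT_sq, hypT_sq]
    nlinarith [mul_le_mul_of_nonneg_left (dot_sq_le x y) (sq_nonneg (b ^ 2)),
      mul_nonneg (sq_nonneg b) hd]
  have := abs_le_of_sq_le_sq h (by positivity)
  rw [hypC]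
  linarith [le_abs_self (1 + b ^ 2 * (x ⬝ᵥ y))]

lemma contDiff_dot {k : WithTop ℕ∞} :
    ContDiff ℝ k fun p : (Fin n → ℝ) × (Fin n → ℝ) => p.1 ⬝ᵥ p.2 := by
  simp only [dotProduct]
  exact ContDiff.sum fun i _ => ((contDiff_apply ℝ ℝ i).comp contDiff_fst).mul
    ((contDiff_apply ℝ ℝ i).comp contDiff_snd)

lemma contDiff_hypT (b : ℝ) {k : WithTop ℕ∞} : ContDiff ℝ k (hypT b : (Fin n → ℝ) → ℝ) :=
  (contDiff_const.add (contDiff_const.mul (contDiff_dot.comp (contDiff_id.prodMk contDiff_id)))).sqrt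
    fun y => (hypT_arg_pos b y).ne'

lemma contDiff_hypC (b : ℝ) {k : WithTop ℕ∞} :
    ContDiff ℝ k fun p : (Fin n → ℝ) × (Fin n → ℝ) => hypC b p.1 p.2 :=
  (((contDiff_hypT b).comp contDiff_fst).mul ((contDiff_hypT b).comp contDiff_snd)).sub
    (contDiff_const.mul contDiff_dot)

lemma smooth_hypD (n : ℕ) (b : ℝ) :
    ContDiff ℝ 2 fun p : (Fin n → ℝ) × (Fin n → ℝ) => hypD n b p.1 p.2 :=
  ContDiff.div_const (f := fun p : (Fin n → ℝ) × (Fin n → ℝ) =>
      Function.invFunOn csh cshDom (hypC b p.1 p.2))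
    (contDiff_iff_contDiffAt.2 fun p => ContDiffAt.comp (g := Function.invFunOn csh cshDom)
      (f := fun p : (Fin n → ℝ) × (Fin n → ℝ) => hypC b p.1 p.2) p
      (contDiffAt_cshInv (one_le_hypC b p.1 p.2)) (contDiff_hypC b).contDiffAt) (2 * b ^ 2)

lemma contDiff_hypD_left (b : ℝ) (x : Fin n → ℝ) : ContDiff ℝ 2 (hypD n b x) :=
  ContDiff.comp (g := fun p : (Fin n → ℝ) × (Fin n → ℝ) => hypD n b p.1 p.2)
    (f := fun z : Fin n → ℝ => (x, z)) (smooth_hypD n b) (contDiff_const.prodMk contDiff_id)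

lemma hypD_arg (hb : b ≠ 0) (x y : Fin n → ℝ) :
    2 * b ^ 2 * hypD n b x y = Function.invFunOn csh cshDom (hypC b x y) := by
  rw [hypD]; field_simp

lemma csh_hypD (hb : b ≠ 0) (x y : Fin n → ℝ) : csh (2 * b ^ 2 * hypD n b x y) = hypC b x y := by
  rw [hypD_arg hb]; exact (cshInv_spec (one_le_hypC b x y)).2

lemma hypD_nonneg (hb : b ≠ 0) (x y : Fin n → ℝ) : 0 ≤ hypD n b x y :=
  div_nonneg (cshInv_spec (one_le_hypC b x y)).1 (by positivity)

/-! ## The metric -/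

lemma hypG_mulVec (b : ℝ) (y v : Fin n → ℝ) :
    hypG n b y *ᵥ v = v - (b ^ 2 / hypT b y ^ 2 * (y ⬝ᵥ v)) • y := by
  rw [hypG, sub_mulVec, one_mulVec, smul_mulVec, vecMulVec_mulVec, op_smul_eq_smul, smul_smul]

lemma hypG_inv (b : ℝ) (y : Fin n → ℝ) :
    (hypG n b y)⁻¹ = 1 + b ^ 2 • vecMulVec y y := by
  refine Matrix.inv_eq_right_inv ?_
  have h1 : vecMulVec y y * vecMulVec y y = (y ⬝ᵥ y) • vecMulVec y y := by
    rw [vecMulVec_mul_vecMulVec, vecMulVec_smul]
  rw [hypG, sub_mul, one_mul, mul_add, mul_one, Matrix.smul_mul, Matrix.mul_smul, h1]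
  have e : b ^ 2 - b ^ 2 / hypT b y ^ 2 - b ^ 2 / hypT b y ^ 2 * (b ^ 2 * (y ⬝ᵥ y)) = 0 := by
    have := hypT_sq b y
    have := (hypT_pos b y).ne'
    field_simp
    nlinarith
  calc (1 : Matrix (Fin n) (Fin n) ℝ) + b ^ 2 • vecMulVec y y -
      ((b ^ 2 / hypT b y ^ 2) • vecMulVec y y +
        (b ^ 2 / hypT b y ^ 2) • b ^ 2 • (y ⬝ᵥ y) • vecMulVec y y)
      = 1 + (b ^ 2 - b ^ 2 / hypT b y ^ 2 - b ^ 2 / hypT b y ^ 2 * (b ^ 2 * (y ⬝ᵥ y))) •
          vecMulVec y y := by simp only [sub_smul, mul_smul]; abel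
    _ = 1 := by rw [e, zero_smul, add_zero]

lemma hypG_quad (b : ℝ) (y v : Fin n → ℝ) :
    v ⬝ᵥ (hypG n b y *ᵥ v) = v ⬝ᵥ v - b ^ 2 / hypT b y ^ 2 * (y ⬝ᵥ v) ^ 2 := by
  rw [hypG_mulVec, dotProduct_sub, dotProduct_smul, smul_eq_mul, dotProduct_comm v y]
  ring

lemma posDef_hypG (b : ℝ) (y : Fin n → ℝ) : (hypG n b y).PosDef := by
  refine Matrix.PosDef.of_dotProduct_mulVec_pos ?_ fun v hv => ?_
  · rw [Matrix.IsHermitian, conjTranspose_eq_transpose_of_trivial, hypG, transpose_sub,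
      transpose_one, transpose_smul, transpose_vecMulVec]
  · simp only [star_trivial]
    rw [hypG_quad]
    have hv2 : 0 < v ⬝ᵥ v := (Finset.sum_nonneg fun i _ => mul_self_nonneg (v i)).lt_of_ne'
      fun h0 => hv (dotProduct_self_eq_zero.1 h0)
    have hq := hypT_sq b y
    have hq0 : 0 < hypT b y ^ 2 := pow_pos (hypT_pos b y) 2
    rw [sub_pos, div_mul_eq_mul_div, div_lt_iff₀ hq0, hq]
    nlinarith [mul_le_mul_of_nonneg_left (dot_sq_le y v) (sq_nonneg b)]

/-! ## Differentials -/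

lemma fderiv_hypT (b : ℝ) (y v : Fin n → ℝ) :
    HasDerivAt (fun t : ℝ => hypT b (y + t • v)) (b ^ 2 * (y ⬝ᵥ v) / hypT b y) 0 := by
  have h1 : HasDerivAt (fun t : ℝ => 1 + b ^ 2 * ((y + t • v) ⬝ᵥ (y + t • v)))
      (b ^ 2 * (2 * (y ⬝ᵥ v))) 0 := by
    have e : (fun t : ℝ => 1 + b ^ 2 * ((y + t • v) ⬝ᵥ (y + t • v))) =
        fun t => 1 + b ^ 2 * (y ⬝ᵥ y + t * (2 * (y ⬝ᵥ v)) + t ^ 2 * (v ⬝ᵥ v)) := by
      funext t
      simp only [add_dotProduct, dotProduct_add, smul_dotProduct, dotProduct_smul, smul_eq_mul,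
        dotProduct_comm v y]
      ring
    rw [e]
    refine (((((hasDerivAt_id (0 : ℝ)).mul_const (2 * (y ⬝ᵥ v))).const_add (y ⬝ᵥ y)).add
      ((hasDerivAt_pow 2 (0 : ℝ)).mul_const (v ⬝ᵥ v))).const_mul (b ^ 2)).const_add 1
      |>.congr_deriv ?_
    simp
  have h2 := h1.sqrt (by simpa using (hypT_arg_pos b y).ne')
  refine h2.congr_deriv ?_
  rw [show (y + (0 : ℝ) • v) = y by simp]
  change _ / (2 * hypT b y) = _
  have := (hypT_pos b y).ne'
  field_simp

lemma fderiv_hypC (b : ℝ) (x y v : Fin n → ℝ) :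
    fderiv ℝ (hypC b x) y v = b ^ 2 * ((hypT b x / hypT b y * (y ⬝ᵥ v)) - x ⬝ᵥ v) := by
  have hC : DifferentiableAt ℝ (hypC b x) y :=
    (((contDiff_hypC b (k := 1)).comp (contDiff_const.prodMk contDiff_id)).differentiable
      one_ne_zero) y
  have h1 : HasDerivAt (fun t : ℝ => hypC b x (y + t • v)) (fderiv ℝ (hypC b x) y v) 0 :=
    hC.hasFDerivAt.comp_hasDerivAt_of_eq 0 (hasDerivAt_line y v) (by simp)
  have h2 : HasDerivAt (fun t : ℝ => hypC b x (y + t • v))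
      (hypT b x * (b ^ 2 * (y ⬝ᵥ v) / hypT b y) - b ^ 2 * (x ⬝ᵥ v)) 0 := by
    simp only [hypC, dotProduct_add, dotProduct_smul, smul_eq_mul]
    refine ((fderiv_hypT b y v).const_mul (hypT b x)).sub
      ((((hasDerivAt_id (0 : ℝ)).mul_const (x ⬝ᵥ v)).const_add (x ⬝ᵥ y)).const_mul (b ^ 2)
        |>.congr_deriv ?_)
    simp
  rw [h1.unique h2]; ring

lemma cd_hypC (b : ℝ) (x y : Fin n → ℝ) :
    cd (hypC b x) y = b ^ 2 • ((hypT b x / hypT b y) • y - x) := by
  funext i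
  rw [cd, fderiv_hypC, dotProduct_single, dotProduct_single]
  simp

lemma fderiv2_hypC (b : ℝ) (x y v : Fin n → ℝ) :
    fderiv ℝ (fderiv ℝ (hypC b x)) y v v =
      b ^ 2 * (hypT b x / hypT b y) * (v ⬝ᵥ (hypG n b y *ᵥ v)) := by
  have hcd : ContDiff ℝ 2 (hypC b x) := (contDiff_hypC b).comp (contDiff_const.prodMk contDiff_id)
  have h1 : HasDerivAt (fun t : ℝ => fderiv ℝ (hypC b x) (y + t • v) v)
      (fderiv ℝ (fderiv ℝ (hypC b x)) y v v) 0 :=
    (ContinuousLinearMap.apply ℝ ℝ v).hasFDerivAt.comp_hasDerivAt 0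
      ((((hcd.fderiv_right (m := 1) le_rfl).differentiable one_ne_zero y).hasFDerivAt
        ).comp_hasDerivAt_of_eq 0 (hasDerivAt_line y v) (by simp))
  have hne : hypT b (y + (0 : ℝ) • v) ≠ 0 := (hypT_pos b _).ne'
  have h2 : HasDerivAt (fun t : ℝ => fderiv ℝ (hypC b x) (y + t • v) v)
      (b ^ 2 * (hypT b x / hypT b y) * (v ⬝ᵥ (hypG n b y *ᵥ v))) 0 := by
    simp only [fderiv_hypC, add_dotProduct, smul_dotProduct, smul_eq_mul]
    refine (((((hasDerivAt_const (0 : ℝ) (hypT b x)).div (fderiv_hypT b y v) hne).mul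
      (((hasDerivAt_id (0 : ℝ)).mul_const (v ⬝ᵥ v)).const_add (y ⬝ᵥ v))).sub_const
        (x ⬝ᵥ v)).const_mul (b ^ 2)).congr_deriv ?_
    simp only [Pi.div_apply, id_eq, zero_smul, add_zero, zero_mul]
    rw [hypG_quad]
    have := (hypT_pos b y).ne'
    field_simp
    ring
  exact h1.unique h2

lemma dG_hypG (b : ℝ) (y w a c : Fin n → ℝ) :
    a ⬝ᵥ (dG (hypG n b) y w *ᵥ c) =
      -(b ^ 2 / hypT b y ^ 2) * ((a ⬝ᵥ w) * (y ⬝ᵥ c) + (a ⬝ᵥ y) * (w ⬝ᵥ c)) +
        2 * b ^ 4 * (y ⬝ᵥ w) / hypT b y ^ 4 * ((a ⬝ᵥ y) * (y ⬝ᵥ c)) := by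
  have hq := (hypT_pos b y).ne'
  have e : dG (hypG n b) y w = -(b ^ 2 / hypT b y ^ 2) • (vecMulVec w y + vecMulVec y w) +
      (2 * b ^ 4 * (y ⬝ᵥ w) / hypT b y ^ 4) • vecMulVec y y := by
    ext i j
    simp only [dG, Matrix.of_apply, Matrix.add_apply, Matrix.smul_apply, vecMulVec_apply, smul_eq_mul]
    have hf : ContDiff ℝ 1 fun z => hypG n b z i j := by
      simp only [hypG, Matrix.sub_apply, Matrix.smul_apply, vecMulVec_apply, smul_eq_mul]
      exact contDiff_const.sub ((contDiff_const.div ((contDiff_hypT b).pow 2)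
        fun z => pow_ne_zero 2 (hypT_pos b z).ne').mul ((contDiff_apply ℝ ℝ i).mul (contDiff_apply ℝ ℝ j)))
    have h1 : HasDerivAt (fun t : ℝ => hypG n b (y + t • w) i j)
        (fderiv ℝ (fun z => hypG n b z i j) y w) 0 :=
      (hf.differentiable one_ne_zero y).hasFDerivAt.comp_hasDerivAt_of_eq 0 (hasDerivAt_line y w)
        (by simp)
    have hne : hypT b (y + (0 : ℝ) • w) ^ 2 ≠ 0 := pow_ne_zero 2 (hypT_pos b _).ne'
    have hl : ∀ k : Fin n, HasDerivAt (fun t : ℝ => (y + t • w) k) (w k) 0 := fun k =>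
      hasDerivAt_pi.1 (hasDerivAt_line y w) k
    have h2 := ((((hasDerivAt_const (0 : ℝ) (b ^ 2)).div ((fderiv_hypT b y w).pow 2) hne).mul
      ((hl i).mul (hl j))).const_sub ((1 : Matrix (Fin n) (Fin n) ℝ) i j))
    simp only [hypG, Matrix.sub_apply, Matrix.smul_apply, vecMulVec_apply, smul_eq_mul] at h1
    rw [show fderiv ℝ (fun z => hypG n b z i j) y w = _ from h1.unique h2]
    simp only [Pi.pow_apply, Pi.mul_apply, Pi.div_apply, zero_smul, add_zero]
    push_cast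
    field_simp
    ring
  rw [e]
  simp only [add_mulVec, smul_mulVec, vecMulVec_mulVec, op_smul_eq_smul, dotProduct_add,
    dotProduct_smul, smul_eq_mul, neg_mulVec, dotProduct_neg, dotProduct_comm y a]
  ring

lemma grad_hypC (b : ℝ) (x y : Fin n → ℝ) :
    grad (hypG n b) (hypC b x) y = b ^ 2 • (hypC b x y • y - x) := by
  rw [grad, hypG_inv, cd_hypC, add_mulVec, one_mulVec, smul_mulVec, vecMulVec_mulVec, op_smul_eq_smul]
  have hq := (hypT_pos b y).ne'
  have h2 := hypT_sq b y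
  have e : hypT b x / hypT b y + b ^ 2 * (hypT b x / hypT b y * (y ⬝ᵥ y) - x ⬝ᵥ y) = hypC b x y := by
    rw [hypC]
    field_simp
    linear_combination -(hypT b x) * h2
  funext i
  simp only [Pi.add_apply, Pi.smul_apply, Pi.sub_apply, smul_eq_mul, dotProduct_smul, dotProduct_sub,
    dotProduct_comm y x]
  linear_combination (b ^ 2 * y i) * e

lemma hess_hypC (b : ℝ) (x y v : Fin n → ℝ) :
    hess (hypG n b) (hypC b x) y v = b ^ 2 * hypC b x y * (v ⬝ᵥ (hypG n b y *ᵥ v)) := by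
  rw [hess, fderiv2_hypC, dG_hypG, dG_hypG, grad_hypC]
  simp only [smul_dotProduct, dotProduct_smul, sub_dotProduct, dotProduct_sub, smul_eq_mul,
    hypG_quad, dotProduct_comm v y, dotProduct_comm y x, dotProduct_comm v x, hypC]
  have hq := (hypT_pos b y).ne'
  have h2 := hypT_sq b y
  have e : y ⬝ᵥ y = (hypT b y ^ 2 - 1) / b ^ 2 ∨ b = 0 := by
    rcases eq_or_ne b 0 with h | h
    · exact Or.inr h
    · left; field_simp; linarith
  rcases e with e | rfl
  · rcases eq_or_ne b 0 with rfl | hb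
    · simp
    rw [e]
    field_simp
    ring
  · simp

/-! ## Half the squared distance -/

lemma cd_hypD_eq (hb : b ≠ 0) (x y : Fin n → ℝ) :
    cd (hypC b x) y = (2 * b ^ 2 * cshd (2 * b ^ 2 * hypD n b x y)) • cd (hypD n b x) y := by
  have hD : DifferentiableAt ℝ (hypD n b x) y :=
    ((contDiff_hypD_left b x).differentiable two_ne_zero) y
  have h1 := (hasDerivAt_csh (2 * b ^ 2 * hypD n b x y)).comp_hasFDerivAt y
    (hD.hasFDerivAt.const_mul (2 * b ^ 2))
  funext i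
  rw [cd, show hypC b x = csh ∘ fun z => 2 * b ^ 2 * hypD n b x z from
    funext fun z => (csh_hypD hb x z).symm, h1.fderiv]
  simp [cd]
  ring

lemma hess_hypD (hb : b ≠ 0) (x y v : Fin n → ℝ) :
    csh (2 * b ^ 2 * hypD n b x y) * (v ⬝ᵥ (hypG n b y *ᵥ v)) =
      2 * cshd (2 * b ^ 2 * hypD n b x y) * hess (hypG n b) (hypD n b x) y v +
        4 * b ^ 2 * cshdd (2 * b ^ 2 * hypD n b x y) * (cd (hypD n b x) y ⬝ᵥ v) ^ 2 := by
  have h0 := hess_hypC b x y v
  have hgr : grad (hypG n b) (hypC b x) y =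
      (2 * b ^ 2 * cshd (2 * b ^ 2 * hypD n b x y)) • grad (hypG n b) (hypD n b x) y := by
    rw [grad, grad, cd_hypD_eq hb, mulVec_smul]
  have hD2 : ContDiff ℝ 2 (hypD n b x) := contDiff_hypD_left b x
  have hd2 : fderiv ℝ (fderiv ℝ (hypC b x)) y v v =
      2 * b ^ 2 * cshd (2 * b ^ 2 * hypD n b x y) * fderiv ℝ (fderiv ℝ (hypD n b x)) y v v +
        4 * b ^ 4 * cshdd (2 * b ^ 2 * hypD n b x y) * (cd (hypD n b x) y ⬝ᵥ v) ^ 2 := by
    have hcd : ContDiff ℝ 2 (hypC b x) := (contDiff_hypC b).comp (contDiff_const.prodMk contDiff_id)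
    have h1 : HasDerivAt (fun t : ℝ => fderiv ℝ (hypC b x) (y + t • v) v)
        (fderiv ℝ (fderiv ℝ (hypC b x)) y v v) 0 :=
      (ContinuousLinearMap.apply ℝ ℝ v).hasFDerivAt.comp_hasDerivAt 0
        ((((hcd.fderiv_right (m := 1) le_rfl).differentiable one_ne_zero y).hasFDerivAt
          ).comp_hasDerivAt_of_eq 0 (hasDerivAt_line y v) (by simp))
    have hφ : HasDerivAt (fun t : ℝ => hypD n b x (y + t • v)) (fderiv ℝ (hypD n b x) y v) 0 :=
      (hD2.differentiable two_ne_zero y).hasFDerivAt.comp_hasDerivAt_of_eq 0 (hasDerivAt_line y v)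
        (by simp)
    have hψ : HasDerivAt (fun t : ℝ => fderiv ℝ (hypD n b x) (y + t • v) v)
        (fderiv ℝ (fderiv ℝ (hypD n b x)) y v v) 0 :=
      (ContinuousLinearMap.apply ℝ ℝ v).hasFDerivAt.comp_hasDerivAt 0
        ((((hD2.fderiv_right (m := 1) le_rfl).differentiable one_ne_zero y).hasFDerivAt
          ).comp_hasDerivAt_of_eq 0 (hasDerivAt_line y v) (by simp))
    have e : (fun t : ℝ => fderiv ℝ (hypC b x) (y + t • v) v) = fun t =>
        2 * b ^ 2 * cshd (2 * b ^ 2 * hypD n b x (y + t • v)) *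
          fderiv ℝ (hypD n b x) (y + t • v) v := by
      funext t
      rw [← cd_dotProduct, cd_hypD_eq hb, smul_dotProduct, cd_dotProduct, smul_eq_mul]
    have hp : HasDerivAt (fun t : ℝ => cshd (2 * b ^ 2 * hypD n b x (y + t • v)))
        (cshdd (2 * b ^ 2 * hypD n b x y) * (2 * b ^ 2 * fderiv ℝ (hypD n b x) y v)) 0 :=
      (hasDerivAt_cshd _).comp_of_eq 0 (hφ.const_mul (2 * b ^ 2)) (by simp)
    rw [e] at h1
    rw [h1.unique ((hp.const_mul (2 * b ^ 2)).mul hψ), ← cd_dotProduct]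
    simp only [zero_smul, add_zero, ← cd_dotProduct]
    ring
  simp only [hess] at h0 ⊢
  rw [hgr, hd2, ← csh_hypD hb x y] at h0
  simp only [smul_dotProduct, dotProduct_smul, smul_eq_mul] at h0
  have hdl : ∀ (c : ℝ) (w : Fin n → ℝ), v ⬝ᵥ (dG (hypG n b) y (c • w) *ᵥ v) =
      c * (v ⬝ᵥ (dG (hypG n b) y w *ᵥ v)) := fun c w => by
    rw [dG_hypG, dG_hypG]
    simp only [smul_dotProduct, dotProduct_smul, smul_eq_mul]
    ring
  rw [hdl] at h0
  refine mul_left_cancel₀ (pow_ne_zero 2 hb) ?_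
  linear_combination -h0

lemma csh_convexOn : ConvexOn ℝ (Ici 0) csh := by
  refine MonotoneOn.convexOn_of_deriv (convex_Ici 0) (contDiff_csh (k := 1)).continuous.continuousOn
    ((contDiff_csh (k := 1)).differentiable one_ne_zero).differentiableOn ?_
  rw [interior_Ici]
  refine (monotoneOn_of_hasDerivWithinAt_nonneg (f := cshd) (f' := cshdd) (convex_Ioi 0)
    (contDiff_cshd (k := 1)).continuous.continuousOn
    (fun z _ => (hasDerivAt_cshd z).hasDerivWithinAt) fun z hz => ?_)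
  rw [interior_Ioi] at hz
  have hz0 : 0 < z := hz
  have := csh_ode (√z)
  rw [Real.sq_sqrt hz0.le] at this
  have hk := kfac_le_one 1 (show 0 ≤ z / 2 by linarith)
  rw [kfac, show 2 * (1 : ℝ) ^ 2 * (z / 2) = z by ring, div_le_one (csh_pos hz0.le)] at hk
  by_contra hneg
  nlinarith [mul_neg_of_pos_of_neg hz0 (not_le.1 hneg)]

lemma pairing_hypC (b : ℝ) (o x y : Fin n → ℝ) :
    pairing (hypG n b) y (cd (hypC b o) y) (cd (hypC b x) y) =
      b ^ 2 * (hypC b o y * hypC b x y - hypC b o x) := by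
  rw [pairing, show (hypG n b y)⁻¹ *ᵥ cd (hypC b x) y = grad (hypG n b) (hypC b x) y from rfl,
    grad_hypC, cd_hypC]
  simp only [smul_dotProduct, dotProduct_smul, sub_dotProduct, dotProduct_sub, smul_eq_mul,
    dotProduct_comm y x, hypC]
  have hq := (hypT_pos b y).ne'
  have h2 := hypT_sq b y
  rcases eq_or_ne b 0 with rfl | hb
  · simp
  have e : y ⬝ᵥ y = (hypT b y ^ 2 - 1) / b ^ 2 := by field_simp; linarith
  rw [e]
  field_simp
  ring

/-- Hyperbolic space of curvature `-b ^ 2` satisfies both hypotheses, the second with equality. -/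
theorem isCH_hyp (hb : b ≠ 0) : IsCH (hypG n b) (hypD n b) ∧ BendCH (hypG n b) (hypD n b) b := by
  have hbend : BendCH (hypG n b) (hypD n b) b :=
    ⟨fun x y v => (hess_hypD hb x y v).le⟩
  have heik : ∀ x y, pairing (hypG n b) y (cd (hypD n b x) y) (cd (hypD n b x) y) =
      2 * hypD n b x y := fun x y => by
    have h := pairing_hypC b x x y
    rw [hypC_self, cd_hypD_eq hb, ← csh_hypD hb x y] at h
    have hX := hypD_nonneg (n := n) hb x y
    have hc := cshd_pos (arg_nonneg b hX)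
    have h4 := four_mul_cshd_sq (arg_nonneg b hX)
    simp only [pairing, smul_dotProduct, mulVec_smul, dotProduct_smul, smul_eq_mul] at h ⊢
    refine mul_left_cancel₀ (show (2 * b ^ 2 * cshd (2 * b ^ 2 * hypD n b x y)) ^ 2 ≠ 0 by positivity) ?_
    linear_combination h - b ^ 2 * h4
  have hcs : ∀ (y a c : Fin n → ℝ), pairing (hypG n b) y a c ^ 2 ≤
      pairing (hypG n b) y a a * pairing (hypG n b) y c c := fun y a c => by
    have hP := (posDef_hypG b y).inv
    have hT : ((hypG n b y)⁻¹)ᵀ = (hypG n b y)⁻¹ := by simpa using hP.isHermitian.eq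
    have hq : ∀ t : ℝ, 0 ≤ pairing (hypG n b) y c c * (t * t) + 2 * pairing (hypG n b) y a c * t +
        pairing (hypG n b) y a a := fun t => by
      have h := hP.posSemidef.dotProduct_mulVec_nonneg (a + t • c)
      have hs : c ⬝ᵥ ((hypG n b y)⁻¹ *ᵥ a) = a ⬝ᵥ ((hypG n b y)⁻¹ *ᵥ c) := by
        rw [dotProduct_mulVec, ← mulVec_transpose, hT, dotProduct_comm]
      simp only [star_trivial, mulVec_add, mulVec_smul, add_dotProduct, dotProduct_add,
        smul_dotProduct, dotProduct_smul, smul_eq_mul, hs] at h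
      simp only [pairing]
      linarith
    have := discrim_le_zero hq
    rw [discrim] at this
    linarith
  refine ⟨{ smooth_metric := fun i j => ?_
            posDef := posDef_hypG b
            smooth_dist := smooth_hypD n b
            dist_self := fun x => ?_
            eikonal := heik
            hessian := fun x y v => ?_
            cosine := fun o x y => ?_
            proper := fun o R => ?_ }, hbend⟩
  · simp only [hypG, Matrix.sub_apply, Matrix.smul_apply, vecMulVec_apply, smul_eq_mul]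
    exact contDiff_const.sub ((contDiff_const.div ((contDiff_hypT b).pow 2)
      fun z => pow_ne_zero 2 (hypT_pos b z).ne').mul ((contDiff_apply ℝ ℝ i).mul (contDiff_apply ℝ ℝ j)))
  · have e := cshInv_spec (le_refl (1 : ℝ))
    rw [hypD, hypC_self, csh_strictMonoOn.injOn (Ici_subset_cshDom e.1) (Ici_subset_cshDom self_mem_Ici)
      (by rw [e.2, csh_zero]), zero_div]
  · have hX := arg_nonneg b (hypD_nonneg (n := n) hb x y)
    have hh := hess_hypD (n := n) hb x y v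
    have hk := kfac_le_one b (hypD_nonneg (n := n) hb x y)
    rw [kfac, div_le_one (csh_pos hX)] at hk
    have hs := cshd_pos hX
    have hode := csh_ode (√(2 * b ^ 2 * hypD n b x y))
    rw [Real.sq_sqrt hX] at hode
    -- Cauchy-Schwarz for the differential
    have hp : (cd (hypD n b x) y ⬝ᵥ v) ^ 2 ≤ 2 * hypD n b x y * (v ⬝ᵥ (hypG n b y *ᵥ v)) := by
      have hi : (hypG n b y)⁻¹ *ᵥ (hypG n b y *ᵥ v) = v := by
        rw [mulVec_mulVec, Matrix.nonsing_inv_mul _ (posDef_hypG b y).det_pos.ne'.isUnit, one_mulVec]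
      have h := hcs y (cd (hypD n b x) y) (hypG n b y *ᵥ v)
      rw [heik] at h
      simp only [pairing, hi] at h
      rwa [dotProduct_comm (hypG n b y *ᵥ v) v] at h
    have hv : 0 ≤ v ⬝ᵥ (hypG n b y *ᵥ v) := by
      have := (posDef_hypG b y).posSemidef.dotProduct_mulVec_nonneg v
      simpa using this
    rcases (hypD_nonneg (n := n) hb x y).eq_or_lt with h0 | h0
    · rw [← h0] at hp hh hs hk hode
      have : cd (hypD n b x) y ⬝ᵥ v = 0 := by nlinarith
      rw [this] at hh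
      simp only [mul_zero, csh_zero, cshd_zero] at hh
      linarith
    · have hdd : 0 ≤ cshdd (2 * b ^ 2 * hypD n b x y) := by
        by_contra hneg
        nlinarith [mul_neg_of_pos_of_neg (mul_pos (mul_pos (two_pos (α := ℝ)) (sq_pos_of_ne_zero hb)) h0)
          (not_le.1 hneg)]
      refine le_of_mul_le_mul_left ?_ (mul_pos two_pos hs)
      nlinarith [mul_le_mul_of_nonneg_left hp (mul_nonneg (sq_nonneg b) hdd)]
  · have h1 := pairing_hypC b o x y
    rw [cd_hypD_eq hb o, cd_hypD_eq hb x, ← csh_hypD hb o y, ← csh_hypD hb x y,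
      ← csh_hypD hb o x] at h1
    simp only [pairing, smul_dotProduct, mulVec_smul, dotProduct_smul, smul_eq_mul] at h1
    have hcs' := hcs y (cd (hypD n b o) y) (cd (hypD n b x) y)
    rw [heik, heik] at hcs'
    obtain ⟨P, hP⟩ : ∃ P, P = pairing (hypG n b) y (cd (hypD n b o) y) (cd (hypD n b x) y) := ⟨_, rfl⟩
    rw [← hP] at hcs' ⊢
    rw [show cd (hypD n b o) y ⬝ᵥ ((hypG n b y)⁻¹ *ᵥ cd (hypD n b x) y) = P from hP.symm] at h1
    have hA0 := hypD_nonneg (n := n) hb o y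
    have hB0 := hypD_nonneg (n := n) hb x y
    have hX0 := hypD_nonneg (n := n) hb o x
    obtain ⟨α, hα⟩ : ∃ α, α = √(2 * b ^ 2 * hypD n b o y) := ⟨_, rfl⟩
    obtain ⟨β, hβ⟩ : ∃ β, β = √(2 * b ^ 2 * hypD n b x y) := ⟨_, rfl⟩
    have hα2 : α ^ 2 = 2 * b ^ 2 * hypD n b o y := by rw [hα, Real.sq_sqrt (arg_nonneg b hA0)]
    have hβ2 : β ^ 2 = 2 * b ^ 2 * hypD n b x y := by rw [hβ, Real.sq_sqrt (arg_nonneg b hB0)]
    have hα0 : 0 ≤ α := hα ▸ Real.sqrt_nonneg _
    have hβ0 : 0 ≤ β := hβ ▸ Real.sqrt_nonneg _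
    have hbP : |b ^ 2 * P| ≤ α * β := by
      refine abs_le_of_sq_le_sq ?_ (mul_nonneg hα0 hβ0)
      rw [mul_pow, mul_pow, hα2, hβ2]
      calc (b ^ 2) ^ 2 * P ^ 2 ≤ (b ^ 2) ^ 2 * (2 * hypD n b o y * (2 * hypD n b x y)) :=
            mul_le_mul_of_nonneg_left hcs' (by positivity)
        _ = _ := by ring
    obtain ⟨s, hs1, hs2⟩ : ∃ s : ℝ, |s| ≤ 1 ∧ b ^ 2 * P = s * (α * β) := by
      rcases (mul_nonneg hα0 hβ0).eq_or_lt with h0 | h0
      · exact ⟨0, by norm_num, by rw [← h0] at hbP; simp [abs_nonpos_iff.1 hbP]⟩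
      · exact ⟨b ^ 2 * P / (α * β), by rw [abs_div, abs_of_pos h0, div_le_one h0]; exact hbP,
          (div_mul_cancel₀ _ h0.ne').symm⟩
    obtain ⟨s1, s2⟩ := abs_le.1 hs1
    -- convexity on the chord
    have hcx := csh_convexOn.2 (show (α - β) ^ 2 ∈ Ici (0 : ℝ) from mem_Ici.2 (sq_nonneg _))
      (show (α + β) ^ 2 ∈ Ici (0 : ℝ) from mem_Ici.2 (sq_nonneg _)) (show (0 : ℝ) ≤ (1 + s) / 2 by linarith)
      (show (0 : ℝ) ≤ (1 - s) / 2 by linarith) (by ring)
    simp only [smul_eq_mul] at hcx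
    have hE : csh (2 * b ^ 2 * hypD n b o x) =
        Real.cosh α * Real.cosh β - s * (Real.sinh α * Real.sinh β) := by
      rw [← csh_sq α, ← csh_sq β, ← two_mul_cshd_sq α, ← two_mul_cshd_sq β, hα2, hβ2]
      refine mul_left_cancel₀ (pow_ne_zero 2 hb) ?_
      linear_combination h1 - (4 * cshd (2 * b ^ 2 * hypD n b o y) *
        cshd (2 * b ^ 2 * hypD n b x y) * b ^ 2) * hs2
    rw [csh_sq, csh_sq, Real.cosh_add, Real.cosh_sub] at hcx
    have hle : csh ((1 + s) / 2 * (α - β) ^ 2 + (1 - s) / 2 * (α + β) ^ 2) ≤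
        csh (2 * b ^ 2 * hypD n b o x) := by rw [hE]; linarith
    have hZ : 0 ≤ (1 + s) / 2 * (α - β) ^ 2 + (1 - s) / 2 * (α + β) ^ 2 :=
      add_nonneg (mul_nonneg (by linarith) (sq_nonneg _)) (mul_nonneg (by linarith) (sq_nonneg _))
    have := (csh_strictMonoOn.le_iff_le (Ici_subset_cshDom hZ)
      (Ici_subset_cshDom (arg_nonneg b hX0))).1 hle
    refine le_of_mul_le_mul_left ?_ (show 0 < 2 * b ^ 2 by positivity)
    linarith
  · refine Metric.isCompact_of_isClosed_isBounded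
      (isClosed_le (contDiff_hypD_left b o).continuous continuous_const) ?_
    obtain ⟨M, hM⟩ : ∃ M, M = csh (2 * b ^ 2 * max R 0) := ⟨_, rfl⟩
    have ho := hypT_pos b o
    obtain ⟨σ, hσ⟩ : ∃ σ, σ = √(hypT b o ^ 2 - 1) := ⟨_, rfl⟩
    have hoo : 0 ≤ o ⬝ᵥ o := Finset.sum_nonneg fun i _ => mul_self_nonneg _
    have hσ2 : σ ^ 2 = b ^ 2 * (o ⬝ᵥ o) := by
      rw [hσ, hypT_sq, add_sub_cancel_left, Real.sq_sqrt (by positivity)]
    have hσlt : σ < hypT b o := by
      nlinarith [hypT_sq b o, hσ ▸ Real.sqrt_nonneg (hypT b o ^ 2 - 1)]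
    refine (Metric.isBounded_closedBall (x := (0 : Fin n → ℝ))
      (r := M / ((hypT b o - σ) * |b|))).subset fun y hy => ?_
    have hyR : hypD n b o y ≤ R := hy
    have hq0 := hypT_pos b y
    have hb' : 0 < |b| := abs_pos.2 hb
    have hden : 0 < (hypT b o - σ) * |b| := mul_pos (sub_pos.2 hσlt) hb'
    have hC : hypC b o y ≤ M := by
      rw [← csh_hypD hb, hM]
      exact (csh_strictMonoOn.le_iff_le (Ici_subset_cshDom (arg_nonneg b (hypD_nonneg hb o y)))
        (Ici_subset_cshDom (arg_nonneg b (le_max_right R 0)))).2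
        (mul_le_mul_of_nonneg_left (hyR.trans (le_max_left _ _)) (by positivity))
    have hoy : b ^ 2 * (o ⬝ᵥ y) ≤ σ * hypT b y := by
      refine (abs_le.1 (abs_le_of_sq_le_sq ?_ (mul_nonneg (hσ ▸ Real.sqrt_nonneg _) hq0.le))).2
      rw [mul_pow σ, hσ2, hypT_sq]
      nlinarith [mul_le_mul_of_nonneg_left (dot_sq_le o y) (sq_nonneg (b ^ 2)),
        mul_nonneg (sq_nonneg b) hoo]
    have hM0 : 0 ≤ M := hM ▸ (csh_pos (arg_nonneg b (le_max_right R 0))).le
    rw [Metric.mem_closedBall, dist_zero_right, pi_norm_le_iff_of_nonneg (div_nonneg hM0 hden.le)]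
    intro i
    rw [le_div_iff₀ hden, Real.norm_eq_abs]
    have hyi : |b| * |y i| ≤ hypT b y := by
      rw [← abs_mul]
      refine Real.abs_le_sqrt ?_
      have := Finset.single_le_sum (f := fun j => y j * y j) (fun j _ => mul_self_nonneg _)
        (Finset.mem_univ i)
      calc (b * y i) ^ 2 = b ^ 2 * (y i * y i) := by ring
        _ ≤ b ^ 2 * (y ⬝ᵥ y) := mul_le_mul_of_nonneg_left this (sq_nonneg b)
        _ ≤ _ := by linarith
    have := mul_le_mul_of_nonneg_left hyi (sub_nonneg.2 hσlt.le)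
    rw [hypC] at hC
    linarith

end Vale.Agent.P219.CH.Bend
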