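import Vale.Agent.P219.Bend.Geom
import Vale.Agent.P219.Six.Radial
import Vale.Agent.P219.Six.Mixed

/-!
# P219: curvature at most `-b ^ 2`, the Jacobian comparison

`sfac b (r ^ 2 / 2) = sinh (b r) / (b r)`: the logarithm shrinks tangential vectors by that factor,
so volume by its power `n - 1`.
-/

noncomputable section

open MeasureTheory Set Filter Topology Matrix

namespace Vale.Agent.P219.CH.Bend

open Sharp

variable {n : ℕ} {G : (Fin n → ℝ) → Matrix (Fin n) (Fin n) ℝ}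
  {D : (Fin n → ℝ) → (Fin n → ℝ) → ℝ} {b : ℝ}

/-- `sinh (b r) / (b r)` as a function of `t = r ^ 2 / 2`. -/
def sfac (b t : ℝ) : ℝ := 2 * cshd (2 * b ^ 2 * t)

lemma sfac_pos (b : ℝ) {t : ℝ} (ht : 0 ≤ t) : 0 < sfac b t :=
  mul_pos two_pos (cshd_pos (arg_nonneg b ht))

lemma sfac_zero (b : ℝ) : sfac b 0 = 1 := by simp [sfac, cshd_zero]

/-- The differential of the logarithm coordinates shrinks tangential vectors by `sinh (b r) / (b r)`. -/
theorem sum_fderiv_ucoord_sfac (h : IsCH G D) (hb : BendCH G D b) (x y v : Fin n → ℝ) :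
    sfac b (D x y) ^ 2 * (2 * D x y) * ∑ k, (cd (fun z => ucoord G D x z k) y ⬝ᵥ v) ^ 2 ≤
      2 * D x y * qf G y v + (sfac b (D x y) ^ 2 - 1) * (cd (D x) y ⬝ᵥ v) ^ 2 := by
  rcases (h.dist_nonneg x y).eq_or_lt with h0 | h0
  · simp [← h0, sfac_zero]
  obtain ⟨R, hR⟩ : ∃ R, R = 2 * D x y := ⟨_, rfl⟩
  obtain ⟨a, ha⟩ : ∃ a, a = cd (D x) y ⬝ᵥ v := ⟨_, rfl⟩
  obtain ⟨s, hs⟩ : ∃ s, s = sfac b (D x y) := ⟨_, rfl⟩
  have hR0 : 0 < R := by rw [hR]; linarith
  set g := grad G (D x) y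
  obtain ⟨w, hw⟩ : ∃ w, w = v - (a / R) • g := ⟨_, rfl⟩
  have hsymm : D y x = D x y := dist_symm h y x
  have hu : HasFDerivAt (fun z => ucoord G D x z)
      ((Matrix.mulVecLin (frame G x)).toContinuousLinearMap.comp (Six.mixed D x y)) y :=
    ((Matrix.mulVecLin (frame G x)).toContinuousLinearMap.hasFDerivAt).comp y
      (Six.hasFDerivAt_cd_left h x y)
  obtain ⟨L, hL⟩ : ∃ L, L = (Matrix.mulVecLin (frame G x)).toContinuousLinearMap.comp
      (Six.mixed D x y) := ⟨_, rfl⟩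
  rw [← hL] at hu
  have hk : ∀ z k, cd (fun p => ucoord G D x p k) y ⬝ᵥ z = L z k := fun z k => by
    rw [cd_dotProduct, (hasFDerivAt_pi'.1 hu k).fderiv]
    rfl
  have hg : L g = ucoord G D x y := by
    rw [hL]
    simp [g, Six.mixed_grad h, ucoord]
  have heg : cd (D x) y ⬝ᵥ g = R := by rw [hR, ← h.eikonal]; rfl
  have hwg : cd (D x) y ⬝ᵥ w = 0 := by
    rw [hw, dotProduct_sub, dotProduct_smul, heg, ← ha, smul_eq_mul]
    field_simp
    ring
  have hDsymm : (fun z => D z x) = D x := funext fun z => dist_symm h z x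
  have hd : HasFDerivAt (fun z => D z x) (fderiv ℝ (D x) y) y := by
    rw [hDsymm]
    exact ((h.contDiff_D x).differentiable two_ne_zero y).hasFDerivAt
  have hdw : fderiv ℝ (D x) y w = 0 := by rw [← cd_dotProduct]; exact hwg
  -- the logarithm is orthogonal on tangential vectors
  have horth : ucoord G D x y ⬝ᵥ L w = 0 := by
    have h1 : HasFDerivAt (fun z => ucoord G D x z ⬝ᵥ ucoord G D x z)
        (∑ k, (ucoord G D x y k • (ContinuousLinearMap.proj k).comp L +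
          ucoord G D x y k • (ContinuousLinearMap.proj k).comp L)) y :=
      HasFDerivAt.fun_sum fun k _ => (hasFDerivAt_pi'.1 hu k).mul (hasFDerivAt_pi'.1 hu k)
    have h2 : HasFDerivAt (fun z => ucoord G D x z ⬝ᵥ ucoord G D x z)
        ((2 : ℝ) • fderiv ℝ (D x) y) y := by
      simp only [ucoord_dot h]
      exact hd.const_mul 2
    have e := congrArg (fun T : (Fin n → ℝ) →L[ℝ] ℝ => T w) (h1.unique h2)
    simp [hdw, Finset.sum_add_distrib] at e
    rw [dotProduct]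
    linarith
  have hLv : L v = L w + (a / R) • ucoord G D x y := by
    rw [hw, map_sub, map_smul, hg, sub_add_cancel]
  have hb1 : kfac b (D x y) ^ 2 * (L w ⬝ᵥ L w) ≤
      (1 - b ^ 2 * (2 * bD D b x y)) * qf G y w := by
    refine le_trans (le_of_eq ?_) (sum_fderiv_bucoord_le h hb x y w)
    rw [dotProduct, Finset.mul_sum]
    refine Finset.sum_congr rfl fun k _ => ?_
    have hkf : HasFDerivAt (fun z => kfac b (D z x))
        (deriv (kfac b) (D x y) • fderiv ℝ (D x) y) y := by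
      have hk1 := ((contDiffAt_kfac b (h.dist_nonneg x y)).differentiableAt two_ne_zero).hasDerivAt
      exact hk1.comp_hasFDerivAt_of_eq y hd hsymm.symm
    have hbk : HasFDerivAt (fun z => bucoord G D b x z k)
        (kfac b (D y x) • (ContinuousLinearMap.proj k).comp L +
          ucoord G D x y k • (deriv (kfac b) (D x y) • fderiv ℝ (D x) y)) y :=
      hkf.mul (hasFDerivAt_pi'.1 hu k)
    rw [cd_dotProduct, hbk.fderiv]
    simp [hdw, hsymm]
    ring
  have hC0 : 0 < csh (2 * b ^ 2 * D x y) := csh_pos (arg_nonneg b (h.dist_nonneg x y))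
  have hkey : s ^ 2 * (L w ⬝ᵥ L w) ≤ qf G y w := by
    have e : s = kfac b (D x y) * csh (2 * b ^ 2 * D x y) := by
      rw [hs, sfac, kfac]
      field_simp
    have e2 : (1 - b ^ 2 * (2 * bD D b x y)) * csh (2 * b ^ 2 * D x y) ^ 2 = 1 := by
      rw [one_sub_bD h, one_div_mul_cancel (pow_ne_zero 2 hC0.ne')]
    rw [e]
    calc (kfac b (D x y) * csh (2 * b ^ 2 * D x y)) ^ 2 * (L w ⬝ᵥ L w)
        = csh (2 * b ^ 2 * D x y) ^ 2 * (kfac b (D x y) ^ 2 * (L w ⬝ᵥ L w)) := by ring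
      _ ≤ csh (2 * b ^ 2 * D x y) ^ 2 * ((1 - b ^ 2 * (2 * bD D b x y)) * qf G y w) :=
          mul_le_mul_of_nonneg_left hb1 (sq_nonneg _)
      _ = ((1 - b ^ 2 * (2 * bD D b x y)) * csh (2 * b ^ 2 * D x y) ^ 2) * qf G y w := by ring
      _ = qf G y w := by rw [e2, one_mul]
  have hqw : qf G y w = qf G y v - a ^ 2 / R := by
    have eG : G y *ᵥ g = cd (D x) y := h.mulVec_inv _ _
    have c1 : g ⬝ᵥ (G y *ᵥ v) = a := by
      rw [dotProduct_mulVec, ← mulVec_transpose, ← conjTranspose_eq_transpose_of_trivial,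
        (h.posDef y).isHermitian.eq, eG, ha]
    have c2 : v ⬝ᵥ (G y *ᵥ g) = a := by rw [eG, ha, dotProduct_comm]
    have c3 : g ⬝ᵥ (G y *ᵥ g) = R := by rw [eG, dotProduct_comm, heg]
    simp only [qf, hw, mulVec_sub, mulVec_smul, sub_dotProduct, dotProduct_sub, smul_dotProduct,
      dotProduct_smul, smul_eq_mul, c1, c2, c3]
    field_simp
    ring
  have hsum : ∑ k, (cd (fun z => ucoord G D x z k) y ⬝ᵥ v) ^ 2 = L w ⬝ᵥ L w + a ^ 2 / R := by
    simp only [hk]
    rw [show ∑ k, L v k ^ 2 = L v ⬝ᵥ L v by simp [dotProduct, sq], hLv]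
    simp only [add_dotProduct, dotProduct_add, smul_dotProduct, dotProduct_smul, smul_eq_mul,
      ucoord_dot h, hsymm, ← hR, horth, dotProduct_comm (L w) (ucoord G D x y)]
    field_simp
    ring
  rw [hsum, ← hs, ← hR, ← ha]
  have := mul_le_mul_of_nonneg_left hkey hR0.le
  rw [hqw, mul_sub, mul_div_cancel₀ _ hR0.ne'] at this
  calc s ^ 2 * R * (L w ⬝ᵥ L w + a ^ 2 / R) = R * (s ^ 2 * (L w ⬝ᵥ L w)) + s ^ 2 * a ^ 2 := by
        field_simp
    _ ≤ _ := by linarith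

/-- The Jacobian comparison of Rauch and Guenther: `sinh (b r) / (b r)` to the power `n - 1`. -/
theorem abs_det_mixed_le_sfac (h : IsCH G D) (hb : BendCH G D b) (x y : Fin n → ℝ) :
    sfac b (D x y) ^ (n - 1) * |(Six.mixedD D x y).det| ≤ dens G x * dens G y := by
  rcases (h.dist_nonneg x y).eq_or_lt with h0 | h0
  · rw [← h0, sfac_zero, one_pow, one_mul]
    exact Six.abs_det_mixed_le h x y
  obtain ⟨-, -, -, hx4⟩ := frame_spec h x
  obtain ⟨hy1, hy2, -, hy4⟩ := frame_spec h y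
  set C := opMat (Six.mixedD D x y)
  set A := frame G x
  set A' := frame G y
  obtain ⟨R, hR⟩ : ∃ R, R = 2 * D x y := ⟨_, rfl⟩
  obtain ⟨s, hs⟩ : ∃ s, s = sfac b (D x y) := ⟨_, rfl⟩
  have hR0 : 0 < R := by rw [hR]; linarith
  have hs0 : 0 < s := hs ▸ sfac_pos b (h.dist_nonneg x y)
  set e0 : Fin n → ℝ := A' *ᵥ cd (D x) y with he0
  have he : e0 ⬝ᵥ e0 = R := by rw [he0, frame_dot h, h.eikonal, hR]
  set M : Matrix (Fin n) (Fin n) ℝ := s • 1 + ((1 - s) / R) • vecMulVec e0 e0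
  have hu : ∀ v k, cd (fun z => ucoord G D x z k) y ⬝ᵥ v = (A *ᵥ (C *ᵥ v)) k := fun v k => by
    have hd : HasFDerivAt (fun z => A *ᵥ cd (D z) x)
        ((Matrix.toLin' A).toContinuousLinearMap.comp (Six.mixedD D x y)) y :=
      ((Matrix.toLin' A).toContinuousLinearMap.hasFDerivAt).comp y (Six.hasFDerivAt_mixed h x y)
    rw [cd_dotProduct, show (fun z => ucoord G D x z k) = fun z => (A *ᵥ cd (D z) x) k from rfl,
      (hasFDerivAt_pi'.1 hd k).fderiv, Six.opMat_mulVec]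
    simp
  have hMw : ∀ w, M *ᵥ w = s • w + ((1 - s) / R * (e0 ⬝ᵥ w)) • e0 := fun w => by
    simp only [M, add_mulVec, smul_mulVec, one_mulVec, vecMulVec_mulVec, op_smul_eq_smul, smul_smul]
  have hA' : A'ᵀ = A' := hy1
  have hB : ∀ w, ((A * C * A' * M) *ᵥ w) ⬝ᵥ ((A * C * A' * M) *ᵥ w) ≤ w ⬝ᵥ w := fun w => by
    have key := sum_fderiv_ucoord_sfac h hb x y (A' *ᵥ (M *ᵥ w))
    simp only [hu] at key
    rw [← hs, ← hR] at key
    have e1 : cd (D x) y ⬝ᵥ (A' *ᵥ (M *ᵥ w)) = e0 ⬝ᵥ (M *ᵥ w) := by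
      rw [dotProduct_mulVec, ← mulVec_transpose, hA', he0]
    have e2 : qf G y (A' *ᵥ (M *ᵥ w)) = (M *ᵥ w) ⬝ᵥ (M *ᵥ w) := by
      rw [qf, dotProduct_mulVec, vecMul_mulVec, hy1, ← dotProduct_mulVec, mulVec_mulVec, hy2,
        one_mulVec]
    have e3 : e0 ⬝ᵥ (M *ᵥ w) = e0 ⬝ᵥ w := by
      rw [hMw, dotProduct_add, dotProduct_smul, dotProduct_smul, he, smul_eq_mul, smul_eq_mul]
      field_simp
      ring
    have e4 : R * ((M *ᵥ w) ⬝ᵥ (M *ᵥ w)) =
        s ^ 2 * R * (w ⬝ᵥ w) + (1 - s ^ 2) * (e0 ⬝ᵥ w) ^ 2 := by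
      simp only [hMw, add_dotProduct, dotProduct_add, smul_dotProduct, dotProduct_smul, he,
        dotProduct_comm w e0, smul_eq_mul]
      field_simp
      ring
    rw [e1, e2, e3, e4] at key
    have e5 : ((A * C * A' * M) *ᵥ w) ⬝ᵥ ((A * C * A' * M) *ᵥ w) =
        ∑ k, (A *ᵥ (C *ᵥ (A' *ᵥ (M *ᵥ w)))) k ^ 2 := by
      simp [dotProduct, sq, mulVec_mulVec, Matrix.mul_assoc]
    rw [e5]
    refine le_of_mul_le_mul_left ?_ (show 0 < s ^ 2 * R by positivity)
    linarith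
  have h1 := Six.abs_det_le_one hB
  have hdet : M.det = s ^ (n - 1) := by
    have e : M = s • (1 + vecMulVec (((1 - s) / (s * R)) • e0) e0) := by
      simp only [M, smul_add, smul_vecMulVec, smul_smul]
      congr 2
      field_simp
    rw [e, det_smul, Fintype.card_fin, vecMulVec_eq Unit,
      det_one_add_replicateCol_mul_replicateRow, dotProduct_smul, he, smul_eq_mul]
    rcases Nat.eq_zero_or_pos n with hn | hn
    · subst hn
      simp [dotProduct] at he
      linarith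
    obtain ⟨m, rfl⟩ : ∃ m, n = m + 1 := ⟨n - 1, by omega⟩
    rw [Nat.add_sub_cancel, pow_succ]
    field_simp
    ring
  rw [det_mul, det_mul, det_mul, abs_mul, abs_mul, abs_mul, hx4, hy4, ← det_eq_det_opMat, hdet,
    abs_of_pos (pow_pos hs0 _)] at h1
  have p1 := h.dens_pos x
  have p2 := h.dens_pos y
  rw [← hs]
  field_simp at h1
  linarith

/-- The logarithm shrinks volume by the factor of the space form. -/
theorem abs_det_fderiv_logv_le_sfac (h : IsCH G D) (hb : BendCH G D b) (x y : Fin n → ℝ) :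
    |(fderiv ℝ (Six.logv G D x) y).det| * dens G x * sfac b (D x y) ^ (n - 1) ≤ dens G y := by
  have h1 := abs_det_mixed_le_sfac h hb x y
  rw [← Six.abs_det_fderiv_logv h x y, ← Six.dens_mul_self h x] at h1
  refine le_of_mul_le_mul_right ?_ (h.dens_pos x)
  linarith

end Vale.Agent.P219.CH.Bend
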