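import Vale.Agent.P219.Bend.Pins

/-!
# P219: pins for the inequality up to `1 - 2 / n` in every dimension

The shifted averages take uniformly distributed levels, so the mean cost of a shift is at most
`∫₀¹ -log (t (1 - t)) = 2`.
-/

noncomputable section

open MeasureTheory ProbabilityTheory Set Filter Topology Matrix

namespace Vale.Agent.P219.CH.Bend

open Sharp

/-- The cost of a level with a small square added. -/
def ltau2 (τ η v : ℝ) : ℝ := ltau τ v + η * ltau τ v ^ 2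

/-- Near minimisers: the levels of the shifted averages are at most uniformly distributed. -/
def GoodShiftPinS (n : ℕ) : Prop :=
  2 ≤ n → ∀ (G : (Fin n → ℝ) → Matrix (Fin n) (Fin n) ℝ)
    (D : (Fin n → ℝ) → (Fin n → ℝ) → ℝ), IsCH G D →
    ∀ (o : Fin n → ℝ) (R P₀ v₀ M : ℝ) (Φ h : ℝ → ℝ) (q : ℕ) (η e : ℝ), 0 < R → 0 ≤ P₀ → 0 < v₀ →
      IsProfile Φ h → 0 ≤ M → 1 ≤ q → 0 ≤ η → η ≤ 1 → 0 < e →
    ∃ s₀ : ℝ, 0 < s₀ ∧ ∀ s, 0 < s → s < s₀ → ∃ δ₀ : ℝ, 0 < δ₀ ∧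
      ∀ u, NearMinP G D o R P₀ v₀ Φ M δ₀ u →
        ∫ y, avg G s (fun z => ltau2 (s ^ q) η (avg G s u z)) y ∂pm G u ≤
          (2 + 8 * η) * per G u + e

/-- The pointwise lower bounds and uniform levels give the entropy of a flat hypersurface up to
`2 - log 4` for each unit of perimeter. -/
def LowerPinS (n : ℕ) : Prop :=
  2 ≤ n → ∀ (G : (Fin n → ℝ) → Matrix (Fin n) (Fin n) ℝ)
    (D : (Fin n → ℝ) → (Fin n → ℝ) → ℝ), IsCH G D →
    ∀ (o : Fin n → ℝ) (R P₀ v₀ e : ℝ), 0 < R → 0 ≤ P₀ → 0 < v₀ → 0 < e →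
    ∃ η e₁ Rb s₂ : ℝ, 0 < η ∧ η ≤ 1 ∧ 0 < e₁ ∧ 1 ≤ Rb ∧ 0 < s₂ ∧
      ∀ s, 0 < s → s < s₂ → ∃ δ₁ : ℝ, 0 < δ₁ ∧
      ∀ u, Comp {y | D o y ≤ R} u → per G u ≤ P₀ → v₀ ≤ vol G u → gap G u ≤ δ₁ →
      ∫ y, avg G s (fun z => ltau2 (s ^ 1) η (avg G s u z)) y ∂pm G u ≤
          (2 + 8 * η) * per G u + e₁ →
      ∀ f, ContinuousOn f {y | D o y ≤ R} → (∀ y, D o y ≤ R →
          0 < (pm G u (qball G s Rb y)).toReal →
          crudeLower G D u s y ≤ f y ∧ termLower G u s Rb y ≤ f y) →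
      per G u * (((n : ℝ) - 1) * Real.log s + ((n : ℝ) - 1) / 2 * Real.log (2 * Real.pi)
          + (n : ℝ) / 2 + Real.log 4 - 2) - e ≤ ∫ y, f y ∂pm G u

/-- The inequality against every space form up to `1 - 2 / n`, in every dimension. -/
def GeneralisedCHUpTo : Prop :=
  ∀ n : ℕ, 2 ≤ n → ∀ (G : (Fin n → ℝ) → Matrix (Fin n) (Fin n) ℝ)
    (D : (Fin n → ℝ) → (Fin n → ℝ) → ℝ), IsCH G D → ∀ b : ℝ, 0 ≤ b → BendCH G D b →
    ∀ (Ω : Set (Fin n → ℝ)) (A : ℝ), MeasurableSet Ω → Bornology.IsBounded Ω →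
      PerimeterLE G Ω A →
      ∃ r, 0 ≤ r ∧ unitBall n * modelVol n b r = volG G Ω ∧
        (1 - 2 / (n : ℝ)) * (unitBall n * modelArea n b r) ≤ A

end Vale.Agent.P219.CH.Bend
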