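import Vale.Agent.P219.Bend.LowerSBall
import Vale.Agent.P219.Bend.SharpPins

/-!
# P219, uniform levels: integrating the pointwise lower bounds

The proof of `Sharp.lowerPin` keeping every constant: at most boundary points almost all Gaussian
shifts see at least `log 4` minus their level cost, and the small square of the cost pays for the
other points.
-/

noncomputable section

open MeasureTheory ProbabilityTheory Set Filter Topology Matrix
open scoped ENNReal NNReal Real RealInnerProductSpace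

namespace Vale.Agent.P219.CH.Bend

open Sharp

variable {n : ℕ} {G : (Fin n → ℝ) → Matrix (Fin n) (Fin n) ℝ}
  {D : (Fin n → ℝ) → (Fin n → ℝ) → ℝ}

/-- Mass near a shifted point is seen from that shift up to a factor `exp (θ / 2)`. -/
lemma shift_of_massS {K : Set (Fin n → ℝ)} {u : (Fin n → ℝ) → ℝ} {s ρ δ θ L M : ℝ}
    {y : Fin n → ℝ} {b : EuclideanSpace ℝ (Fin n)}
    (h : IsCH G D) (hK : IsCompact K) (hu : Comp K u) (hs : 0 < s) (hδ0 : 0 ≤ δ)
    (hδ : δ ≤ 1) (hδρ : δ * ρ ^ 2 ≤ θ) (hM : 0 < M) {Rb : ℝ}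
    (hRb : 2 * ‖b‖ ^ 2 + 4 * ρ ^ 2 ≤ Rb ^ 2)
    (hmass : M * Real.exp (-L) ≤ ∫ z in qball G s ρ (toFrame (frame G y) s y b),
      Real.exp (-(qf G (toFrame (frame G y) s y b) (z - toFrame (frame G y) s y b)
        / (2 * s ^ 2))) ∂pm G u)
    (hgeo : ∀ z ∈ qball G s ρ (toFrame (frame G y) s y b),
      qf G y (z - toFrame (frame G y) s y b) ≤
          (1 + δ) * qf G (toFrame (frame G y) s y b) (z - toFrame (frame G y) s y b) ∧
        D y z ≤ qf G y (z - y)) :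
    Real.log M - L - θ / 2 ≤ Real.log (shiftMass G u s Rb y b) := by
  refine log_mul_exp_le hM (hmass.trans ?_)
  rw [← inv_mul_le_iff₀ (Real.exp_pos _), ← Real.exp_neg, ← integral_const_mul]
  set z₀ := toFrame (frame G y) s y b
  have hi := integrable_exp_qf h hK hu s y z₀
  refine (setIntegral_mono_on ((integrable_exp_qf h hK hu s _ _).const_mul _).integrableOn
    hi.integrableOn (measurableSet_qball h _ _ _) fun z hz => ?_).trans
    (setIntegral_mono_set hi.integrableOn (Eventually.of_forall fun z => (Real.exp_pos _).le)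
      (LE.le.eventuallyLE fun z hz => (qf_ball_le h hδ hz (hgeo z hz).1).trans
        (mul_le_mul_of_nonneg_right hRb (sq_nonneg s))))
  rw [← Real.exp_add]
  refine Real.exp_le_exp.2 ?_
  have h3 : qf G z₀ (z - z₀) ≤ ρ ^ 2 * s ^ 2 := hz
  have h4 := mul_le_mul_of_nonneg_left h3 hδ0
  have h5 := mul_le_mul_of_nonneg_right hδρ (sq_nonneg s)
  have e : θ / 2 = θ * s ^ 2 / (2 * s ^ 2) := by field_simp
  rw [e, ← neg_add, ← add_div, neg_le_neg_iff, div_le_div_iff_of_pos_right (by positivity)]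
  linarith [(hgeo z hz).1]

/-- Squared norms on a small set. -/
lemma setIntegral_norm_sq_small {S : Set (EuclideanSpace ℝ (Fin n))} (hS : MeasurableSet S)
    {t : ℝ} (ht : 0 < t) :
    ∫ x in S, ‖x‖ ^ 2 / 2 ∂stdGaussian (EuclideanSpace ℝ (Fin n))
      ≤ t * (stdGaussian (EuclideanSpace ℝ (Fin n))).real S + 2 * Real.exp ((n : ℝ) / 2) / t := by
  set γ := stdGaussian (EuclideanSpace ℝ (Fin n))
  obtain ⟨hi, hle⟩ := Gauss.exp_quarter_moment (n := n)
  have i1 : Integrable (fun _ : EuclideanSpace ℝ (Fin n) => t) γ := integrable_const _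
  calc ∫ x in S, ‖x‖ ^ 2 / 2 ∂γ
      ≤ ∫ x in S, (t + 2 / t * Real.exp (‖x‖ ^ 2 / 4)) ∂γ := by
        refine setIntegral_mono_on (Gauss.integrable_norm_sq.div_const 2).integrableOn
          (i1.add (hi.const_mul _)).integrableOn hS fun x _ => ?_
        set a := ‖x‖ ^ 2 / 4
        have ha : 0 ≤ a := by positivity
        have h1 := Real.quadratic_le_exp_of_nonneg ha
        have h2 : a ^ 2 / t ≤ 2 / t * Real.exp a := by
          rw [div_mul_eq_mul_div, div_le_div_iff_of_pos_right ht]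
          linarith
        have h3 : 0 ≤ t + a ^ 2 / t - 2 * a := by
          rw [show t + a ^ 2 / t - 2 * a = (t - a) ^ 2 / t by field_simp; ring]
          positivity
        have e : ‖x‖ ^ 2 / 2 = 2 * a := by simp only [a]; ring
        linarith
    _ = γ.real S * t + 2 / t * ∫ x in S, Real.exp (‖x‖ ^ 2 / 4) ∂γ := by
        rw [integral_add i1.integrableOn (hi.const_mul _).integrableOn, setIntegral_const,
          smul_eq_mul, integral_const_mul]
    _ ≤ _ := by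
        have h1 : ∫ x in S, Real.exp (‖x‖ ^ 2 / 4) ∂γ ≤ Real.exp ((n : ℝ) / 2) :=
          (setIntegral_le_integral hi (Eventually.of_forall fun x => (Real.exp_pos _).le)).trans hle
        have h2 := mul_le_mul_of_nonneg_left h1 (by positivity : 0 ≤ 2 / t)
        rw [show 2 / t * Real.exp ((n : ℝ) / 2) = 2 * Real.exp ((n : ℝ) / 2) / t by ring] at h2
        linarith

/-- Symmetrisation: bad pairs of shifts cost little. -/
lemma symmetrisedS {S g : EuclideanSpace ℝ (Fin n) → ℝ}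
    {A : Set (EuclideanSpace ℝ (Fin n))} (hA : MeasurableSet A)
    (hS : Integrable S (stdGaussian (EuclideanSpace ℝ (Fin n))))
    (hg : Integrable g (stdGaussian (EuclideanSpace ℝ (Fin n)))) (hg0 : ∀ b, 0 ≤ g b)
    {a N0 Y t : ℝ} (ht : 0 < t)
    (hgood : ∀ b ∈ A, a - g b ≤ S b - ‖b‖ ^ 2 / 2 ∧ a - g (-b) ≤ S (-b) - ‖b‖ ^ 2 / 2)
    (hmid : ∀ b, 2 * N0 ≤ S b + S (-b)) (hN0 : a - Y ≤ N0) :
    a + n / 2 - (∫ b, g b ∂stdGaussian (EuclideanSpace ℝ (Fin n)))
        - (stdGaussian (EuclideanSpace ℝ (Fin n))).real Aᶜ * (t + Y)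
        - 2 * Real.exp ((n : ℝ) / 2) / t
      ≤ ∫ b, S b ∂stdGaussian (EuclideanSpace ℝ (Fin n)) := by
  set γ := stdGaussian (EuclideanSpace ℝ (Fin n))
  have hpt : ∀ b, 2 * a + ‖b‖ ^ 2 - (g b + g (-b))
      - Aᶜ.indicator (fun b => ‖b‖ ^ 2 + 2 * Y) b ≤ S b + S (-b) := by
    intro b
    by_cases hb : b ∈ A
    · rw [indicator_of_notMem (not_not_intro hb)]
      obtain ⟨h1, h2⟩ := hgood b hb
      linarith
    · rw [indicator_of_mem hb]
      linarith [hg0 b, hg0 (-b), hmid b]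
  have hgn : Integrable (fun b => g (-b)) γ :=
    measurePreserving_neg_gauss.integrable_comp_of_integrable hg
  have hSn : Integrable (fun b => S (-b)) γ :=
    measurePreserving_neg_gauss.integrable_comp_of_integrable hS
  have i1 : Integrable (fun b : EuclideanSpace ℝ (Fin n) => 2 * a + ‖b‖ ^ 2) γ :=
    (integrable_const _).add Gauss.integrable_norm_sq
  have i2 : Integrable (fun b => g b + g (-b)) γ := hg.add hgn
  have i3' : Integrable (fun b : EuclideanSpace ℝ (Fin n) => ‖b‖ ^ 2 + 2 * Y) γ :=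
    Gauss.integrable_norm_sq.add (integrable_const _)
  have i3 := i3'.indicator hA.compl
  have i12 : Integrable (fun b => 2 * a + ‖b‖ ^ 2 - (g b + g (-b))) γ := i1.sub i2
  have hint := integral_mono (i12.sub i3) (hS.add hSn) hpt
  simp only [Pi.sub_apply, Pi.add_apply] at hint
  rw [integral_sub i12 i3, integral_sub i1 i2, integral_add (integrable_const _)
    Gauss.integrable_norm_sq, integral_add hg hgn, integral_comp_neg_gauss g,
    integral_add hS hSn, integral_comp_neg_gauss S, integral_indicator hA.compl,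
    integral_add Gauss.integrable_norm_sq.integrableOn (integrable_const _).integrableOn,
    setIntegral_const, integral_const, Gauss.integral_norm_sq] at hint
  simp only [probReal_univ, smul_eq_mul] at hint
  have hsq := setIntegral_norm_sq_small (n := n) hA.compl ht
  rw [integral_div] at hsq
  linarith

/-- With few huge costs, the ball around a good shift is small. -/
lemma radiusS {s σ L Q b : ℝ} {n : ℕ} (hs : 0 < s) (hs1 : s ≤ 1) (hL0 : 0 ≤ L) (hQ : 0 ≤ Q)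
    (hL : L ≤ -Real.log s / 4 + 1) (hb0 : 0 ≤ b) (hb : b ^ 2 ≤ 8 * n) (hn : 1 ≤ (n : ℝ))
    (hsσ : s < (σ / (12 * n + 4 * Q + 16)) ^ 2) (hσ : 0 < σ) :
    (b + 4 * √(L + n / 2 + Q)) * s ≤ σ := by
  have h1 : b ≤ 8 * n := by nlinarith
  have h2 : √(L + n / 2 + Q) ≤ L + n / 2 + Q + 1 := by
    rw [Real.sqrt_le_left (by positivity)]; nlinarith
  have h4 : s ≤ √s := Real.le_sqrt_of_sq_le (by nlinarith)
  have h5 : √s ≤ σ / (12 * n + 4 * Q + 16) := (Real.sqrt_le_left (by positivity)).2 hsσ.le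
  rw [le_div_iff₀ (by positivity)] at h5
  calc (b + 4 * √(L + n / 2 + Q)) * s ≤ (12 * n + 4 * Q + 12 + -Real.log s) * s :=
        mul_le_mul_of_nonneg_right (by linarith) hs.le
    _ = (12 * n + 4 * Q + 12) * s + -Real.log s * s := by ring
    _ ≤ (12 * n + 4 * Q + 12) * √s + 2 * √s :=
        add_le_add (mul_le_mul_of_nonneg_left h4 (by positivity)) (sqrt_scale hs)
    _ ≤ σ := by linarith [Real.sqrt_nonneg s]

/-- The pointwise bound. -/
lemma pointwiseS {o : Fin n → ℝ} {R θ Q B Λ₀ t Ym Λ ρ δ σ s Λ₁ kinv fy : ℝ}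
    {u : (Fin n → ℝ) → ℝ} {y : Fin n → ℝ}
    (h : IsCH G D) (hn : 1 ≤ n) (hu : Comp {z | D o z ≤ R} u)
    (hpos : 0 < (pm G u).real (qball G s (3 * ρ) y))
    (hθ : 0 < θ) (hQ : 0 ≤ Q)
    (hB0 : 0 ≤ B) (hB : B = 97 * n + 130 + 128 * Q) (hΛ₀ : 1 ≤ Λ₀) (hΛ₀θ : 258 + B ≤ θ * Λ₀)
    (ht : 1 ≤ t) (htθ : 2 * Real.exp ((n : ℝ) / 2) / t ≤ θ)
    (hYm : Ym = 66 * Λ₀ + 24 * n + 33 + 32 * Q)
    (hΛ : 0 < Λ) (hΛL : 2 * Λ₀ + 1 ≤ Λ) (hΛθ : (2 * Λ₀ + 1) * (t + Ym) ≤ θ * Λ)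
    (hρ0 : 0 < ρ) (hρsq : ρ ^ 2 = 16 * (Λ + n / 2 + Q))
    (hδ : 0 < δ) (hδ1 : δ ≤ 1) (hδρ : δ * ρ ^ 2 ≤ θ) (hσ : 0 < σ)
    (hs : 0 < s) (hs1 : s ≤ 1) (hsσ : s < (σ / (12 * n + 4 * Q + 16)) ^ 2)
    (hsρ : s < σ / (2 * ρ))
    (hlogb : Real.log s ≤ -(128 / θ + 2 * Q + 2 * Λ + 6)) (hlog6 : Real.log s ≤ -6)
    (hlogC : Real.log s ≤ -|((n : ℝ) - 1) / 2 * Real.log (2 * π) + n / 2 + Real.log 4
      + Real.log Λ₁|)
    (hball : ∀ (b : EuclideanSpace ℝ (Fin n)) (r L : ℝ), 0 ≤ r → (‖b‖ + r) * s ≤ σ →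
      ltau s (avg G s u (toFrame (frame G y) s y b)) ≤ L → L ≤ -Real.log s / 2 →
      (n : ℝ) / 2 - r ^ 2 / 16 ≤ -(L + Q) →
      (√(2 * π) * s) ^ (n - 1) * (4 * Real.exp (-θ)) * Real.exp (-L) ≤
          ∫ z in qball G s r (toFrame (frame G y) s y b),
            Real.exp (-(qf G (toFrame (frame G y) s y b) (z - toFrame (frame G y) s y b)
              / (2 * s ^ 2))) ∂pm G u ∧
      ∀ z ∈ qball G s r (toFrame (frame G y) s y b),
        qf G y (z - toFrame (frame G y) s y b) ≤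
            (1 + δ) * qf G (toFrame (frame G y) s y b) (z - toFrame (frame G y) s y b) ∧
          D y z ≤ qf G y (z - y))
    (hkpos : 0 ≤ s ^ n / Λ₁ * kinv) (hΛ₁ : 0 < Λ₁) (hk0 : 0 < crudeMass G D u s y)
    (hkv : kinv = (crudeMass G D u s y)⁻¹)
    (hcr : Real.log (crudeMass G D u s y) ≤ fy) (htl : termLower G u s (3 * ρ) y ≤ fy) :
    ((n : ℝ) - 1) * Real.log s + ((n : ℝ) - 1) / 2 * Real.log (2 * π) + n / 2 + Real.log 4
        - 4 * θ - avg G s (fun z => ltau2 s θ (avg G s u z)) y - s ^ n / Λ₁ * kinv ≤ fy := by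
  set K := {z | D o z ≤ R}
  have hK : IsCompact K := h.proper o R
  have hn1 : (1 : ℝ) ≤ n := by exact_mod_cast hn
  have hs2 : s ≤ 1 / 2 := by
    calc s = Real.exp (Real.log s) := (Real.exp_log hs).symm
      _ ≤ Real.exp (-1) := Real.exp_le_exp.2 (by linarith)
      _ ≤ _ := by
          rw [Real.exp_neg, one_div]
          exact inv_anti₀ two_pos (by linarith [Real.add_one_le_exp (1 : ℝ)])
  set C₂ := ((n : ℝ) - 1) / 2 * Real.log (2 * π) + n / 2 + Real.log 4 + Real.log Λ₁ with hC₂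
  set T := ((n : ℝ) - 1) * Real.log s + ((n : ℝ) - 1) / 2 * Real.log (2 * π) + n / 2 with hT
  have hm0 : 0 < (√(2 * π) * s) ^ (n - 1) * (4 * Real.exp (-θ)) := by positivity
  have hT₀ : Real.log ((√(2 * π) * s) ^ (n - 1) * (4 * Real.exp (-θ)))
      = T + Real.log 4 - θ - n / 2 := by
    rw [Real.log_mul (by positivity) (by positivity), Real.log_pow,
      Real.log_mul (by positivity) hs.ne', Real.log_mul (by norm_num) (Real.exp_pos _).ne',
      Real.log_exp, Real.log_sqrt (by positivity),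
      Nat.cast_sub hn, Nat.cast_one, hT]
    ring
  have hgc := continuous_ltau_avg h hK hu hs hs
  have hU := avg_mem_Icc h hs hu.1.continuous hu.2.2
  have hgI : ∀ z, ltau s (avg G s u z) ∈ Icc 0 (-Real.log s) := fun z =>
    ⟨ltau_nonneg hs hs2 (hU z), ltau_le hs (hU z)⟩
  have h128 : 0 ≤ 128 / θ := by positivity
  obtain ⟨hAt, hA, -, hdet⟩ := frame_spec h y
  set gs := fun b => (ltau s (avg G s u (toFrame (frame G y) s y b))) with hgs
  have hgsc : Continuous gs := hgc.comp (by unfold toFrame; fun_prop)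
  have hgs0 : ∀ b, 0 ≤ gs b := fun b => (hgI _).1
  have hgsi : Integrable gs (stdGaussian (EuclideanSpace ℝ (Fin n))) :=
    Integrable.of_bound hgsc.aestronglyMeasurable (-Real.log s)
      (Eventually.of_forall fun b => by rw [Real.norm_of_nonneg (hgs0 b)]; exact (hgI _).2)
  have hgsi2 : Integrable (fun b => gs b ^ 2) (stdGaussian (EuclideanSpace ℝ (Fin n))) :=
    Integrable.of_bound (hgsc.pow 2).aestronglyMeasurable ((-Real.log s) ^ 2)
      (Eventually.of_forall fun b => by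
        rw [Real.norm_of_nonneg (sq_nonneg _)]
        exact pow_le_pow_left₀ (hgs0 b) (hgI _).2 2)
  obtain ⟨Φv, hΦv⟩ : ∃ Φv, Φv = avg G s (fun z => ltau2 s θ (avg G s u z)) y := ⟨_, rfl⟩
  rw [← hΦv]
  obtain ⟨Φ, hΦ⟩ : ∃ Φ, Φ = ∫ b, gs b ∂stdGaussian (EuclideanSpace ℝ (Fin n)) := ⟨_, rfl⟩
  have hΦ0 : 0 ≤ Φ := hΦ ▸ integral_nonneg hgs0
  have hΦle : Φ + θ * Φ ^ 2 ≤ Φv := by
    have e1 : Φv = ∫ b, (gs b + θ * gs b ^ 2) ∂stdGaussian (EuclideanSpace ℝ (Fin n)) :=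
      hΦv.trans (integral_toFrame h hs hAt hA hdet
      (fun z => ltau2 s θ (avg G s u z))).symm
    rw [e1, integral_add hgsi (hgsi2.const_mul θ), integral_const_mul, ← hΦ]
    have h2 := integral_mono ((hgsi.const_mul (2 * Φ)).sub (integrable_const (Φ ^ 2))) hgsi2
      fun b => by
        show 2 * Φ * gs b - Φ ^ 2 ≤ gs b ^ 2
        linarith [sq_nonneg (gs b - Φ)]
    simp only [Pi.sub_apply] at h2
    rw [integral_sub (hgsi.const_mul (2 * Φ)) (integrable_const (Φ ^ 2)), integral_const_mul,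
      integral_const, probReal_univ, one_smul, ← hΦ] at h2
    exact add_le_add le_rfl (mul_le_mul_of_nonneg_left (by linarith) hθ.le)
  have hθΦ : 0 ≤ θ * Φ ^ 2 := by positivity
  rcases lt_or_ge (-Real.log s / 8) Φ with hhuge | hmid
  · have h1 := log_crude_ge n hs hΛ₁ hk0
    rw [← hkv] at h1
    have hC : C₂ ≤ |C₂| := le_abs_self _
    have h2 : 2 * -Real.log s ≤ θ * Φ ^ 2 := by
      have h3 : 128 / θ ≤ -Real.log s := by linarith
      rw [div_le_iff₀ hθ] at h3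
      have h4 : 16 ≤ θ * Φ := by
        have := mul_le_mul_of_nonneg_left hhuge.le hθ.le
        linarith
      have h5 := mul_le_mul_of_nonneg_right h4 hΦ0
      linarith
    linarith only [h1, hC, hC₂, h2, hhuge, hlogC, hΦle, hΦ0, hcr, hT, hθ]
  obtain ⟨b₀, hb₀, hg₀⟩ := exists_good_shift (by omega) hgs0 hgsi
  rw [← hΦ] at hg₀
  have hLq : 2 * Φ + 1 ≤ -Real.log s / 2 := by linarith
  obtain ⟨ρ₀, hρ₀0, hρ₀, hρ₀sq⟩ : ∃ ρ₀ : ℝ, 0 ≤ ρ₀ ∧ (‖b₀‖ + ρ₀) * s ≤ σ ∧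
      ρ₀ ^ 2 = 16 * (2 * Φ + 1 + n / 2 + Q) :=
    ⟨4 * √(2 * Φ + 1 + n / 2 + Q), by positivity,
      radiusS hs hs1 (by linarith) hQ (by linarith) (norm_nonneg _) hb₀ hn1 hsσ hσ,
      by rw [mul_pow, Real.sq_sqrt (by positivity)]; norm_num⟩
  obtain ⟨hmass, hgeo⟩ := hball b₀ ρ₀ (2 * Φ + 1) hρ₀0 hρ₀ hg₀ hLq
    (by rw [hρ₀sq]; linarith)
  rcases lt_or_ge Λ₀ Φ with hbig | hsmall
  · have h2 := crude_of_mass h hK hu hs hδ1 hm0 hmass hgeo
    rw [hT₀, hρ₀sq] at h2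
    have h3 : 258 * Φ + B ≤ θ * Φ ^ 2 := by
      have h4 := mul_le_mul_of_nonneg_right
        (hΛ₀θ.trans (mul_le_mul_of_nonneg_left hbig.le hθ.le)) hΦ0
      have h5 := le_mul_of_one_le_right hB0 (hΛ₀.trans hbig.le)
      linarith
    linarith only [h2, h3, hB, hb₀, hcr, hΦle, hΦ0, hkpos, hθ, hQ, hn1]
  · have hρ₀ρ : ρ₀ ^ 2 ≤ ρ ^ 2 := by rw [hρ₀sq, hρsq]; linarith
    have hb₀ρ : ‖b₀‖ ^ 2 ≤ ρ ^ 2 := by rw [hρsq]; linarith
    have hN0 := centre_of_mass h hK hu hs hδ1 hm0 (Rb := 3 * ρ)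
      (by clear * - hρ₀ρ hb₀ρ; nlinarith) hmass hgeo
    rw [hT₀, hρ₀sq] at hN0
    set A := {b : EuclideanSpace ℝ (Fin n) | gs b ≤ Λ ∧ gs (-b) ≤ Λ ∧ ‖b‖ ≤ ρ}
    have hAm : MeasurableSet A :=
      ((isClosed_le hgsc continuous_const).inter ((isClosed_le (hgsc.comp continuous_neg)
        continuous_const).inter (isClosed_le continuous_norm continuous_const))).measurableSet
    have hgood1 : ∀ b, gs b ≤ Λ → ‖b‖ ≤ ρ → T + Real.log 4 - 2 * θ - n / 2 - gs b ≤
        Real.log (shiftMass G u s (3 * ρ) y b) := by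
      intro b hb hbn
      have hσb : (‖b‖ + ρ) * s ≤ σ := by
        rw [lt_div_iff₀ (by positivity)] at hsρ
        clear * - hsρ hbn hs
        nlinarith
      obtain ⟨hmb, hgb⟩ := hball b ρ (gs b) hρ0.le hσb le_rfl
        (by linarith) (by rw [hρsq]; linarith)
      have := shift_of_massS h hK hu hs hδ.le hδ1 hδρ hm0 (Rb := 3 * ρ)
        (by
          have := pow_le_pow_left₀ (norm_nonneg b) hbn 2
          clear * - this hρ0
          nlinarith) hmb hgb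
      rw [hT₀] at this
      linarith
    have hmain := symmetrisedS (S := fun b => ‖b‖ ^ 2 / 2
        + Real.log (shiftMass G u s (3 * ρ) y b)) hAm
      (integrable_termLower h hK hu hs (3 * ρ) y hpos) hgsi hgs0
      (a := T + Real.log 4 - 2 * θ - n / 2) (N0 := Real.log (shiftMass G u s (3 * ρ) y 0))
      (Y := Ym) (by linarith : (0 : ℝ) < t)
      (fun b hb => ⟨by linarith [hgood1 b hb.1 hb.2.2], by
        have := hgood1 (-b) hb.2.1 (by rw [norm_neg]; exact hb.2.2)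
        rw [norm_neg]
        linarith⟩)
      (shift_midpoint h hK hu hs (3 * ρ) y hpos) (by linarith)
    have hp := prob_bad_le hgs0 hgsi hΛ hρ0.le (by rw [hρsq]; linarith)
    rw [← hΦ] at hmain hp
    have htl' : ∫ b, (‖b‖ ^ 2 / 2 + Real.log (shiftMass G u s (3 * ρ) y b))
        ∂stdGaussian (EuclideanSpace ℝ (Fin n)) ≤ fy := htl
    set p := (stdGaussian (EuclideanSpace ℝ (Fin n))).real Aᶜ
    have hpθ : p * (t + Ym) ≤ θ := by
      refine le_of_mul_le_mul_left ?_ hΛ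
      calc Λ * (p * (t + Ym)) = Λ * p * (t + Ym) := by ring
        _ ≤ (2 * Λ₀ + 1) * (t + Ym) :=
            mul_le_mul_of_nonneg_right (by linarith) (by linarith)
        _ ≤ θ * Λ := hΛθ
        _ = Λ * θ := mul_comm _ _
    linarith only [hmain, htl', hpθ, htθ, hΦle, hθΦ, hkpos]

/-- The pointwise lower bounds and uniform levels give the entropy of a flat hypersurface up to
`2 - log 4` for each unit of perimeter. -/
theorem lowerPinS (n : ℕ) : LowerPinS n := by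
  intro hn G D h o R P₀ v₀ e _ hP₀ _ he
  set K := {y | D o y ≤ R}
  have hK : IsCompact K := h.proper o R
  have hn1 : (1 : ℝ) ≤ n := by exact_mod_cast (by omega : 1 ≤ n)
  obtain ⟨θ, hθ, hθ1, hθP⟩ : ∃ θ : ℝ, 0 < θ ∧ θ ≤ 1 ∧ 12 * θ * P₀ ≤ e / 4 :=
    ⟨min 1 (e / (48 * (P₀ + 1))), lt_min one_pos (by positivity), min_le_left _ _, by
      have h1 := min_le_right (1 : ℝ) (e / (48 * (P₀ + 1)))
      rw [le_div_iff₀ (by positivity)] at h1
      have h2 : 0 ≤ min (1 : ℝ) (e / (48 * (P₀ + 1))) := by positivity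
      linarith⟩
  obtain ⟨Q, hQ, hQθ⟩ : ∃ Q : ℝ, 0 ≤ Q ∧ 3 * Real.exp (-Q) ≤ θ / 4 :=
    ⟨12 / θ, by positivity, by
      have h1 : Real.exp (-(12 / θ)) ≤ (12 / θ)⁻¹ := by
        rw [Real.exp_neg]
        exact inv_anti₀ (by positivity) (by linarith [Real.add_one_le_exp (12 / θ)])
      rw [inv_div] at h1
      linarith⟩
  obtain ⟨B, hB0, hB⟩ : ∃ B : ℝ, 0 ≤ B ∧ B = 97 * n + 130 + 128 * Q := ⟨_, by positivity, rfl⟩
  obtain ⟨Λ₀, hΛ₀, hΛ₀θ⟩ : ∃ Λ₀ : ℝ, 1 ≤ Λ₀ ∧ 258 + B ≤ θ * Λ₀ :=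
    ⟨(258 + B) / θ, by rw [le_div_iff₀ hθ]; linarith, (mul_div_cancel₀ _ hθ.ne').ge⟩
  obtain ⟨t, ht, htθ⟩ : ∃ t : ℝ, 1 ≤ t ∧ 2 * Real.exp ((n : ℝ) / 2) / t ≤ θ :=
    ⟨2 * Real.exp ((n : ℝ) / 2) / θ, by
      rw [le_div_iff₀ hθ]
      linarith [Real.one_le_exp (by positivity : (0 : ℝ) ≤ (n : ℝ) / 2)],
      by rw [div_le_iff₀ (by positivity), mul_div_cancel₀ _ hθ.ne']⟩
  obtain ⟨Ym, hYm0, hYm⟩ : ∃ Ym : ℝ, 0 ≤ Ym ∧ Ym = 66 * Λ₀ + 24 * n + 33 + 32 * Q :=
    ⟨_, by positivity, rfl⟩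
  obtain ⟨Λ, hΛ, hΛL, hΛθ⟩ : ∃ Λ : ℝ, 0 < Λ ∧ 2 * Λ₀ + 1 ≤ Λ ∧
      (2 * Λ₀ + 1) * (t + Ym) ≤ θ * Λ :=
    ⟨(2 * Λ₀ + 1) * ((t + Ym) / θ), by positivity,
      le_mul_of_one_le_right (by positivity) (by rw [le_div_iff₀ hθ]; linarith),
      le_of_eq (by field_simp)⟩
  obtain ⟨ρ, hρ0, hρsq⟩ : ∃ ρ : ℝ, 0 < ρ ∧ ρ ^ 2 = 16 * (Λ + n / 2 + Q) :=
    ⟨4 * √(Λ + n / 2 + Q), by positivity, by
      rw [mul_pow, Real.sq_sqrt (by positivity)]; norm_num⟩
  obtain ⟨δ, hδ, hδθ, hδρ⟩ : ∃ δ : ℝ, 0 < δ ∧ δ ≤ θ / 4 ∧ δ * ρ ^ 2 ≤ θ :=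
    ⟨min (θ / 4) (θ / ρ ^ 2), lt_min (by positivity) (by positivity), min_le_left _ _, by
      rw [← le_div_iff₀ (by positivity)]; exact min_le_right _ _⟩
  have hδ1 : δ ≤ 1 := by linarith
  obtain ⟨σ, hσ, hball⟩ := shift_ballS h o R (by omega) hθ hθ1 hδ hδθ hQθ
  obtain ⟨C₁, σ₂, hC₁, hσ₂, hinv⟩ := lintegral_inv_crudeMass_le h o R
  obtain ⟨Λ₁, hΛ₁, hΛ₁e⟩ : ∃ Λ₁ : ℝ, 0 < Λ₁ ∧ C₁ / Λ₁ ≤ e / 4 :=
    ⟨C₁ / (e / 4) + 1, by positivity, by
      rw [div_le_iff₀ (by positivity), mul_add, mul_one, mul_div_cancel₀ _ (by positivity)]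
      linarith⟩
  set C₂ := ((n : ℝ) - 1) / 2 * Real.log (2 * π) + n / 2 + Real.log 4 + Real.log Λ₁ with hC₂
  refine ⟨θ, e / 8, 3 * ρ, min (min (Real.exp (-(128 / θ + 2 * Q + 2 * Λ + 6)))
      (Real.exp (-|C₂|))) (min σ₂ (min ((σ / (12 * n + 4 * Q + 16)) ^ 2) (σ / (2 * ρ)))),
    hθ, hθ1, by positivity, by nlinarith,
    lt_min (lt_min (Real.exp_pos _) (Real.exp_pos _))
      (lt_min hσ₂ (lt_min (by positivity) (by positivity))), fun s hs hs₂ => ?_⟩
  simp only [lt_min_iff] at hs₂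
  obtain ⟨⟨hsb, hsC⟩, hsσ₂, hsσ, hsρ⟩ := hs₂
  have hlog := fun {a : ℝ} (hh : s < Real.exp a) =>
    (Real.log_exp a) ▸ Real.log_le_log hs hh.le
  have hlogC : Real.log s ≤ -|C₂| := hlog hsC
  have hlogb : Real.log s ≤ -(128 / θ + 2 * Q + 2 * Λ + 6) := hlog hsb
  clear hlog
  have h128 : 0 ≤ 128 / θ := by positivity
  have hlog6 : Real.log s ≤ -6 := by linarith
  obtain ⟨δ₁, hδ₁, hball⟩ := hball s hs (by linarith)
  refine ⟨δ₁, hδ₁, fun u hu hper _ hgap hgood f hf hlow => ?_⟩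
  rw [pow_one] at hgood
  have := isFiniteMeasure_pm h hK hu
  have hs1 : s ≤ 1 := by
    rw [← Real.exp_log hs]; exact Real.exp_le_one_iff.2 (by linarith)
  have hs2 : s ≤ 1 / 2 := by
    calc s = Real.exp (Real.log s) := (Real.exp_log hs).symm
      _ ≤ Real.exp (-1) := Real.exp_le_exp.2 (by linarith)
      _ ≤ _ := by
          rw [Real.exp_neg, one_div]
          exact inv_anti₀ two_pos (by linarith [Real.add_one_le_exp (1 : ℝ)])
  have hgc := continuous_ltau_avg h hK hu hs hs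
  have hU := avg_mem_Icc h hs hu.1.continuous hu.2.2
  have hgI : ∀ z, ltau s (avg G s u z) ∈ Icc 0 (-Real.log s) := fun z =>
    ⟨ltau_nonneg hs hs2 (hU z), ltau_le hs (hU z)⟩
  set g := fun z => ltau s (avg G s u z) with hg
  set g2 := fun z => g z + θ * g z ^ 2 with hg2
  have hg2c : Continuous g2 := hgc.add ((hgc.pow 2).const_mul θ)
  set L := -Real.log s + θ * (-Real.log s) ^ 2
  have hg2I : ∀ z, g2 z ∈ Icc 0 L := fun z => by
    have h1 : 0 ≤ g z := (hgI z).1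
    have h2 : g z ≤ -Real.log s := (hgI z).2
    exact ⟨by positivity, add_le_add h2 (mul_le_mul_of_nonneg_left
      (pow_le_pow_left₀ h1 h2 2) hθ.le)⟩
  set Φ2 := avg G s g2 with hΦ2
  have hΦ2I : ∀ y, Φ2 y ∈ Icc 0 L := avg_mem_Icc h hs hg2c hg2I
  have hΦm : Measurable Φ2 := by
    have hc : Continuous (Function.uncurry fun y z : Fin n → ℝ => g2 z * ker G s y z) :=
      (hg2c.comp continuous_snd).mul (continuous_ker h s)
    exact (hc.stronglyMeasurable.integral_prod_right (ν := volume)).measurable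
  have hΦi : Integrable Φ2 (pm G u) :=
    Integrable.of_bound hΦm.aestronglyMeasurable L
      (Eventually.of_forall fun y => by rw [Real.norm_of_nonneg (hΦ2I y).1]; exact (hΦ2I y).2)
  have hgood' : ∫ y, Φ2 y ∂pm G u ≤ (2 + 8 * θ) * per G u + e / 8 := hgood
  set T := ((n : ℝ) - 1) * Real.log s + ((n : ℝ) - 1) / 2 * Real.log (2 * π) + n / 2 with hT
  have hm0 : 0 < (√(2 * π) * s) ^ (n - 1) * (4 * Real.exp (-θ)) := by positivity
  have hT₀ : Real.log ((√(2 * π) * s) ^ (n - 1) * (4 * Real.exp (-θ)))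
      = T + Real.log 4 - θ - n / 2 := by
    rw [Real.log_mul (by positivity) (by positivity), Real.log_pow,
      Real.log_mul (by positivity) hs.ne', Real.log_mul (by norm_num) (Real.exp_pos _).ne',
      Real.log_exp, Real.log_sqrt (by positivity),
      Nat.cast_sub (by omega : 1 ≤ n), Nat.cast_one, hT]
    ring
  have hkm : AEMeasurable (fun y => (ENNReal.ofReal (crudeMass G D u s y))⁻¹) (pm G u) :=
    (measurable_crudeMass h hK hu s).ennreal_ofReal.inv.aemeasurable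
  have hkle := hinv s hs hsσ₂ u hu
  have hkne : ∫⁻ y, (ENNReal.ofReal (crudeMass G D u s y))⁻¹ ∂pm G u ≠ ⊤ :=
    (hkle.trans_lt ENNReal.ofReal_lt_top).ne
  have hklt := ae_lt_top' hkm hkne
  set kinv := fun y => ((ENNReal.ofReal (crudeMass G D u s y))⁻¹).toReal
  have hki : Integrable kinv (pm G u) := integrable_toReal_of_lintegral_ne_top hkm hkne
  have hkint : ∫ y, kinv y ∂pm G u ≤ C₁ / s ^ n := by
    simp only [kinv]
    rw [integral_toReal hkm hklt]
    exact ENNReal.toReal_le_of_le_ofReal (by positivity) hkle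
  have hkey : ∀ᵐ y ∂pm G u, (T + Real.log 4 - 4 * θ) - Φ2 y
      - s ^ n / Λ₁ * kinv y ≤ f y := by
    filter_upwards [ae_mem_pm h hK hu, ae_qball_pos h hK hu hs (by positivity : (0 : ℝ) < 3 * ρ),
      hklt] with y hyK hpos hyk
    obtain ⟨hcr, htl⟩ := hlow y hyK hpos
    have hk0 : 0 < crudeMass G D u s y := by
      have := ENNReal.inv_lt_top.1 hyk
      rwa [ENNReal.ofReal_pos] at this
    have hkv : kinv y = (crudeMass G D u s y)⁻¹ := by
      simp only [kinv]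
      rw [← ENNReal.ofReal_inv_of_pos hk0, ENNReal.toReal_ofReal (inv_pos.2 hk0).le]
    have hkpos : 0 ≤ s ^ n / Λ₁ * kinv y :=
      mul_nonneg (by positivity) ENNReal.toReal_nonneg
    rw [crudeLower_eq] at hcr
    exact pointwiseS h (by omega) hu hpos hθ hQ hB0 hB hΛ₀ hΛ₀θ ht htθ hYm hΛ hΛL
      hΛθ hρ0 hρsq hδ hδ1 hδρ hσ hs hs1 hsσ hsρ hlogb hlog6 hlogC (hball u hu hgap y hyK) hkpos
      hΛ₁ hk0 hkv hcr htl
  have hfi : Integrable f (pm G u) := integrable_pm_of_continuous h hK hu hf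
  have j2 : Integrable (fun y => s ^ n / Λ₁ * kinv y) (pm G u) := hki.const_mul _
  have j0 : Integrable (fun _ : Fin n → ℝ => T + Real.log 4 - 4 * θ) (pm G u) := integrable_const _
  have j01 : Integrable (fun y => T + Real.log 4 - 4 * θ - Φ2 y) (pm G u) := j0.sub hΦi
  have hmain := integral_mono_ae (j01.sub j2) hfi hkey
  simp only [Pi.sub_apply] at hmain
  rw [integral_sub j01 j2, integral_sub j0 hΦi, integral_const, smul_eq_mul,
    integral_const_mul] at hmain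
  rw [show (pm G u).real univ = per G u from pm_univ h hK hu] at hmain
  have hk2 : s ^ n / Λ₁ * (∫ y, kinv y ∂pm G u) ≤ e / 4 := by
    refine (mul_le_mul_of_nonneg_left hkint (by positivity)).trans (le_trans (le_of_eq ?_) hΛ₁e)
    field_simp
  have hθp : 12 * θ * per G u ≤ e / 4 :=
    (mul_le_mul_of_nonneg_left hper (by positivity)).trans hθP
  linarith

end Vale.Agent.P219.CH.Bend
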