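import Vale.Agent.P219.Sharp.Lower

/-!
# P219, uniform levels: a middle level at a shifted point gives the flat mass near that point

As `Sharp.shift_ball`, with the sharp factor `4` kept.
-/

noncomputable section

open MeasureTheory ProbabilityTheory Set Filter Topology Matrix
open scoped ENNReal NNReal Real RealInnerProductSpace

namespace Vale.Agent.P219.CH.Bend

open Sharp

variable {n : ℕ} {G : (Fin n → ℝ) → Matrix (Fin n) (Fin n) ℝ}
  {D : (Fin n → ℝ) → (Fin n → ℝ) → ℝ}

/-- A middle level at the shifted point `z₀` gives the mass of a flat hypersurface around `z₀`. -/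
theorem shift_ballS (h : IsCH G D) (o : Fin n → ℝ) (R : ℝ) (hn : 1 ≤ n) {θ δ Q : ℝ} (hθ : 0 < θ)
    (hθ1 : θ ≤ 1) (hδ : 0 < δ) (hδθ : δ ≤ θ / 4) (hQθ : 3 * Real.exp (-Q) ≤ θ / 4) :
    ∃ σ : ℝ, 0 < σ ∧ ∀ s, 0 < s → Real.log s ≤ -(2 * Q) → ∃ δ₁ : ℝ, 0 < δ₁ ∧
      ∀ u, Comp {y | D o y ≤ R} u → gap G u ≤ δ₁ → ∀ y, D o y ≤ R →
      ∀ (b : EuclideanSpace ℝ (Fin n)) (ρ L : ℝ), 0 ≤ ρ → (‖b‖ + ρ) * s ≤ σ →
        ltau s (avg G s u (toFrame (frame G y) s y b)) ≤ L →
        L ≤ -Real.log s / 2 → (n : ℝ) / 2 - ρ ^ 2 / 16 ≤ -(L + Q) →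
        (√(2 * π) * s) ^ (n - 1) * (4 * Real.exp (-θ)) * Real.exp (-L) ≤
            ∫ z in qball G s ρ (toFrame (frame G y) s y b),
              Real.exp (-(qf G (toFrame (frame G y) s y b) (z - toFrame (frame G y) s y b)
                / (2 * s ^ 2))) ∂pm G u ∧
        ∀ z ∈ qball G s ρ (toFrame (frame G y) s y b),
          qf G y (z - toFrame (frame G y) s y b) ≤
              (1 + δ) * qf G (toFrame (frame G y) s y b) (z - toFrame (frame G y) s y b) ∧
            D y z ≤ qf G y (z - y) := by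
  have hδ1 : δ ≤ 1 := by linarith
  set K := {y | D o y ≤ R}
  have hK : IsCompact K := h.proper o R
  obtain ⟨B, hB⟩ := hK.isBounded.subset_closedBall (0 : Fin n → ℝ)
  set K₁ := Metric.closedBall (0 : Fin n → ℝ) (B + 1)
  have hK₁ : IsCompact K₁ := isCompact_closedBall _ _
  set f : (Fin n → ℝ) × (Fin n → ℝ) → ℝ := fun p => conorm G p.1 p.2 * dens G p.1
  have hf : Continuous f :=
    (continuous_conorm h).mul ((continuous_dens h).comp continuous_fst)
  have hfs : ∀ y v (a : ℝ), 0 ≤ a → f (y, a • v) = a * f (y, v) := fun y v a ha => by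
    simp [f, conorm_smul h, abs_of_nonneg ha, mul_assoc]
  have hfp : ∀ y v, v ≠ 0 → 0 < f (y, v) := fun y v hv =>
    mul_pos (Real.sqrt_pos.2 (pairing_pos h y hv)) (dens_pos h y)
  obtain ⟨ρ1, hρ1, -, hmodf⟩ := exists_modulus hK₁ hf (c := 1)
    (fun y v a ha => by rw [Real.rpow_one]; exact hfs y v a ha) one_pos hfp hδ
  obtain ⟨ρ2, hρ2, -, hmodq⟩ := exists_modulus hK₁ (continuous_qf h) (c := 2)
    (fun y v a _ => by rw [Real.rpow_two]; exact qf_smul y v a) two_pos
    (fun y v hv => qf_pos h y hv) hδ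
  obtain ⟨ρ3, hρ3, hD⟩ := D_upper h hK (δ := 1) one_pos
  obtain ⟨CA, hCA, hCAb⟩ := exists_comparison hK₁ (f := fun p : (Fin n → ℝ) × (Fin n → ℝ) => ‖p.2‖)
    (g := fun p => √(qf G p.1 p.2)) (continuous_norm.comp continuous_snd)
    (Real.continuous_sqrt.comp (continuous_qf h))
    (fun y v a ha => by simp [norm_smul, abs_of_nonneg ha])
    (fun y v a ha => by simp [qf_smul, Real.sqrt_mul (sq_nonneg a), Real.sqrt_sq ha])
    (fun y _ v hv => Real.sqrt_pos.2 (qf_pos h y hv))
  obtain ⟨dM, hdM⟩ := hK₁.exists_bound_of_continuousOn (continuous_dens h).continuousOn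
  obtain ⟨dm, hdm, hdmb⟩ := hK.exists_forall_le' (continuous_dens h).continuousOn
    fun y _ => dens_pos h y
  set ρm := min (min ρ1 ρ2) (min ρ3 1)
  have hρm : 0 < ρm := lt_min (lt_min hρ1 hρ2) (lt_min hρ3 one_pos)
  refine ⟨ρm / CA, by positivity, fun s hs hsQ => ?_⟩
  set m := √(2 * π) * s with hm_def
  have hm : 0 < m := by positivity
  set Kk := (|dM| + 1) / m ^ n / dm with hKk
  have hKk0 : 0 < Kk := by positivity
  refine ⟨s / Kk, by positivity, fun u hu hgap y hy b ρ L hρ hσ hL hLq hρL => ?_⟩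
  set z₀ := toFrame (frame G y) s y b with hz₀
  rw [le_div_iff₀ hCA] at hσ
  have hyK : y ∈ K := hy
  have hyB := hB hyK
  rw [mem_closedBall_zero_iff] at hyB
  have hy₁ : y ∈ K₁ := mem_closedBall_zero_iff.2 (by linarith)
  have hm1 : ρm ≤ 1 := (min_le_right _ _).trans (min_le_right _ _)
  have hb0 : ‖z₀ - y‖ ≤ ‖b‖ * s * CA := by
    refine (hCAb y hy₁ _).trans (le_of_eq ?_)
    simp only [hz₀]
    rw [qf_toFrame_sub h, ← mul_pow, Real.sqrt_sq (by positivity)]
    ring
  have hbρ : 0 ≤ ρ * s * CA := by positivity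
  have hz₁ : z₀ ∈ K₁ := by
    rw [mem_closedBall_zero_iff]
    have := norm_le_norm_add_norm_sub' z₀ y
    linarith
  set S := qball G s ρ z₀ with hS_def
  have hS : MeasurableSet S := measurableSet_qball h s ρ z₀
  have hnear : ∀ z ∈ S, ‖z - z₀‖ ≤ ρ * s * CA := fun z hz => by
    refine (hCAb z₀ hz₁ _).trans ?_
    simp only
    rw [mul_comm CA]
    refine mul_le_mul_of_nonneg_right ?_ hCA.le
    rw [Real.sqrt_le_left (by positivity), mul_pow]
    exact hz
  refine ⟨?_, fun z hz => ⟨?_, ?_⟩⟩
  swap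
  · exact (hmodq y hy₁ z₀ (hb0.trans ((by linarith : ‖b‖ * s * CA ≤ ρm).trans
      ((min_le_left _ _).trans (min_le_right _ _)))) (z - z₀)).1
  swap
  · have h2 : ‖z - y‖ ≤ ρ3 := by
      have := norm_sub_le_norm_sub_add_norm_sub z z₀ y
      have := hnear z hz
      have h3 : ρm ≤ ρ3 := (min_le_right _ _).trans (min_le_left _ _)
      linarith
    have h4 := hD y hyK (z - y) h2
    rw [add_sub_cancel] at h4
    linarith
  obtain ⟨hAt, hA, hAA, hdet⟩ := frame_spec h z₀
  set A := frame G z₀
  set T := toFrame A s z₀ with hT_def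
  have hT : ContDiff ℝ 1 T := by
    let L₀ : EuclideanSpace ℝ (Fin n) →L[ℝ] (Fin n → ℝ) := LinearMap.toContinuousLinearMap
      ((s • (toLin' A)).comp (WithLp.linearEquiv 2 ℝ (Fin n → ℝ)).toLinearMap)
    have e : T = fun z => z₀ + L₀ z := by funext z; simp [T, L₀, toFrame]
    rw [e]
    exact contDiff_const.add L₀.contDiff
  set g := fun z => conorm G z₀ (cd u z)
  have hgc : Continuous g :=
    (continuous_conorm h).comp (continuous_const.prodMk (continuous_cd hu.1))
  have hgs : HasCompactSupport g :=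
    HasCompactSupport.intro hK fun z hz => by simp [g, cd_eq_zero hu hz, conorm, pairing]
  obtain ⟨Cg, hCg⟩ := hgc.bounded_above_of_compact_support hgs
  have hd := norm_fderiv_toFrame h hs hAt hAA (x := z₀) hu.1
  have h1 := Gauss.gradient_mean_ge_local (f := fun w => u (T w)) (hu.1.comp hT)
    (fun w => hu.2.2 _) ρ
    (Integrable.of_bound ((hu.1.comp hT).continuous_fderiv one_ne_zero).norm.aestronglyMeasurable
      (s * Cg) (Eventually.of_forall fun w => by
        rw [norm_norm, hd w]
        exact mul_le_mul_of_nonneg_left ((le_abs_self _).trans (hCg _)) hs.le))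
  have e1 : ∫ w in {w : EuclideanSpace ℝ (Fin n) | ‖w‖ ≤ ρ},
      ‖fderiv ℝ (fun w => u (T w)) w‖ ∂stdGaussian (EuclideanSpace ℝ (Fin n))
      = s * avg G s (S.indicator g) z₀ := by
    rw [← integral_toFrame h hs hAt hA hdet, ← integral_const_mul,
      ← integral_indicator (measurableSet_le measurable_norm measurable_const)]
    refine integral_congr_ae (Eventually.of_forall fun w => ?_)
    have hmem : T w ∈ S ↔ ‖w‖ ≤ ρ := by
      show qf G z₀ (T w - z₀) ≤ ρ ^ 2 * s ^ 2 ↔ _
      simp only [T, A]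
      rw [qf_toFrame_sub h, mul_comm, mul_le_mul_iff_left₀ (by positivity),
        pow_le_pow_iff_left₀ (norm_nonneg _) hρ two_ne_zero]
    by_cases hw : ‖w‖ ≤ ρ
    · have := hmem.2 hw
      beta_reduce
      rw [indicator_of_mem (by exact hw), indicator_of_mem this, hd w]
    · have := mt hmem.1 hw
      beta_reduce
      rw [indicator_of_notMem (by exact hw), indicator_of_notMem this, mul_zero]
  have hμ : ∫ w, u (T w) ∂stdGaussian (EuclideanSpace ℝ (Fin n)) = avg G s u z₀ :=
    integral_toFrame h hs hAt hA hdet u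
  have hη : ∫ w, u (T w) * (1 - u (T w)) ∂stdGaussian (EuclideanSpace ℝ (Fin n))
      = avg G s (fun z => u z * (1 - u z)) z₀ :=
    integral_toFrame h hs hAt hA hdet fun z => u z * (1 - u z)
  rw [hμ, hη, e1] at h1
  have hv := avg_mem_Icc h hs hu.1.continuous hu.2.2 z₀
  set v := avg G s u z₀
  have hexpL : Real.exp (-L) ≤ v * (1 - v) + s := by
    rw [← exp_neg_ltau hs hv]
    exact Real.exp_le_exp.2 (neg_le_neg hL)
  have hτ : s ≤ Real.exp (-L) * Real.exp (-Q) := by
    rw [← Real.exp_add]
    conv_lhs => rw [← Real.exp_log hs]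
    exact Real.exp_le_exp.2 (by linarith)
  have hη' : avg G s (fun z => u z * (1 - u z)) z₀ ≤ s := by
    have h3 : avg G s (fun z => u z * (1 - u z)) z₀ ≤ Kk * gap G u := by
      rw [avg, gap, ← integral_const_mul]
      refine integral_mono_of_nonneg (Eventually.of_forall fun z => mul_nonneg
        (mul_nonneg (hu.2.2 z).1 (sub_nonneg.2 (hu.2.2 z).2)) (ker_nonneg h hs z₀ z)) ?_
        (Eventually.of_forall fun z => ?_)
      · exact ((((hu.1.continuous).mul (continuous_const.sub hu.1.continuous)).mul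
          (continuous_dens h)).integrable_of_hasCompactSupport
          (comp_hasCompactSupport hK hu).mul_right.mul_right).const_mul _
      · simp only
        by_cases hz : z ∈ K
        swap
        · simp [comp_eq_zero hu hz]
        rw [mul_left_comm Kk]
        refine mul_le_mul_of_nonneg_left ?_ (mul_nonneg (hu.2.2 z).1 (sub_nonneg.2 (hu.2.2 z).2))
        have hx' := hdM z₀ hz₁
        rw [Real.norm_of_nonneg (dens_pos h z₀).le] at hx'
        calc ker G s z₀ z ≤ dens G z₀ / m ^ n :=
              mul_le_of_le_one_right (div_nonneg (dens_pos h z₀).le (by positivity))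
                (Real.exp_le_one_iff.2
                  (neg_nonpos.2 (div_nonneg (qf_nonneg h z₀ _) (by positivity))))
          _ ≤ (|dM| + 1) / m ^ n := by
              gcongr; linarith [le_abs_self dM]
          _ = Kk * dm := by rw [hKk, div_mul_cancel₀ _ hdm.ne']
          _ ≤ Kk * dens G z := mul_le_mul_of_nonneg_left (hdmb z hz) hKk0.le
    refine h3.trans ?_
    have h4 := mul_le_mul_of_nonneg_left hgap hKk0.le
    rwa [mul_div_cancel₀ _ hKk0.ne'] at h4
  have htail : (stdGaussian (EuclideanSpace ℝ (Fin n))).real {w | ρ / 2 < ‖w‖}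
      ≤ Real.exp (-L) * Real.exp (-Q) := by
    refine (Gauss.gauss_tail (ρ / 2) (by linarith)).trans ?_
    rw [← Real.exp_add]
    exact Real.exp_le_exp.2 (by linarith)
  have hsq : √(π / 2) * (s * avg G s (S.indicator g) z₀)
      = m / 2 * avg G s (S.indicator g) z₀ := by
    have e : √(π / 2) = √(2 * π) / 2 := by
      rw [show π / 2 = 2 * π / 2 ^ 2 by ring, Real.sqrt_div' _ (by positivity),
        Real.sqrt_sq zero_le_two]
    rw [e]; simp only [m]; ring
  rw [hsq] at h1
  set E := fun z => Real.exp (-(qf G z₀ (z - z₀) / (2 * s ^ 2)))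
  have hmn : m ^ n = m ^ (n - 1) * m := by
    rw [← pow_succ]; congr 1; omega
  have hW : ∫ z in S, E z ∂pm G u
      = ∫ z, S.indicator E z * (conorm G z (cd u z) * dens G z) := by
    rw [← integral_indicator hS, integral_pm h hu.1]
  have hcmp : m ^ n * avg G s (S.indicator g) z₀ ≤ (1 + δ) * ∫ z in S, E z ∂pm G u := by
    rw [hW, avg, ← integral_const_mul, ← integral_const_mul]
    have hEi : Integrable (fun z => S.indicator E z * (conorm G z (cd u z) * dens G z)) := by
      refine (integrable_per h hK hu).mono' ((((Real.continuous_exp.comp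
        (((continuous_qf h).comp (continuous_const.prodMk (continuous_id.sub
          continuous_const))).div_const _).neg).aestronglyMeasurable.indicator hS)).mul
        (continuous_weight h hu.1).aestronglyMeasurable) (Eventually.of_forall fun z => ?_)
      have hw := weight_nonneg h u z
      have hnn : 0 ≤ S.indicator E z := indicator_nonneg (fun z _ => (Real.exp_pos _).le) z
      rw [norm_mul, Real.norm_of_nonneg hw]
      refine mul_le_of_le_one_left hw ?_
      show ‖S.indicator E z‖ ≤ 1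
      rw [Real.norm_of_nonneg hnn]
      exact indicator_le' (fun z _ => Real.exp_le_one_iff.2 (neg_nonpos.2
        (div_nonneg (qf_nonneg h z₀ _) (by positivity)))) (fun _ _ => zero_le_one) z
    refine integral_mono_of_nonneg (Eventually.of_forall fun z => mul_nonneg (by positivity)
      (mul_nonneg (indicator_nonneg (fun z _ => conorm_nonneg _ _) z) (ker_nonneg h hs z₀ z)))
      (hEi.const_mul _) (Eventually.of_forall fun z => ?_)
    simp only
    by_cases hz : z ∈ S
    swap
    · simp [indicator_of_notMem hz]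
    rw [indicator_of_mem hz, indicator_of_mem hz]
    have e : m ^ n * (g z * ker G s z₀ z) = f (z₀, cd u z) * E z := by
      simp only [ker, f, g, E, m]
      field_simp
    rw [e]
    have hzn : ‖z - z₀‖ ≤ ρ1 := (hnear z hz).trans ((by
      have : 0 ≤ ‖b‖ * s * CA := by positivity
      linarith : ρ * s * CA ≤ ρm).trans ((min_le_left _ _).trans (min_le_left _ _)))
    calc f (z₀, cd u z) * E z ≤ (1 + δ) * f (z, cd u z) * E z :=
          mul_le_mul_of_nonneg_right (hmodf z₀ hz₁ z hzn (cd u z)).1 (Real.exp_pos _).le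
      _ = _ := by simp only [f]; ring
  have key : 4 * Real.exp (-L) * (1 - θ / 4) ≤ m * avg G s (S.indicator g) z₀ := by
    have := mul_le_mul_of_nonneg_left hQθ (Real.exp_pos (-L)).le
    linarith
  have h5 := mul_le_mul_of_nonneg_left key (pow_nonneg hm.le (n - 1))
  rw [← mul_assoc (m ^ (n - 1)) m, ← hmn] at h5
  have h6 := h5.trans hcmp
  have hθe : Real.exp (-θ) * (1 + δ) ≤ 1 - θ / 4 := by
    have h8 : Real.exp (-θ) ≤ (1 + θ)⁻¹ := by
      rw [Real.exp_neg]
      exact inv_anti₀ (by linarith) (by linarith [Real.add_one_le_exp θ])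
    refine (mul_le_mul_of_nonneg_right h8 (by linarith)).trans ?_
    rw [inv_mul_le_iff₀ (by linarith)]
    nlinarith
  refine le_of_mul_le_mul_left (le_trans ?_ h6) (by linarith : (0 : ℝ) < 1 + δ)
  calc (1 + δ) * (m ^ (n - 1) * (4 * Real.exp (-θ)) * Real.exp (-L))
      = m ^ (n - 1) * (4 * Real.exp (-L) * (Real.exp (-θ) * (1 + δ))) := by ring
    _ ≤ _ := mul_le_mul_of_nonneg_left
        (mul_le_mul_of_nonneg_left hθe (by positivity)) (pow_nonneg hm.le _)

end Vale.Agent.P219.CH.Bend
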