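import Vale.Agent.P219.Bend.ShiftComp
import Vale.Agent.P219.Bend.SharpPins

/-!
# P219, good shifts: near minimisers have most shifted boundary points at middle levels
-/

noncomputable section

open MeasureTheory ProbabilityTheory Set Filter Topology Matrix
open scoped ENNReal NNReal Real

namespace Vale.Agent.P219.CH.Bend

open Sharp

variable {n : ℕ} {G : (Fin n → ℝ) → Matrix (Fin n) (Fin n) ℝ}
  {D : (Fin n → ℝ) → (Fin n → ℝ) → ℝ} {K : Set (Fin n → ℝ)} {u : (Fin n → ℝ) → ℝ}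

/-- A concave profile drops by at most the slope of its chord. -/
lemma profile_drop {Φ h : ℝ → ℝ} (hΦ : IsProfile Φ h) {v₀ V V' E : ℝ} (hv₀ : 0 < v₀)
    (hV : v₀ ≤ V) (hV' : 0 ≤ V') (hE : 0 ≤ E) (hle : V - E ≤ V') :
    Φ V - Φ V' ≤ Φ v₀ / v₀ * E := by
  have hV0 : 0 < V := hv₀.trans_le hV
  have hΦV : 0 ≤ Φ V := hΦ.zero ▸ hΦ.mono self_mem_Ici hV0.le hV0.le
  have hΦv : 0 ≤ Φ v₀ := hΦ.zero ▸ hΦ.mono self_mem_Ici hv₀.le hv₀.le
  rcases le_total V V' with h1 | h1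
  · have := hΦ.mono (mem_Ici.2 hV0.le) (mem_Ici.2 hV') h1
    have : 0 ≤ Φ v₀ / v₀ * E := mul_nonneg (div_nonneg hΦv hv₀.le) hE
    linarith
  have h2 := hΦ.scale V V' hV' h1
  have h3 : Φ V / V ≤ Φ v₀ / v₀ := by
    rw [div_le_div_iff₀ hV0 hv₀]
    linarith [hΦ.scale V v₀ hv₀.le hV]
  calc Φ V - Φ V' ≤ Φ V / V * E := by
        rw [div_mul_eq_mul_div, le_div_iff₀ hV0]
        have := mul_le_mul_of_nonneg_left (show V - V' ≤ E by linarith) hΦV
        linarith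
    _ ≤ _ := mul_le_mul_of_nonneg_right h3 hE

lemma integrable_avg_pm (h : IsCH G D) (hK : IsCompact K) (hu : Comp K u) {s : ℝ} (hs : 0 < s)
    {f : (Fin n → ℝ) → ℝ} (hf : Continuous f) {L : ℝ} (hfL : ∀ z, f z ∈ Icc 0 L) :
    Integrable (avg G s f) (pm G u) := by
  have := isFiniteMeasure_pm h hK hu
  refine Integrable.of_bound ?_ L (Eventually.of_forall fun y => ?_)
  · exact (((hf.comp continuous_snd).mul (continuous_ker h s)).stronglyMeasurable
      |>.integral_prod_right').aestronglyMeasurable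
  · obtain ⟨a, b⟩ := avg_mem_Icc h hs hf hfL y
    rwa [Real.norm_of_nonneg a]

/-- An affine bound passes to the averages against `|du| dvol`. -/
lemma avg_pm_affine_le (h : IsCH G D) (hK : IsCompact K) (hu : Comp K u) {s : ℝ} (hs : 0 < s)
    {f g : (Fin n → ℝ) → ℝ} (hf : Continuous f) (hg : Continuous g) {L M a b : ℝ}
    (hfL : ∀ z, f z ∈ Icc 0 L) (hgM : ∀ z, g z ∈ Icc 0 M) (hle : ∀ z, g z ≤ a + b * f z) :
    ∫ y, avg G s g y ∂pm G u ≤ a * per G u + b * ∫ y, avg G s f y ∂pm G u := by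
  have := isFiniteMeasure_pm h hK hu
  have hb : ∀ {w : (Fin n → ℝ) → ℝ}, Continuous w → ∀ {L : ℝ}, (∀ z, w z ∈ Icc 0 L) → ∀ y,
      Integrable (fun z => w (toFrame (frame G y) s y z))
        (stdGaussian (EuclideanSpace ℝ (Fin n))) := fun {w} hw {L} hwL y =>
    Integrable.of_bound (hw.comp (by unfold toFrame; fun_prop)).aestronglyMeasurable L
      (Eventually.of_forall fun z => by
        rw [Real.norm_of_nonneg (hwL _).1]; exact (hwL _).2)
  have hpt : ∀ y, avg G s g y ≤ a + b * avg G s f y := fun y => by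
    obtain ⟨hAt, hA, -, hdet⟩ := frame_spec h y
    rw [← integral_toFrame h hs hAt hA hdet, ← integral_toFrame h hs hAt hA hdet]
    refine (integral_mono (hb hg hgM y) ((integrable_const a).add ((hb hf hfL y).const_mul b))
      fun z => hle _).trans (le_of_eq ?_)
    rw [integral_add' (integrable_const a) ((hb hf hfL y).const_mul b), integral_const_mul,
      integral_const]
    simp
  have hi := (integrable_avg_pm h hK hu hs hf hfL).const_mul b
  refine (integral_mono (integrable_avg_pm h hK hu hs hg hgM) ((integrable_const a).add hi)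
    hpt).trans (le_of_eq ?_)
  rw [integral_add' (integrable_const a) hi, integral_const_mul, integral_const, smul_eq_mul,
    Measure.real, pm_univ h hK hu]
  ring

lemma avg_div (s : ℝ) (f : (Fin n → ℝ) → ℝ) (c : ℝ) (y : Fin n → ℝ) :
    avg G s (fun z => f z / c) y = avg G s f y / c := by
  simp only [avg, div_mul_eq_mul_div, integral_div]

lemma scale_eventually (q : ℕ) (hq : 1 ≤ q) {a C K K' τ e : ℝ} (ha : 0 < a) (hτ : 0 < τ)
    (he : 0 < e) :
    ∀ᶠ s in 𝓝[>] (0 : ℝ), 1 ≤ -Real.log s ∧ 6 ≤ q * -Real.log s ∧ s * -Real.log s ≤ τ ∧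
      C + q * -Real.log s ≤ a * (-Real.log s) ^ 2 ∧ K * (s * (-Real.log s) ^ 3) ≤ e ∧
      K' ≤ e * -Real.log s := by
  have hΛ : Tendsto (fun s => -Real.log s) (𝓝[>] (0 : ℝ)) atTop :=
    tendsto_neg_atBot_atTop.comp Real.tendsto_log_nhdsGT_zero
  have h2 : Tendsto (fun s => s * (-Real.log s) ^ 3) (𝓝[>] (0 : ℝ)) (𝓝 0) := by
    have h := ((tendsto_log_mul_rpow_nhdsGT_zero (r := 1 / 3) (by norm_num)).pow 3).neg
    rw [zero_pow (by norm_num : (3 : ℕ) ≠ 0), neg_zero] at h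
    refine h.congr' (eventually_nhdsWithin_of_forall fun s hs => ?_)
    show -(Real.log s * s ^ (1 / 3 : ℝ)) ^ 3 = _
    rw [mul_pow, ← Real.rpow_natCast (s ^ (1 / 3 : ℝ)) 3, ← Real.rpow_mul (le_of_lt hs)]
    norm_num
    ring
  have h3 : Tendsto (fun s => K * (s * (-Real.log s) ^ 3)) (𝓝[>] (0 : ℝ)) (𝓝 0) := by
    simpa using h2.const_mul K
  filter_upwards [hΛ.eventually_ge_atTop 6, hΛ.eventually_ge_atTop ((|C| + q) / a),
    hΛ.eventually_ge_atTop (K' / e), h2.eventually_le_const hτ, h3.eventually_le_const he,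
    self_mem_nhdsWithin] with s l1 l2 l2' l3 l4 hs
  have hq' : (1 : ℝ) ≤ q := by exact_mod_cast hq
  obtain ⟨Λ, hΛdef⟩ : ∃ Λ, Λ = -Real.log s := ⟨_, rfl⟩
  rw [← hΛdef] at l1 l2 l2' l3 l4 ⊢
  refine ⟨by linarith, ?_, ?_, ?_, l4, ?_⟩
  · linarith [mul_le_mul_of_nonneg_right hq' (by linarith : 0 ≤ Λ)]
  · exact (mul_le_mul_of_nonneg_left (le_self_pow₀ (by linarith : (1 : ℝ) ≤ Λ) three_ne_zero)
      (le_of_lt hs)).trans l3
  · rw [div_le_iff₀ ha] at l2
    have e1 := mul_le_mul_of_nonneg_right l2 (by linarith : 0 ≤ Λ)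
    have e2 := mul_le_mul_of_nonneg_left (by linarith : (1 : ℝ) ≤ Λ) (abs_nonneg C)
    linarith [le_abs_self C]
  · rw [div_le_iff₀ he] at l2'
    linarith

/-- Near minimisers: the Gaussian averages have middle values at most shifted boundary points. -/
theorem goodShiftPinS (n : ℕ) : GoodShiftPinS n := by
  intro _ G D h o R P₀ v₀ M Φ hs₀ q η e hR hP₀ hv₀ hΦ hM hq hη hη1 he
  set K : Set (Fin n → ℝ) := {y | D o y ≤ R}
  have hK : IsCompact K := h.proper o R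
  obtain ⟨c, C, τ, hc, hC, hτ, hcomp⟩ := exists_competitor h o hR (η := η) hη
  change ∀ s t T u, _ → _ → _ → _ → _ → _ → Comp K u → _ at hcomp
  obtain ⟨L, hL⟩ : ∃ L, L = Φ v₀ / v₀ := ⟨_, rfl⟩
  have hL0 : 0 ≤ L := hL ▸ div_nonneg (hΦ.zero ▸ hΦ.mono self_mem_Ici hv₀.le hv₀.le) hv₀.le
  -- the constant of the final error
  obtain ⟨Ke, hKe⟩ : ∃ Ke, Ke = C * (3 * P₀) + C * C * P₀ +
      (L + M) * (C * (2 * P₀ + 1)) + 1 := ⟨_, rfl⟩
  have hKe0 : 0 ≤ Ke := by rw [hKe]; positivity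
  obtain ⟨s₁, hs₁, hsub⟩ := mem_nhdsGT_iff_exists_Ioo_subset.1
    (scale_eventually q hq (C := C) (K := 8 * q ^ 2 * Ke) (K' := 60 * P₀) hc (lt_min hτ one_pos)
      (half_pos he))
  refine ⟨s₁, hs₁, fun s hs hss => ⟨s, hs, fun u hmin => ?_⟩⟩
  obtain ⟨hu, hP, hV, hgap, hmin'⟩ := hmin
  obtain ⟨l1, l6, l3, l4, l5, l7⟩ := hsub ⟨hs, hss⟩
  obtain ⟨Λ, hΛdef⟩ : ∃ Λ, Λ = -Real.log s := ⟨_, rfl⟩
  rw [← hΛdef] at l1 l6 l3 l4 l5 l7
  obtain ⟨T, hTdef⟩ : ∃ T, T = s ^ q := ⟨_, rfl⟩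
  have hT : 0 < T := hTdef ▸ pow_pos hs q
  have hlogT : -Real.log T = q * Λ := by rw [hTdef, Real.log_pow, hΛdef]; ring
  have hlam : lamTau T = q * Λ - Real.log 2 := by linarith [neg_log_eq hT]
  have hl2 : Real.log 2 ≤ 1 := by
    have := Real.log_le_sub_one_of_pos (show (0 : ℝ) < 2 by norm_num); linarith
  have hl20 : 0 ≤ Real.log 2 := Real.log_nonneg one_le_two
  have hlam4 : 4 ≤ lamTau T := by linarith
  have hlam0 : 0 < lamTau T := by linarith
  obtain ⟨hZ1, hZ2⟩ := zlev_mem hT hlam4 hη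
  have hZge := zlev_ge hT hlam0 hη
  obtain ⟨hzle, hzle1⟩ := le_min_iff.1 l3
  have ht0 : 0 < s * Λ := mul_pos hs (by linarith)
  have hdec : C * Real.exp (-(c * ((s * Λ) ^ 2 / s ^ 2))) ≤ T := by
    rw [mul_pow, mul_div_cancel_left₀ _ (pow_ne_zero 2 hs.ne'), ← Real.exp_log hT,
      show Real.log T = -(q * Λ) by linarith]
    refine (mul_le_mul (Real.add_one_le_exp C |>.trans' (by linarith) : C ≤ Real.exp C)
      (Real.exp_le_exp.2 (neg_le_neg l4)) (Real.exp_pos _).le (Real.exp_pos _).le).trans (le_of_eq ?_)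
    rw [← Real.exp_add]
    ring_nf
  obtain ⟨u', hu', hper, E, hEle, hvol, hgap'⟩ := hcomp s (s * Λ) T u hs ht0 hzle hT hlam4 hdec hu
  have hU : ContDiff ℝ 1 (avg G s u) := contDiff_avg h hK hu hs
  have hUI : ∀ z, avg G s u z ∈ Icc (0 : ℝ) 1 := avg_mem_Icc h hs hu.1.continuous hu.2.2
  set U := avg G s u
  set I := ∫ y, avg G s (fun z => ltau2 (s ^ q) η (U z)) y ∂pm G u
  set X := ∫ y, avg G s (fun z => glev T η (U z) / zlev T η) y ∂pm G u
  set P := per G u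
  have hP0 : 0 ≤ P := h.per_nonneg u
  have hlc : Continuous fun z => ltau (s ^ q) (U z) := by
    unfold ltau
    refine (Continuous.log ((hU.continuous.mul (continuous_const.sub hU.continuous)).add
      continuous_const) fun z => ?_).neg
    simp only [Pi.add_apply, Pi.mul_apply, Pi.sub_apply]
    have := mul_nonneg (hUI z).1 (sub_nonneg.2 (hUI z).2)
    have := pow_pos hs q
    linarith
  have hfc : Continuous fun z => ltau2 (s ^ q) η (U z) := hlc.add ((hlc.pow 2).const_mul η)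
  have hfL : ∀ z, ltau2 (s ^ q) η (U z) ∈
      Icc (0 : ℝ) (-Real.log T + η * (-Real.log T) ^ 2) := fun z => by
    rw [← hTdef]
    exact ⟨ltau2_nonneg hT hlam0 hη (hUI z), add_le_add (ltau_le hT (hUI z))
      (mul_le_mul_of_nonneg_left (pow_le_pow_left₀ (ltau_nonneg hT (tau_le_half hlam0) (hUI z))
        (ltau_le hT (hUI z)) 2) hη)⟩
  have hgc : Continuous fun z => glev T η (U z) := (continuous_glev hT (η := η)).comp hU.continuous
  obtain ⟨l₂, hl2def⟩ : ∃ l₂, l₂ = lamTwo T η := ⟨_, rfl⟩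
  have hl₂0 : 0 < l₂ := hl2def ▸ lamTwo_pos hlam0 hη
  obtain ⟨c₃, hc₃⟩ : ∃ c₃, c₃ = 1 + 3 / lamTau T := ⟨_, rfl⟩
  have hc₃0 : 0 < c₃ := by rw [hc₃]; positivity
  have hg := avg_pm_affine_le h hK hu hs hfc hgc (a := 1)
    (b := -(1 / (l₂ * c₃))) hfL (fun z => glev_mem hT hlam0 hη (U z)) fun z => by
      rw [← hTdef]
      refine (glev_le hT hlam4 hη (hUI z)).trans (le_of_eq ?_)
      rw [← hl2def, ← hc₃]
      ring
  have hX : X = (∫ y, avg G s (fun z => glev T η (U z)) y ∂pm G u) / zlev T η := by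
    simp only [X, avg_div, integral_div]
  have hX2 : X ≤ 2 * P := by
    have h2 := avg_pm_affine_le h hK hu hs hfc (g := fun z => glev T η (U z) / zlev T η)
      (hgc.div_const _) (a := 2) (b := 0) hfL (fun z => psi_deriv_mem hT hlam4 hη (U z))
      fun z => by linarith [(psi_deriv_mem hT hlam4 hη (U z)).2]
    linarith
  -- near minimality
  have hEle' : E ≤ C * (2 * P₀ + 1) * (s * Λ) := by
    refine hEle.trans ?_
    rw [mul_assoc]
    refine mul_le_mul_of_nonneg_left ?_ hC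
    have e1 := mul_le_mul_of_nonneg_left l1 hs.le
    have e2 := mul_le_mul (show s * Λ + s ≤ 2 * (s * Λ) by linarith) hP hP0 (by linarith)
    linarith
  obtain ⟨E', hE'⟩ : ∃ E', E' = C * (2 * P₀ + 1) * (s * Λ) := ⟨_, rfl⟩
  have hE'0 : 0 ≤ E' := by rw [hE']; exact mul_nonneg (mul_nonneg hC (by linarith)) ht0.le
  have hvol0 : 0 ≤ vol G u' := integral_nonneg fun y => mul_nonneg (hu'.2.2 y).1 (h.dens_pos y).le
  have hdrop := profile_drop hΦ hv₀ hV hvol0 hE'0 (by linarith)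
  rw [← hL] at hdrop
  have hmain := hmin' u' hu'
  have hgapM : M * gap G u' ≤ M * (gap G u + E') := mul_le_mul_of_nonneg_left (by linarith) hM
  have hpX : per G u' ≤ X + (s * Λ) * (C * (3 * P₀) + C * C * P₀) := by
    refine hper.trans ?_
    have e1 : C * (s * Λ) * X ≤ C * (s * Λ) * (2 * P₀) :=
      mul_le_mul_of_nonneg_left (by linarith) (mul_nonneg hC ht0.le)
    have e2 : C * s * P ≤ C * (s * Λ) * P₀ := mul_le_mul (mul_le_mul_of_nonneg_left
      (le_mul_of_one_le_right hs.le l1) hC) hP hP0 (mul_nonneg hC ht0.le)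
    have e3 : C * (s * Λ) * (C * s * P) ≤ C * (s * Λ) * (C * 1 * P₀) := by
      refine mul_le_mul_of_nonneg_left (mul_le_mul (mul_le_mul_of_nonneg_left ?_ hC) hP hP0
        (by linarith)) (mul_nonneg hC ht0.le)
      exact (le_mul_of_one_le_right hs.le l1).trans hzle1
    linarith
  have hs1 : s ≤ s * Λ := le_mul_of_one_le_right hs.le l1
  have hPX : P ≤ X + Ke * (s * Λ) := by
    rw [hKe]
    rw [hE'] at hdrop hgapM
    linarith
  -- conclusion
  have hZP : zlev T η * P ≤ P - 1 / (l₂ * c₃) * I + Ke * (s * Λ) := by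
    have h1 := mul_le_mul_of_nonneg_left hPX (by linarith : 0 ≤ zlev T η)
    have h2 : zlev T η * X = ∫ y, avg G s (fun z => glev T η (U z)) y ∂pm G u := by
      rw [hX]; field_simp
    have h3 : zlev T η * (Ke * (s * Λ)) ≤ Ke * (s * Λ) :=
      mul_le_of_le_one_left (mul_nonneg hKe0 ht0.le) hZ2
    linarith
  rw [← hl2def] at hZge
  have hI : I ≤ c₃ * ((2 + 8 * η) * P + l₂ * (Ke * (s * Λ))) := by
    have h1 := mul_le_mul_of_nonneg_left hZP hl₂0.le
    have e1 : l₂ * (P - 1 / (l₂ * c₃) * I + Ke * (s * Λ))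
        = l₂ * P - I / c₃ + l₂ * (Ke * (s * Λ)) := by field_simp
    rw [e1] at h1
    have h2 := mul_le_mul_of_nonneg_right (mul_le_mul_of_nonneg_left hZge hl₂0.le) hP0
    rw [mul_sub, mul_one, mul_div_cancel₀ _ hl₂0.ne'] at h2
    have h3 : I / c₃ ≤ (2 + 8 * η) * P + l₂ * (Ke * (s * Λ)) := by linarith
    rw [div_le_iff₀ hc₃0] at h3
    linarith
  have hlamΛ : lamTau T ≤ q * Λ := by linarith
  have hl₂ : l₂ ≤ 2 * (q * Λ) ^ 2 := by
    rw [hl2def, lamTwo]
    have e1 := pow_le_pow_left₀ hlam0.le hlamΛ 2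
    have e2 := mul_le_mul_of_nonneg_right hη1 (sq_nonneg (lamTau T))
    have e3 := le_self_pow₀ (show (1 : ℝ) ≤ q * Λ by linarith) two_ne_zero
    linarith
  have h3 : c₃ * (l₂ * (Ke * (s * Λ))) ≤ e / 2 := by
    have e1 : c₃ ≤ 4 := by
      rw [hc₃]
      have : 3 / lamTau T ≤ 3 := div_le_self (by norm_num) (by linarith)
      linarith
    calc c₃ * (l₂ * (Ke * (s * Λ))) ≤ 4 * (2 * (q * Λ) ^ 2 * (Ke * (s * Λ))) :=
          mul_le_mul e1 (mul_le_mul_of_nonneg_right hl₂ (mul_nonneg hKe0 ht0.le))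
            (mul_nonneg hl₂0.le (mul_nonneg hKe0 ht0.le)) (by norm_num)
      _ = 8 * q ^ 2 * Ke * (s * Λ ^ 3) := by ring
      _ ≤ _ := l5
  have h4 : 3 / lamTau T * ((2 + 8 * η) * P) ≤ e / 2 := by
    rw [div_mul_eq_mul_div, div_le_iff₀ hlam0]
    have e1 : (2 + 8 * η) * P ≤ 10 * P₀ := mul_le_mul (by linarith) hP hP0 (by norm_num)
    have e2 : Λ ≤ lamTau T + 1 := by
      have := mul_le_mul_of_nonneg_right (show (1 : ℝ) ≤ q by exact_mod_cast hq)
        (by linarith : 0 ≤ Λ)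
      linarith
    have e4 := mul_le_mul_of_nonneg_left (show Λ ≤ 2 * lamTau T by linarith) (half_pos he).le
    linarith
  rw [mul_add, hc₃, add_mul, one_mul] at hI
  rw [hc₃] at h3
  linarith

/-- The form used by the asymptotic assembly. -/
theorem goodShiftPinP (n : ℕ) : GoodShiftPinP n := by
  intro hn G D h o R P₀ v₀ M Φ hs₀ q e hR hP₀ hv₀ hΦ hM hq he
  obtain ⟨s₀, hs₀', H⟩ := goodShiftPinS n hn G D h o R P₀ v₀ M Φ hs₀ q 0 e hR hP₀ hv₀ hΦ hM hq
    le_rfl zero_le_one he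
  refine ⟨s₀, hs₀', fun s hs hss => ?_⟩
  obtain ⟨δ₀, hδ₀, H'⟩ := H s hs hss
  refine ⟨δ₀, hδ₀, fun u hu => ?_⟩
  have h1 := H' u hu
  simp only [ltau2, zero_mul, add_zero, mul_zero] at h1
  linarith [h.per_nonneg u]

end Vale.Agent.P219.CH.Bend
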