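import Vale.Agent.P219.Sharp.LowerShift
import Vale.Agent.P219.Bend.SharpPins

/-!
# P219, good shifts: the reparametrisation of the levels

`glev τ η` vanishes where the truncated cost is large and `psi τ η` is its normalised primitive.
-/

noncomputable section

open MeasureTheory Set Filter Topology

namespace Vale.Agent.P219.CH.Bend

open Sharp

/-- The largest useful level cost. -/
def lamTau (τ : ℝ) : ℝ := -Real.log (2 * τ)

/-- The largest useful cost with its small square. -/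
def lamTwo (τ η : ℝ) : ℝ := lamTau τ + η * lamTau τ ^ 2

/-- The weight of a level. -/
def glev (τ η v : ℝ) : ℝ :=
  max 0 (1 - ltau2 τ η (max 0 (min 1 v)) / lamTwo τ η)

/-- The total weight of the levels. -/
def zlev (τ η : ℝ) : ℝ := ∫ t in (0 : ℝ)..1, glev τ η t

/-- The reparametrised level. -/
def psi (τ η v : ℝ) : ℝ := (∫ t in (0 : ℝ)..v, glev τ η t) / zlev τ η

variable {τ η : ℝ}

lemma clamp_mem (v : ℝ) : max 0 (min 1 v) ∈ Icc (0 : ℝ) 1 :=
  ⟨le_max_left _ _, max_le zero_le_one (min_le_left _ _)⟩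

lemma tau_le_half (hΛ : 0 < lamTau τ) : τ ≤ 1 / 2 := by
  have h1 : Real.log (2 * τ) < 0 := by rw [lamTau] at hΛ; linarith
  by_contra h2
  linarith [Real.log_nonneg (show (1 : ℝ) ≤ 2 * τ by linarith [not_le.1 h2])]

lemma neg_log_eq (hτ : 0 < τ) : -Real.log τ = lamTau τ + Real.log 2 := by
  rw [lamTau, Real.log_mul two_ne_zero hτ.ne']
  ring

lemma lamTwo_pos (hΛ : 0 < lamTau τ) (hη : 0 ≤ η) : 0 < lamTwo τ η :=
  add_pos_of_pos_of_nonneg hΛ (mul_nonneg hη (sq_nonneg _))

lemma continuous_clamped_ltau (hτ : 0 < τ) :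
    Continuous fun v : ℝ => ltau τ (max 0 (min 1 v)) := by
  unfold ltau
  refine (Continuous.log (by fun_prop) fun v => ?_).neg
  obtain ⟨a, b⟩ := clamp_mem v
  have := mul_nonneg a (sub_nonneg.2 b)
  linarith

lemma continuous_glev (hτ : 0 < τ) : Continuous (glev τ η) := by
  have h2 := continuous_clamped_ltau hτ
  exact continuous_const.max (continuous_const.sub
    ((h2.add ((h2.pow 2).const_mul η)).div_const _))

lemma ltau2_nonneg (hτ : 0 < τ) (hΛ : 0 < lamTau τ) (hη : 0 ≤ η) {v : ℝ}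
    (hv : v ∈ Icc (0 : ℝ) 1) : 0 ≤ ltau2 τ η v :=
  add_nonneg (ltau_nonneg hτ (tau_le_half hΛ) hv) (mul_nonneg hη (sq_nonneg _))

lemma glev_mem (hτ : 0 < τ) (hΛ : 0 < lamTau τ) (hη : 0 ≤ η) (v : ℝ) :
    glev τ η v ∈ Icc (0 : ℝ) 1 :=
  ⟨le_max_left _ _, max_le zero_le_one (sub_le_self _ (div_nonneg
    (ltau2_nonneg hτ hΛ hη (clamp_mem v)) (lamTwo_pos hΛ hη).le))⟩

/-- Low levels carry no weight. -/
lemma glev_eq_zero (hτ : 0 < τ) (hΛ : 0 < lamTau τ) (hη : 0 ≤ η) {v : ℝ} (hv : v ≤ τ) :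
    glev τ η v = 0 := by
  have hw := clamp_mem v
  set w := max 0 (min 1 v)
  have hwτ : w ≤ τ := max_le hτ.le ((min_le_right _ _).trans hv)
  have h1 : lamTau τ ≤ ltau τ w := by
    refine neg_le_neg (Real.log_le_log ?_ ?_)
    · linarith [mul_nonneg hw.1 (sub_nonneg.2 hw.2)]
    · linarith [mul_le_of_le_one_right hw.1 (show 1 - w ≤ 1 by linarith [hw.1])]
  refine max_eq_left (sub_nonpos.2 ((one_le_div (lamTwo_pos hΛ hη)).2 ?_))
  exact add_le_add h1 (mul_le_mul_of_nonneg_left (pow_le_pow_left₀ hΛ.le h1 2) hη)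

/-- The weight is at most one minus the normalised cost. -/
lemma glev_le (hτ : 0 < τ) (hΛ : 4 ≤ lamTau τ) (hη : 0 ≤ η) {v : ℝ} (hv : v ∈ Icc (0 : ℝ) 1) :
    glev τ η v ≤ 1 - ltau2 τ η v / (lamTwo τ η * (1 + 3 / lamTau τ)) := by
  have h0 : 0 < lamTau τ := by linarith
  have hl := lamTwo_pos h0 hη
  have h3 : 0 ≤ 3 / lamTau τ := by positivity
  have hk : (1 : ℝ) ≤ 1 + 3 / lamTau τ := by linarith
  have hl2 : Real.log 2 ≤ 1 := by
    have := Real.log_le_sub_one_of_pos (show (0 : ℝ) < 2 by norm_num); linarith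
  have hL0 : 0 ≤ ltau τ v := ltau_nonneg hτ (tau_le_half h0) hv
  have hL1 : ltau τ v ≤ lamTau τ + 1 :=
    ((ltau_le hτ hv).trans (neg_log_eq hτ).le).trans (by linarith)
  have hmax : ltau2 τ η v ≤ lamTwo τ η * (1 + 3 / lamTau τ) := by
    have e : lamTwo τ η * (1 + 3 / lamTau τ) =
        lamTau τ + 3 + η * (lamTau τ ^ 2 + 3 * lamTau τ) := by
      rw [lamTwo]; field_simp
    have h2 := pow_le_pow_left₀ hL0 hL1 2
    rw [e, ltau2]
    refine add_le_add (by linarith) (mul_le_mul_of_nonneg_left ?_ hη)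
    linarith
  rw [glev, min_eq_right hv.2, max_eq_right hv.1]
  refine max_le (sub_nonneg.2 ((div_le_one (mul_pos hl (by linarith))).2 hmax)) ?_
  refine sub_le_sub_left ?_ 1
  exact div_le_div_of_nonneg_left (ltau2_nonneg hτ h0 hη hv) hl (le_mul_of_one_le_right hl.le hk)

lemma log_sq_integral : IntervalIntegrable (fun x : ℝ => Real.log x ^ 2) volume 0 1 ∧
    ∫ x in (0 : ℝ)..1, Real.log x ^ 2 = 2 := by
  set F : ℝ → ℝ := fun x => x * Real.log x ^ 2 - 2 * (x * Real.log x) + 2 * x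
  have hF : ContinuousOn F (Icc 0 1) := by
    have h1 : Continuous fun x : ℝ => 4 * (√x * Real.log √x) ^ 2
        - 2 * (x * Real.log x) + 2 * x :=
      ((((Real.continuous_mul_log.comp Real.continuous_sqrt).pow 2).const_mul 4).sub
        (Real.continuous_mul_log.const_mul 2)).add (continuous_id.const_mul 2)
    refine h1.continuousOn.congr fun x hx => ?_
    simp only [F, mul_pow, Real.sq_sqrt hx.1, Real.log_sqrt hx.1]
    ring
  have hd : ∀ x ∈ Ioo (0 : ℝ) 1, HasDerivAt F (Real.log x ^ 2) x := fun x hx => by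
    have hl := Real.hasDerivAt_log hx.1.ne'
    have h2 := (((hasDerivAt_id' x).fun_mul (hl.fun_pow 2)).fun_sub
      (((hasDerivAt_id' x).fun_mul hl).const_mul 2)).fun_add ((hasDerivAt_id' x).const_mul 2)
    refine h2.congr_deriv ?_
    have := hx.1.ne'
    field_simp
    push_cast
    ring
  have hi : IntervalIntegrable (fun x : ℝ => Real.log x ^ 2) volume 0 1 :=
    (intervalIntegrable_iff_integrableOn_Ioc_of_le zero_le_one).2
      (intervalIntegral.integrableOn_deriv_of_nonneg hF hd fun x _ => sq_nonneg _)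
  refine ⟨hi, ?_⟩
  rw [intervalIntegral.integral_eq_sub_of_hasDerivAt_of_le zero_le_one hF hd hi]
  simp [F]

/-- The uniform average of the cost is at most `2 + 8 η`. -/
lemma zlev_ge (hτ : 0 < τ) (hΛ : 0 < lamTau τ) (hη : 0 ≤ η) :
    1 - (2 + 8 * η) / lamTwo τ η ≤ zlev τ η := by
  have hc := continuous_clamped_ltau hτ
  have hc2 : Continuous fun v : ℝ => ltau2 τ η (max 0 (min 1 v)) :=
    hc.add ((hc.pow 2).const_mul η)
  have i1 : IntervalIntegrable Real.log volume (0 : ℝ) 1 := intervalIntegral.intervalIntegrable_log'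
  have i2 : IntervalIntegrable (fun x : ℝ => Real.log (1 - x)) volume (0 : ℝ) 1 := by
    have := (intervalIntegral.intervalIntegrable_log' (a := (0 : ℝ)) (b := 1)).comp_sub_left 1
    simpa using this.symm
  obtain ⟨j1, j1e⟩ := log_sq_integral
  have j2 : IntervalIntegrable (fun x : ℝ => Real.log (1 - x) ^ 2) volume (0 : ℝ) 1 := by
    simpa using (j1.comp_sub_left 1).symm
  have h1 : (∫ t in (0 : ℝ)..1, ltau2 τ η (max 0 (min 1 t))) ≤ 2 + 8 * η := by
    have k1 : IntervalIntegrable (fun x : ℝ => -Real.log x - Real.log (1 - x)) volume 0 1 :=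
      i1.neg.sub i2
    have k2 : IntervalIntegrable
        (fun x : ℝ => η * (2 * (Real.log x ^ 2 + Real.log (1 - x) ^ 2))) volume 0 1 :=
      ((j1.add j2).const_mul 2).const_mul η
    refine (intervalIntegral.integral_mono_on_of_le_Ioo zero_le_one
      (hc2.intervalIntegrable 0 1) (k1.add k2) fun x hx => ?_).trans (le_of_eq ?_)
    · rw [min_eq_right hx.2.le, max_eq_right hx.1.le]
      have hx' : (0 : ℝ) < 1 - x := sub_pos.2 hx.2
      have := Real.log_le_log (mul_pos hx.1 hx') (le_add_of_nonneg_right hτ.le : x * (1 - x) ≤ _ + τ)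
      rw [Real.log_mul hx.1.ne' hx'.ne'] at this
      have hL : ltau τ x ≤ -Real.log x - Real.log (1 - x) := by rw [ltau]; linarith
      refine add_le_add hL (mul_le_mul_of_nonneg_left ((pow_le_pow_left₀
        (ltau_nonneg hτ (tau_le_half hΛ) ⟨hx.1.le, hx.2.le⟩) hL 2).trans ?_) hη)
      linarith [sq_nonneg (Real.log x - Real.log (1 - x))]
    · rw [intervalIntegral.integral_add k1 k2,
        intervalIntegral.integral_sub (f := fun t => -Real.log t) i1.neg i2,
        intervalIntegral.integral_neg, intervalIntegral.integral_const_mul,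
        intervalIntegral.integral_const_mul, intervalIntegral.integral_add j1 j2,
        intervalIntegral.integral_comp_sub_left Real.log 1,
        intervalIntegral.integral_comp_sub_left (fun x => Real.log x ^ 2) 1,
        sub_self, sub_zero, integral_log, j1e]
      simp
      ring
  have h2 : (∫ t in (0 : ℝ)..1, (1 - ltau2 τ η (max 0 (min 1 t)) / lamTwo τ η)) ≤ zlev τ η :=
    intervalIntegral.integral_mono_on zero_le_one
      ((continuous_const.sub (hc2.div_const _)).intervalIntegrable 0 1)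
      ((continuous_glev hτ).intervalIntegrable 0 1) fun x _ => le_max_right _ _
  rw [intervalIntegral.integral_sub (continuous_const.intervalIntegrable 0 1)
    ((hc2.div_const _).intervalIntegrable 0 1), intervalIntegral.integral_const,
    intervalIntegral.integral_div, sub_zero, one_smul] at h2
  linarith [div_le_div_of_nonneg_right h1 (lamTwo_pos hΛ hη).le]

lemma zlev_mem (hτ : 0 < τ) (hΛ : 4 ≤ lamTau τ) (hη : 0 ≤ η) : zlev τ η ∈ Icc (1 / 2 : ℝ) 1 := by
  have h0 : 0 < lamTau τ := by linarith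
  constructor
  · have := zlev_ge hτ h0 hη
    have : (2 + 8 * η) / lamTwo τ η ≤ 1 / 2 := by
      rw [div_le_iff₀ (lamTwo_pos h0 hη), lamTwo]
      linarith [mul_le_mul_of_nonneg_left (pow_le_pow_left₀ (by norm_num) hΛ 2) hη]
    linarith
  · refine (intervalIntegral.integral_mono_on zero_le_one ((continuous_glev hτ).intervalIntegrable 0 1)
      (continuous_const.intervalIntegrable 0 1) fun x _ => (glev_mem hτ h0 hη x).2).trans ?_
    simp

lemma psi_deriv (hτ : 0 < τ) (v : ℝ) : HasDerivAt (psi τ η) (glev τ η v / zlev τ η) v :=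
  ((continuous_glev hτ).integral_hasStrictDerivAt 0 v).hasDerivAt.div_const _

lemma psi_contDiff (hτ : 0 < τ) : ContDiff ℝ 1 (psi τ η) := by
  refine contDiff_one_iff_deriv.2 ⟨fun v => (psi_deriv hτ v).differentiableAt, ?_⟩
  rw [show deriv (psi τ η) = fun v => glev τ η v / zlev τ η from funext fun v => (psi_deriv hτ v).deriv]
  exact (continuous_glev hτ).div_const _

lemma psi_zero (τ : ℝ) : psi τ η 0 = 0 := by simp [psi]

lemma psi_eq_zero (hτ : 0 < τ) (hΛ : 0 < lamTau τ) (hη : 0 ≤ η) {v : ℝ} (hv : v ≤ τ) : psi τ η v = 0 := by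
  rw [psi, intervalIntegral.integral_congr (g := fun _ => (0 : ℝ)) fun x hx => ?_]
  · simp
  · refine glev_eq_zero hτ hΛ hη ?_
    exact hx.2.trans (max_le hτ.le hv)

lemma psi_one (hτ : 0 < τ) (hΛ : 4 ≤ lamTau τ) (hη : 0 ≤ η) : psi τ η 1 = 1 :=
  div_self (lt_of_lt_of_le (by norm_num) (zlev_mem hτ hΛ hη).1).ne'

lemma psi_deriv_mem (hτ : 0 < τ) (hΛ : 4 ≤ lamTau τ) (hη : 0 ≤ η) (v : ℝ) :
    glev τ η v / zlev τ η ∈ Icc (0 : ℝ) 2 := by
  have h0 : 0 < lamTau τ := by linarith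
  obtain ⟨a, b⟩ := glev_mem hτ h0 hη v
  obtain ⟨c, -⟩ := zlev_mem hτ hΛ hη
  exact ⟨div_nonneg a (by linarith), by rw [div_le_iff₀ (by linarith)]; linarith⟩

lemma psi_mono (hτ : 0 < τ) (hΛ : 4 ≤ lamTau τ) (hη : 0 ≤ η) : Monotone (psi τ η) :=
  monotone_of_hasDerivAt_nonneg (psi_deriv hτ) fun v => (psi_deriv_mem hτ hΛ hη v).1

lemma psi_abs_sub_le (hτ : 0 < τ) (hΛ : 4 ≤ lamTau τ) (hη : 0 ≤ η) (a b : ℝ) :
    |psi τ η a - psi τ η b| ≤ 2 * |a - b| := by
  have h := convex_univ.norm_image_sub_le_of_norm_hasDerivWithin_le (C := 2)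
    (fun v _ => (psi_deriv hτ v).hasDerivWithinAt) (fun v _ => by
      rw [Real.norm_of_nonneg (psi_deriv_mem hτ hΛ hη v).1]
      exact (psi_deriv_mem hτ hΛ hη v).2) (mem_univ b) (mem_univ a)
  simpa [Real.norm_eq_abs] using h

lemma psi_mem (hτ : 0 < τ) (hΛ : 4 ≤ lamTau τ) (hη : 0 ≤ η) {v : ℝ} (hv : v ∈ Icc (0 : ℝ) 1) :
    psi τ η v ∈ Icc (0 : ℝ) 1 := by
  constructor
  · rw [← psi_zero τ]; exact psi_mono hτ hΛ hη hv.1
  · rw [← psi_one hτ hΛ hη]; exact psi_mono hτ hΛ hη hv.2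

/-- The reparametrisation moves a level by at most its distance to the indicator values. -/
lemma psi_close (hτ : 0 < τ) (hΛ : 4 ≤ lamTau τ) (hη : 0 ≤ η) {v : ℝ} (hv : v ∈ Icc (0 : ℝ) 1) :
    |psi τ η v - v| ≤ 2 * (v * (1 - v)) := by
  obtain ⟨p0, p1⟩ := psi_mem hτ hΛ hη hv
  obtain ⟨v0, v1⟩ := hv
  have a := (le_abs_self _).trans (psi_abs_sub_le hτ hΛ hη v 0)
  rw [psi_zero, sub_zero, sub_zero, abs_of_nonneg v0] at a
  have b := (le_abs_self _).trans (psi_abs_sub_le hτ hΛ hη 1 v)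
  rw [psi_one hτ hΛ hη, abs_of_nonneg (sub_nonneg.2 v1)] at b
  rcases le_total v (1 / 2) with hh | hh
  · have := mul_le_mul_of_nonneg_left hh v0
    rw [abs_le]; constructor <;> linarith
  · have := mul_le_mul_of_nonneg_right hh (sub_nonneg.2 v1)
    rw [abs_le]; constructor <;> linarith

end Vale.Agent.P219.CH.Bend
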