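import Vale.Agent.P219.CH.StartPoint
import Vale.Agent.P219.CH.Basic

/-!
# P219, good shifts: the frozen Gaussian kernel on a ball

On a bounded convex set the kernel of the frozen metric is Lipschitz in the base point, with a
Gaussian envelope, and the weight `conorm * dens` is Lipschitz relative to itself.
-/

noncomputable section

open MeasureTheory ProbabilityTheory Set Filter Topology Matrix
open scoped ENNReal NNReal Real

namespace Vale.Agent.P219.CH.Bend

variable {n : ℕ} {G : (Fin n → ℝ) → Matrix (Fin n) (Fin n) ℝ}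
  {D : (Fin n → ℝ) → (Fin n → ℝ) → ℝ}

/-- The kernel at the base point `x`, as a function of the shift. -/
def kk (G : (Fin n → ℝ) → Matrix (Fin n) (Fin n) ℝ) (s : ℝ) (x a : Fin n → ℝ) : ℝ :=
  dens G x / (√(2 * π) * s) ^ n * Real.exp (-(qf G x a / (2 * s ^ 2)))

/-- The Gaussian envelope. -/
def env (c s : ℝ) (a : Fin n → ℝ) : ℝ := Real.exp (-(c * (‖a‖ ^ 2 / s ^ 2))) / s ^ n

lemma ker_eq_kk (s : ℝ) (x y : Fin n → ℝ) : ker G s x y = kk G s x (y - x) := rfl

lemma kk_neg (s : ℝ) (x a : Fin n → ℝ) : kk G s x (-a) = kk G s x a := by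
  simp [kk, qf, mulVec_neg]

lemma kk_nonneg (h : IsCH G D) {s : ℝ} (hs : 0 < s) (x a : Fin n → ℝ) : 0 ≤ kk G s x a :=
  mul_nonneg (div_nonneg (h.dens_pos x).le (by positivity)) (Real.exp_pos _).le

lemma env_nonneg {s : ℝ} (hs : 0 < s) (c : ℝ) (a : Fin n → ℝ) : 0 ≤ env c s a :=
  div_nonneg (Real.exp_pos _).le (by positivity)

lemma env_mono {c c' s : ℝ} (hs : 0 < s) (hc : c' ≤ c) (a : Fin n → ℝ) : env c s a ≤ env c' s a := by
  refine div_le_div_of_nonneg_right (Real.exp_le_exp.2 (neg_le_neg ?_)) (by positivity)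
  exact mul_le_mul_of_nonneg_right hc (by positivity)

lemma continuous_env (c s : ℝ) : Continuous (env (n := n) c s) := by
  unfold env
  fun_prop

lemma continuous_kk (h : IsCH G D) (s : ℝ) :
    Continuous fun p : (Fin n → ℝ) × (Fin n → ℝ) => kk G s p.1 p.2 :=
  (((continuous_dens h).comp continuous_fst).div_const _).mul
    (Real.continuous_exp.comp ((continuous_qf h).div_const _).neg)

lemma contDiff_kk (h : IsCH G D) (s : ℝ) :
    ContDiff ℝ 1 fun p : (Fin n → ℝ) × (Fin n → ℝ) => kk G s p.1 p.2 := by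
  have hq : ContDiff ℝ 1 fun p : (Fin n → ℝ) × (Fin n → ℝ) => qf G p.1 p.2 := by
    simp only [qf, dotProduct, mulVec]
    exact ContDiff.sum fun i _ => ((contDiff_apply ℝ ℝ i).comp contDiff_snd).mul
      (ContDiff.sum fun j _ => ((h.smooth_metric i j).comp contDiff_fst).mul
        ((contDiff_apply ℝ ℝ j).comp contDiff_snd))
  exact ((h.contDiff_dens.comp contDiff_fst).div_const _).mul
    (Real.contDiff_exp.comp (hq.div_const _).neg)

/-- The envelope has a fixed mass. -/
lemma env_integral {c s : ℝ} (hc : 0 < c) (hs : 0 < s) :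
    Integrable (env (n := n) c s) ∧
      ∫ a : Fin n → ℝ, env c s a = ∫ a : Fin n → ℝ, Real.exp (-(c * ‖a‖ ^ 2)) := by
  have e : ∀ a : Fin n → ℝ, env c s a = (fun b : Fin n → ℝ => Real.exp (-(c * ‖b‖ ^ 2))) (s⁻¹ • a) / s ^ n :=
    fun a => by
      simp only [env, norm_smul, norm_inv, Real.norm_eq_abs, abs_of_pos hs]
      congr 3
      field_simp
  have hi := (integrable_exp_norm_sq (n := n) hc).comp_smul (inv_ne_zero hs.ne')
  constructor
  · exact (hi.div_const (s ^ n)).congr (Eventually.of_forall fun a => (e a).symm)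
  · rw [integral_congr_ae (Eventually.of_forall e), integral_div,
      Measure.integral_comp_inv_smul_of_nonneg (μ := (volume : Measure (Fin n → ℝ)))
        (fun b : Fin n → ℝ => Real.exp (-(c * ‖b‖ ^ 2))) hs.le, Module.finrank_fin_fun,
      smul_eq_mul]
    field_simp

/-- One power of the shift costs a factor `s`. -/
lemma norm_mul_env_le {c s : ℝ} (hc : 0 < c) (hs : 0 < s) (a : Fin n → ℝ) :
    ‖a‖ * env c s a ≤ (1 + 2 / c) * s * env (c / 2) s a := by
  have hr : 0 ≤ ‖a‖ / s := by positivity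
  obtain ⟨r, hrdef⟩ : ∃ r, r = ‖a‖ / s := ⟨_, rfl⟩
  have h1 : r ≤ (1 + 2 / c) * Real.exp (c / 2 * r ^ 2) := by
    have h2 := Real.add_one_le_exp (c / 2 * r ^ 2)
    have h3 : r ≤ 1 + r ^ 2 := by nlinarith [sq_nonneg (r - 1 / 2)]
    calc r ≤ 1 + r ^ 2 := h3
      _ = 1 + 2 / c * (c / 2 * r ^ 2) := by field_simp
      _ ≤ 1 * Real.exp (c / 2 * r ^ 2) + 2 / c * Real.exp (c / 2 * r ^ 2) := by
          refine add_le_add ?_ (mul_le_mul_of_nonneg_left (by linarith) (by positivity))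
          rw [one_mul]; exact Real.one_le_exp (by positivity)
      _ = _ := by ring
  have e : c / 2 * r ^ 2 + -(c * (‖a‖ ^ 2 / s ^ 2)) = -(c / 2 * (‖a‖ ^ 2 / s ^ 2)) := by
    rw [hrdef]; ring
  calc ‖a‖ * env c s a = s * r * (Real.exp (-(c * (‖a‖ ^ 2 / s ^ 2))) / s ^ n) := by
        rw [hrdef, env]; field_simp
    _ ≤ s * ((1 + 2 / c) * Real.exp (c / 2 * r ^ 2)) *
        (Real.exp (-(c * (‖a‖ ^ 2 / s ^ 2))) / s ^ n) :=
      mul_le_mul_of_nonneg_right (mul_le_mul_of_nonneg_left h1 hs.le) (by positivity)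
    _ = _ := by rw [env, ← e, Real.exp_add]; ring

lemma abs_exp_neg_sub_le {A B m : ℝ} (hA : m ≤ A) (hB : m ≤ B) :
    |Real.exp (-A) - Real.exp (-B)| ≤ |A - B| * Real.exp (-m) := by
  wlog hAB : A ≤ B generalizing A B
  · rw [abs_sub_comm, abs_sub_comm A]; exact this hB hA (le_of_not_ge hAB)
  have h1 := Real.add_one_le_exp (-(B - A))
  have e : Real.exp (-B) = Real.exp (-A) * Real.exp (-(B - A)) := by
    rw [← Real.exp_add]; ring_nf
  rw [abs_of_nonneg (sub_nonneg.2 (Real.exp_le_exp.2 (by linarith))),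
    abs_of_nonpos (by linarith : A - B ≤ 0), e]
  calc Real.exp (-A) - Real.exp (-A) * Real.exp (-(B - A))
      = Real.exp (-A) * (1 - Real.exp (-(B - A))) := by ring
    _ ≤ Real.exp (-m) * (B - A) := mul_le_mul (Real.exp_le_exp.2 (by linarith)) (by linarith)
        (sub_nonneg.2 (Real.exp_le_one_iff.2 (by linarith))) (Real.exp_pos _).le
    _ = _ := by ring

/-- On a ball the kernel has a Gaussian envelope and is Lipschitz in the base point. -/
theorem kk_bounds (h : IsCH G D) (ρ : ℝ) :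
    ∃ c C : ℝ, 0 < c ∧ 0 ≤ C ∧ ∀ s, 0 < s → ∀ a x, ‖x‖ ≤ ρ →
      kk G s x a ≤ C * env c s a ∧
      ∀ y, ‖y‖ ≤ ρ → |kk G s x a - kk G s y a| ≤ C * ‖x - y‖ * env c s a := by
  set K := Metric.closedBall (0 : Fin n → ℝ) ρ
  have hK : IsCompact K := isCompact_closedBall _ _
  obtain ⟨CA, hCA, hCAb⟩ := exists_comparison hK (f := fun p : (Fin n → ℝ) × (Fin n → ℝ) => ‖p.2‖)
    (g := fun p => √(qf G p.1 p.2)) (continuous_norm.comp continuous_snd)
    (Real.continuous_sqrt.comp (continuous_qf h))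
    (fun y v a ha => by simp [norm_smul, abs_of_nonneg ha])
    (fun y v a ha => by simp [qf_smul, Real.sqrt_mul (sq_nonneg a), Real.sqrt_sq ha])
    (fun y _ v hv => Real.sqrt_pos.2 (qf_pos h y hv))
  obtain ⟨dM, hdM⟩ := hK.exists_bound_of_continuousOn (continuous_dens h).continuousOn
  obtain ⟨Ld, hLd⟩ := h.contDiff_dens.locallyLipschitz.locallyLipschitzOn
    |>.exists_lipschitzOnWith_of_compact hK
  have hG : ∀ p : Fin n × Fin n, ∃ L : ℝ≥0, LipschitzOnWith L (fun y => G y p.1 p.2) K := fun p =>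
    (h.smooth_metric p.1 p.2).locallyLipschitz.locallyLipschitzOn.exists_lipschitzOnWith_of_compact hK
  choose Lg hLg using hG
  obtain ⟨LG, hLGdef⟩ : ∃ L : ℝ, L = ∑ i, ∑ j, (Lg (i, j) : ℝ) := ⟨_, rfl⟩
  have hLG0 : 0 ≤ LG := hLGdef ▸ Finset.sum_nonneg fun i _ => Finset.sum_nonneg fun j _ => (Lg _).2
  have hqf : ∀ x ∈ K, ∀ y ∈ K, ∀ a, |qf G x a - qf G y a| ≤ LG * ‖x - y‖ * ‖a‖ ^ 2 := by
    intro x hx y hy a
    simp only [qf, dotProduct, mulVec, ← Finset.sum_sub_distrib, Finset.mul_sum]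
    rw [hLGdef]
    simp only [Finset.sum_mul]
    refine (Finset.abs_sum_le_sum_abs _ _).trans (Finset.sum_le_sum fun i _ =>
      (Finset.abs_sum_le_sum_abs _ _).trans (Finset.sum_le_sum fun j _ => ?_))
    have h1 := (hLg (i, j)).norm_sub_le hx hy
    rw [Real.norm_eq_abs] at h1
    calc |a i * (G x i j * a j) - a i * (G y i j * a j)| = |a i| * |G x i j - G y i j| * |a j| := by
          rw [← abs_mul, ← abs_mul]; ring_nf
      _ ≤ ‖a‖ * (Lg (i, j) * ‖x - y‖) * ‖a‖ := by
          refine mul_le_mul (mul_le_mul (by simpa using norm_le_pi_norm a i) h1 (abs_nonneg _)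
            (norm_nonneg _)) (by simpa using norm_le_pi_norm a j) (abs_nonneg _) (by positivity)
      _ = _ := by ring
  obtain ⟨c, hc⟩ : ∃ c : ℝ, c = 1 / (4 * CA ^ 2) := ⟨_, rfl⟩
  have hc0 : 0 < c := by rw [hc]; positivity
  obtain ⟨N, hN⟩ : ∃ N : ℝ, N = √(2 * π) ^ n := ⟨_, rfl⟩
  have hN0 : 0 < N := by rw [hN]; positivity
  refine ⟨c, ((|dM| + 1) + Ld + (|dM| + 1) * LG / (2 * c)) / N, hc0, by positivity,
    fun s hs a x hx => ?_⟩
  have hxK : x ∈ K := mem_closedBall_zero_iff.2 hx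
  have hdx : ∀ z ∈ K, dens G z ≤ |dM| + 1 := fun z hz => by
    have := hdM z hz
    rw [Real.norm_of_nonneg (dens_pos h z).le] at this
    linarith [le_abs_self dM]
  have hlow : ∀ z ∈ K, 2 * c * (‖a‖ ^ 2 / s ^ 2) ≤ qf G z a / (2 * s ^ 2) := fun z hz => by
    have h1 := pow_le_pow_left₀ (norm_nonneg _) (hCAb z hz a) 2
    rw [mul_pow, Real.sq_sqrt (qf_nonneg h z a)] at h1
    calc 2 * c * (‖a‖ ^ 2 / s ^ 2) = ‖a‖ ^ 2 / (2 * CA ^ 2 * s ^ 2) := by rw [hc]; field_simp; ring
      _ ≤ CA ^ 2 * qf G z a / (2 * CA ^ 2 * s ^ 2) := div_le_div_of_nonneg_right h1 (by positivity)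
      _ = _ := by field_simp
  have hkk : ∀ z, kk G s z a = dens G z * Real.exp (-(qf G z a / (2 * s ^ 2))) / (N * s ^ n) :=
    fun z => by rw [kk, hN, mul_pow]; ring
  set r := ‖a‖ ^ 2 / s ^ 2
  have hr : 0 ≤ r := by positivity
  have he : ∀ z ∈ K, Real.exp (-(qf G z a / (2 * s ^ 2))) ≤ Real.exp (-(c * r)) := fun z hz =>
    Real.exp_le_exp.2 (by
      have h1 := hlow z hz
      have h2 : 0 ≤ c * r := by positivity
      linarith)
  refine ⟨?_, fun y hy => ?_⟩
  · rw [hkk]
    calc dens G x * Real.exp (-(qf G x a / (2 * s ^ 2))) / (N * s ^ n)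
        ≤ (|dM| + 1) * Real.exp (-(c * r)) / (N * s ^ n) :=
          div_le_div_of_nonneg_right (mul_le_mul (hdx x hxK) (he x hxK) (Real.exp_pos _).le
            (by positivity)) (by positivity)
      _ = (|dM| + 1) / N * env c s a := by rw [env]; ring
      _ ≤ _ := mul_le_mul_of_nonneg_right (div_le_div_of_nonneg_right
          (by
            have : 0 ≤ (|dM| + 1) * LG / (2 * c) := by positivity
            linarith [Ld.coe_nonneg]) hN0.le) (env_nonneg hs c a)
  · have hyK : y ∈ K := mem_closedBall_zero_iff.2 hy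
    rw [hkk, hkk, ← sub_div, abs_div, abs_of_pos (by positivity : 0 < N * s ^ n)]
    have h1 := abs_exp_neg_sub_le (hlow x hxK) (hlow y hyK)
    have h2 : |qf G x a / (2 * s ^ 2) - qf G y a / (2 * s ^ 2)| ≤ LG / 2 * ‖x - y‖ * r := by
      rw [← sub_div, abs_div, abs_of_pos (by positivity : 0 < 2 * s ^ 2)]
      calc |qf G x a - qf G y a| / (2 * s ^ 2) ≤ LG * ‖x - y‖ * ‖a‖ ^ 2 / (2 * s ^ 2) :=
            div_le_div_of_nonneg_right (hqf x hxK y hyK a) (by positivity)
        _ = _ := by simp only [r]; ring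
    have h3 : r * Real.exp (-(2 * c * r)) ≤ Real.exp (-(c * r)) / c := by
      rw [le_div_iff₀ hc0]
      have h4 := Real.add_one_le_exp (c * r)
      calc r * Real.exp (-(2 * c * r)) * c = c * r * Real.exp (-(2 * c * r)) := by ring
        _ ≤ Real.exp (c * r) * Real.exp (-(2 * c * r)) :=
            mul_le_mul_of_nonneg_right (by linarith) (Real.exp_pos _).le
        _ = _ := by rw [← Real.exp_add]; ring_nf
    have h5 : |dens G x - dens G y| ≤ Ld * ‖x - y‖ := by
      simpa using hLd.norm_sub_le hxK hyK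
    have key : |dens G x * Real.exp (-(qf G x a / (2 * s ^ 2))) -
        dens G y * Real.exp (-(qf G y a / (2 * s ^ 2)))| ≤
        (Ld + (|dM| + 1) * LG / (2 * c)) * ‖x - y‖ * Real.exp (-(c * r)) := by
      have e : dens G x * Real.exp (-(qf G x a / (2 * s ^ 2))) -
          dens G y * Real.exp (-(qf G y a / (2 * s ^ 2))) =
          (dens G x - dens G y) * Real.exp (-(qf G x a / (2 * s ^ 2))) + dens G y *
            (Real.exp (-(qf G x a / (2 * s ^ 2))) - Real.exp (-(qf G y a / (2 * s ^ 2)))) := by ring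
      rw [e]
      refine (abs_add_le _ _).trans ?_
      rw [abs_mul, abs_mul, abs_of_pos (Real.exp_pos _), abs_of_pos (h.dens_pos y)]
      calc _ ≤ Ld * ‖x - y‖ * Real.exp (-(c * r)) +
            (|dM| + 1) * (LG / 2 * ‖x - y‖ * (Real.exp (-(c * r)) / c)) := by
            refine add_le_add (mul_le_mul h5 (he x hxK) (Real.exp_pos _).le (by positivity))
              (mul_le_mul (hdx y hyK) (h1.trans ((mul_le_mul_of_nonneg_right h2
                (Real.exp_pos _).le).trans ?_)) (abs_nonneg _) (by positivity))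
            rw [mul_assoc]
            exact mul_le_mul_of_nonneg_left h3 (by positivity)
        _ = _ := by ring
    calc _ ≤ (Ld + (|dM| + 1) * LG / (2 * c)) * ‖x - y‖ * Real.exp (-(c * r)) / (N * s ^ n) :=
          div_le_div_of_nonneg_right key (by positivity)
      _ = (Ld + (|dM| + 1) * LG / (2 * c)) / N * ‖x - y‖ * env c s a := by rw [env]; ring
      _ ≤ _ := mul_le_mul_of_nonneg_right (mul_le_mul_of_nonneg_right (div_le_div_of_nonneg_right
          (by linarith [abs_nonneg dM]) hN0.le) (norm_nonneg _)) (env_nonneg hs c a)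

/-- The weight `conorm * dens` is Lipschitz relative to itself. -/
theorem weight_lipschitz (h : IsCH G D) (ρ : ℝ) :
    ∃ C : ℝ, 0 ≤ C ∧ ∀ x y, ‖x‖ ≤ ρ → ‖y‖ ≤ ρ → ∀ ξ,
      conorm G x ξ * dens G x ≤ (1 + C * ‖x - y‖) * (conorm G y ξ * dens G y) := by
  set K := Metric.closedBall (0 : Fin n → ℝ) ρ
  have hK : IsCompact K := isCompact_closedBall _ _
  obtain ⟨CA, hCA, hCAb⟩ := exists_comparison hK (f := fun p : (Fin n → ℝ) × (Fin n → ℝ) => ‖p.2‖)
    (g := fun p => √(qf G p.1 p.2)) (continuous_norm.comp continuous_snd)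
    (Real.continuous_sqrt.comp (continuous_qf h))
    (fun y v a ha => by simp [norm_smul, abs_of_nonneg ha])
    (fun y v a ha => by simp [qf_smul, Real.sqrt_mul (sq_nonneg a), Real.sqrt_sq ha])
    (fun y _ v hv => Real.sqrt_pos.2 (qf_pos h y hv))
  obtain ⟨Ld, hLd⟩ := h.contDiff_dens.locallyLipschitz.locallyLipschitzOn
    |>.exists_lipschitzOnWith_of_compact hK
  obtain ⟨dm, hdm, hdmb⟩ := hK.exists_forall_le' (continuous_dens h).continuousOn
    fun y _ => dens_pos h y
  have hG : ∀ p : Fin n × Fin n, ∃ L : ℝ≥0, LipschitzOnWith L (fun y => G y p.1 p.2) K := fun p =>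
    (h.smooth_metric p.1 p.2).locallyLipschitz.locallyLipschitzOn.exists_lipschitzOnWith_of_compact hK
  choose Lg hLg using hG
  obtain ⟨LG, hLGdef⟩ : ∃ L : ℝ, L = ∑ i, ∑ j, (Lg (i, j) : ℝ) := ⟨_, rfl⟩
  have hLG0 : 0 ≤ LG := hLGdef ▸ Finset.sum_nonneg fun i _ => Finset.sum_nonneg fun j _ => (Lg _).2
  obtain ⟨a, ha⟩ : ∃ a : ℝ, a = LG * CA ^ 2 := ⟨_, rfl⟩
  obtain ⟨b, hb⟩ : ∃ b : ℝ, b = Ld / dm := ⟨_, rfl⟩
  have ha0 : 0 ≤ a := by rw [ha]; positivity
  have hb0 : 0 ≤ b := by rw [hb]; positivity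
  refine ⟨a + b + a * b * (2 * |ρ|), by positivity, fun x y hx hy ξ => ?_⟩
  have hxK : x ∈ K := mem_closedBall_zero_iff.2 hx
  have hyK : y ∈ K := mem_closedBall_zero_iff.2 hy
  set d := ‖x - y‖
  have hd0 : 0 ≤ d := norm_nonneg _
  have hd : d ≤ 2 * |ρ| := (norm_sub_le _ _).trans (by linarith [le_abs_self ρ])
  have hq : ∀ v, qf G y v ≤ (1 + a * d) * qf G x v := fun v => by
    have h1 := pow_le_pow_left₀ (norm_nonneg _) (hCAb x hxK v) 2
    rw [mul_pow, Real.sq_sqrt (qf_nonneg h x v)] at h1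
    have h2 : qf G y v - qf G x v ≤ LG * d * ‖v‖ ^ 2 := by
      simp only [qf, dotProduct, mulVec, ← Finset.sum_sub_distrib, Finset.mul_sum]
      rw [hLGdef]
      simp only [Finset.sum_mul]
      refine Finset.sum_le_sum fun i _ => Finset.sum_le_sum fun j _ => ?_
      have h1 := (hLg (i, j)).norm_sub_le hyK hxK
      rw [Real.norm_eq_abs, norm_sub_rev] at h1
      refine (le_abs_self _).trans ?_
      calc |v i * (G y i j * v j) - v i * (G x i j * v j)|
          = |v i| * |G y i j - G x i j| * |v j| := by rw [← abs_mul, ← abs_mul]; ring_nf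
        _ ≤ ‖v‖ * (Lg (i, j) * d) * ‖v‖ := by
            refine mul_le_mul (mul_le_mul (by simpa using norm_le_pi_norm v i) h1 (abs_nonneg _)
              (norm_nonneg _)) (by simpa using norm_le_pi_norm v j) (abs_nonneg _) (by positivity)
        _ = _ := by ring
    have h3 := mul_le_mul_of_nonneg_left h1 (mul_nonneg hLG0 hd0)
    rw [ha]
    linarith
  have hco : conorm G x ξ ≤ (1 + a * d) * conorm G y ξ := by
    rcases eq_or_ne ξ 0 with rfl | hξ
    · simp [conorm_zero]
    set v := (G x)⁻¹ *ᵥ ξ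
    have e : ξ ⬝ᵥ v = conorm G x ξ ^ 2 := by rw [h.conorm_sq]; rfl
    have hv : qf G x v = conorm G x ξ ^ 2 := by
      rw [h.conorm_sq, qf, mulVec_mulVec, mul_nonsing_inv _ (isUnit_iff_ne_zero.2 (h.det_pos x).ne'),
        one_mulVec, dotProduct_comm]
      rfl
    have h1 := abs_dot_le h y ξ v
    rw [e, abs_of_nonneg (sq_nonneg _)] at h1
    have h2 : √(qf G y v) ≤ (1 + a * d) * conorm G x ξ := by
      have h0 : (0 : ℝ) ≤ (1 + a * d) * conorm G x ξ :=
        mul_nonneg (by positivity) (conorm_nonneg x ξ)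
      rw [Real.sqrt_le_left h0, mul_pow, ← hv]
      refine (hq v).trans (mul_le_mul_of_nonneg_right ?_ (qf_nonneg h x v))
      exact le_self_pow₀ (le_add_of_nonneg_right (mul_nonneg ha0 hd0)) two_ne_zero
    have hx0 := h.conorm_pos x hξ
    refine le_of_mul_le_mul_right ?_ hx0
    calc conorm G x ξ * conorm G x ξ = conorm G x ξ ^ 2 := (sq _).symm
      _ ≤ conorm G y ξ * ((1 + a * d) * conorm G x ξ) :=
          h1.trans (mul_le_mul_of_nonneg_left h2 (Real.sqrt_nonneg _))
      _ = _ := by ring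
  have hde : dens G x ≤ (1 + b * d) * dens G y := by
    have h1 : |dens G x - dens G y| ≤ Ld * d := by simpa using hLd.norm_sub_le hxK hyK
    have h2 := mul_le_mul_of_nonneg_left (hdmb y hyK) (mul_nonneg hb0 hd0)
    have e : b * d * dm = Ld * d := by rw [hb]; field_simp
    linarith [le_abs_self (dens G x - dens G y)]
  calc conorm G x ξ * dens G x ≤ ((1 + a * d) * conorm G y ξ) * ((1 + b * d) * dens G y) :=
        mul_le_mul hco hde (h.dens_pos x).le (mul_nonneg (by positivity) (conorm_nonneg y ξ))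
    _ = (1 + (a + b + a * b * d) * d) * (conorm G y ξ * dens G y) := by ring
    _ ≤ _ := by
        refine mul_le_mul_of_nonneg_right (add_le_add le_rfl (mul_le_mul_of_nonneg_right
          (add_le_add le_rfl (mul_le_mul_of_nonneg_left hd (by positivity))) hd0))
          (mul_nonneg (conorm_nonneg y ξ) (h.dens_pos y).le)

end Vale.Agent.P219.CH.Bend
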