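import Vale.Agent.P219.CH.VarChange
import Vale.Agent.P219.CH.StartBasic
import Vale.Agent.P219.Bend.ShiftKernel
import Vale.Agent.P219.Sharp.Basic

/-!
# P219, good shifts: a small outward step

A step along the gradient of `D o` moves points outside the ball to distance comparable to the step
from the ball and costs at most a factor `1 + C t` in the weight of a covector.
-/

noncomputable section

open MeasureTheory Set Filter Topology Matrix

namespace Vale.Agent.P219.CH.Bend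

open Sharp

variable {n : ℕ} {G : (Fin n → ℝ) → Matrix (Fin n) (Fin n) ℝ}
  {D : (Fin n → ℝ) → (Fin n → ℝ) → ℝ}

lemma conorm_add_smul_le (h : IsCH G D) (y ξ η : Fin n → ℝ) {t : ℝ} (ht : 0 ≤ t) :
    conorm G y (ξ + t • η) ≤ conorm G y ξ + t * conorm G y η := by
  have hn : 0 ≤ conorm G y ξ + t * conorm G y η :=
    add_nonneg (CH.conorm_nonneg y ξ) (mul_nonneg ht (CH.conorm_nonneg y η))
  show √(pairing G y (ξ + t • η) (ξ + t • η)) ≤ _
  rw [Real.sqrt_le_left hn, pairing_add_left, pairing_smul_left, h.pairing_comm y ξ (ξ + t • η),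
    h.pairing_comm y η (ξ + t • η)]
  simp only [pairing_add_left, pairing_smul_left]
  rw [h.pairing_comm y η ξ]
  have h1 := mul_le_mul_of_nonneg_left ((le_abs_self _).trans (h.abs_pairing_le y ξ η)) ht
  have h2 := h.conorm_sq y ξ
  have h3 := h.conorm_sq y η
  linear_combination (2 : ℝ) * h1 - h2 - t ^ 2 * h3

/-- A small step contracts volumes at most linearly. -/
lemma exists_det_lower (B : ℝ) :
    ∃ τ C : ℝ, 0 < τ ∧ 0 ≤ C ∧ ∀ t ∈ Icc 0 τ, ∀ L : (Fin n → ℝ) →L[ℝ] (Fin n → ℝ), ‖L‖ ≤ B →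
      1 / 2 ≤ (1 + t • opMat L).det ∧ 1 ≤ (1 + C * t) * (1 + t • opMat L).det := by
  obtain ⟨τ, hτ, hd⟩ := exists_det_step (n := n) B
  set f : ℝ × ((Fin n → ℝ) →L[ℝ] (Fin n → ℝ)) → ℝ := fun w => (1 + w.1 • opMat w.2).det
  have hf : ContDiff ℝ 1 f := by
    refine contDiff_det_of_entries fun a b => ?_
    simp only [Matrix.add_apply, Matrix.smul_apply, smul_eq_mul, opMat, Matrix.of_apply]
    exact contDiff_const.add (contDiff_fst.mul
      ((contDiff_apply ℝ ℝ a).comp (contDiff_snd.clm_apply contDiff_const)))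
  set S := Icc (0 : ℝ) τ ×ˢ Metric.closedBall (0 : (Fin n → ℝ) →L[ℝ] (Fin n → ℝ)) B
  have hS : IsCompact S := isCompact_Icc.prod (isCompact_closedBall _ _)
  have hcv : Convex ℝ S := (convex_Icc _ _).prod (convex_closedBall _ _)
  obtain ⟨C, hC⟩ := hS.bddAbove_image (hf.continuous_fderiv one_ne_zero).norm.continuousOn
  refine ⟨τ, 2 * max C 0, hτ, by positivity, fun t ht L hL => ⟨hd t ht L hL, ?_⟩⟩
  have h2 := hcv.norm_image_sub_le_of_norm_fderiv_le (f := f) (C := max C 0)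
    (fun z _ => hf.differentiable one_ne_zero z)
    (fun z hz => (hC ⟨z, hz, rfl⟩).trans (le_max_left _ _))
    (show ((0 : ℝ), L) ∈ S from ⟨⟨le_rfl, hτ.le⟩, by simpa using hL⟩)
    (show (t, L) ∈ S from ⟨ht, by simpa using hL⟩)
  have e : f ((0 : ℝ), L) = 1 := by simp [f]
  rw [Prod.mk_sub_mk, sub_zero, sub_self, Prod.norm_mk, norm_zero, Real.norm_eq_abs,
    Real.norm_eq_abs, max_eq_left (abs_nonneg t), abs_of_nonneg ht.1, e] at h2
  have h3 := (abs_le.1 h2).1
  have h4 := mul_le_mul_of_nonneg_left (hd t ht L hL)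
    (show 0 ≤ 2 * max C 0 * t from mul_nonneg (by positivity) ht.1)
  simp only [f] at h3
  linarith

/-- The second order lower bound on a compact convex set. -/
lemma exists_second_order {f : (Fin n → ℝ) → ℝ} (hf : ContDiff ℝ 2 f) {S : Set (Fin n → ℝ)}
    (hS : IsCompact S) (hcv : Convex ℝ S) :
    ∃ C₁ C₂ : ℝ, 0 ≤ C₁ ∧ 0 ≤ C₂ ∧ ∀ x ∈ S, ∀ z ∈ S, |f z - f x| ≤ C₁ * ‖z - x‖ ∧
      fderiv ℝ f x (z - x) - C₂ * ‖z - x‖ ^ 2 ≤ f z - f x := by
  have hf' : ContDiff ℝ 1 (fderiv ℝ f) := hf.fderiv_right le_rfl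
  obtain ⟨C, hC⟩ := hS.bddAbove_image hf'.continuous.norm.continuousOn
  obtain ⟨C', hC'⟩ := hS.bddAbove_image (hf'.continuous_fderiv one_ne_zero).norm.continuousOn
  have hd : Differentiable ℝ f := hf.differentiable two_ne_zero
  refine ⟨max C 0, max C' 0, le_max_right _ _, le_max_right _ _, fun x hx z hz => ⟨?_, ?_⟩⟩
  · exact hcv.norm_image_sub_le_of_norm_fderiv_le (f := f) (fun w _ => hd w)
      (fun w hw => (hC ⟨w, hw, rfl⟩).trans (le_max_left _ _)) hx hz
  · have h1 := (convex_segment x z).norm_image_sub_le_of_norm_fderiv_le'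
      (f := f) (φ := fderiv ℝ f x) (C := max C' 0 * ‖z - x‖) (fun w _ => hd w) (fun w hw => ?_)
      (left_mem_segment ℝ _ _) (right_mem_segment ℝ _ _)
    · rw [Real.norm_eq_abs] at h1
      linarith [(abs_le.1 h1).1]
    · have h2 := hcv.norm_image_sub_le_of_norm_fderiv_le (f := fderiv ℝ f) (C := max C' 0)
        (fun v _ => hf'.differentiable one_ne_zero v)
        (fun v hv => (hC' ⟨v, hv, rfl⟩).trans (le_max_left _ _)) hx (hcv.segment_subset hx hz hw)
      refine h2.trans (mul_le_mul_of_nonneg_left ?_ (le_max_right _ _))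
      simpa [Metric.mem_closedBall, dist_eq_norm, norm_sub_rev] using segment_subset_closedBall_left x z hw

/-- The outward step of the ball of level `R` around `o`. -/
structure Outward (G : (Fin n → ℝ) → Matrix (Fin n) (Fin n) ℝ) (K : Set (Fin n → ℝ))
    (Z : (Fin n → ℝ) → Fin n → ℝ) (r B c₁ C τ : ℝ) : Prop where
  r_pos : 0 < r
  sub : K ⊆ Metric.closedBall 0 r
  smooth : ContDiff ℝ 1 Z
  bound : ∀ y, ‖Z y‖ ≤ B ∧ ‖fderiv ℝ Z y‖ ≤ B
  c_pos : 0 < c₁
  C_nonneg : 0 ≤ C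
  τ_pos : 0 < τ
  small : ∀ t ∈ Icc 0 τ, t * B ≤ 1 / 2
  det : ∀ t ∈ Icc 0 τ, ∀ y, 1 / 2 ≤ (1 + t • opMat (fderiv ℝ Z y)).det
  far : ∀ t ∈ Icc 0 τ, ∀ x, ‖x‖ ≤ r + 1 → x ∉ K → ∀ y ∈ K, c₁ * t ≤ ‖x + t • Z x - y‖
  weight : ∀ t ∈ Icc 0 τ, ∀ x ∈ K, ∀ ξ,
    conorm G x (ξ + t • pull (fderiv ℝ Z x) ξ) * dens G x ≤
      (1 + C * t) * ((1 + t • opMat (fderiv ℝ Z x)).det *
        (conorm G (x + t • Z x) ξ * dens G (x + t • Z x)))

theorem exists_outward (h : IsCH G D) (o : Fin n → ℝ) {R : ℝ} (hR : 0 < R) :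
    ∃ Z r B c₁ C τ, Outward G {y | D o y ≤ R} Z r B c₁ C τ := by
  set K : Set (Fin n → ℝ) := {y | D o y ≤ R}
  have hK : IsCompact K := h.proper o R
  have ho : o ∈ K := by show D o o ≤ R; rw [h.dist_self]; exact hR.le
  obtain ⟨χ, r, B, hχ, -, -, hr, hKr, hB0, hone, hB⟩ := h.exists_cutoff hK 0 0
  set Z := cutField G D χ (o, 0)
  have hp : ((o, 0) : (Fin n → ℝ) × ℝ) ∈ K ×ˢ Icc (0 : ℝ) 0 := ⟨ho, by simp⟩
  have hZ : ContDiff ℝ 1 Z := (h.contDiff_cutField hχ).comp (contDiff_const.prodMk contDiff_id)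
  have hBZ : ∀ y, ‖Z y‖ ≤ B ∧ ‖fderiv ℝ Z y‖ ≤ B := hB (o, 0) hp
  obtain ⟨τd, Cd, hτd, hCd, hdet⟩ := exists_det_lower (n := n) B
  obtain ⟨L₁, L₂, hL₁, hL₂, hso⟩ := exists_second_order (h.contDiff_D o)
    (isCompact_closedBall (0 : Fin n → ℝ) (r + 2)) (convex_closedBall _ _)
  obtain ⟨Cw, hCw, hcw⟩ := weight_lipschitz h (r + 2)
  obtain ⟨Cp, hCp, hcp⟩ := exists_comparison hK
    (f := fun p : (Fin n → ℝ) × (Fin n → ℝ) => conorm G p.1 (pull (fderiv ℝ Z p.1) p.2))
    (g := fun p => conorm G p.1 p.2)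
    (h.continuous_conorm.comp (continuous_fst.prodMk (continuous_pi fun b => by
      show Continuous fun p : (Fin n → ℝ) × (Fin n → ℝ) => ∑ a, p.2 a * fderiv ℝ Z p.1 (ev b) a
      exact continuous_finsetSum _ fun a _ => ((continuous_apply a).comp continuous_snd).mul
        ((continuous_apply a).comp (((hZ.continuous_fderiv one_ne_zero).comp continuous_fst).clm_apply
          continuous_const)))))
    h.continuous_conorm
    (fun y v a ha => by
      rw [show pull (fderiv ℝ Z y) (a • v) = a • pull (fderiv ℝ Z y) v by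
        funext b; simp [pull, smul_dotProduct], h.conorm_smul, abs_of_nonneg ha])
    (fun y v a ha => by rw [h.conorm_smul, abs_of_nonneg ha])
    (fun y _ v hv => h.conorm_pos y hv)
  obtain ⟨τ, hτdef⟩ : ∃ τ : ℝ, τ = min (min τd 1) (min (1 / (2 * B + 2)) (R / (L₂ * B ^ 2 + 1))) :=
    ⟨_, rfl⟩
  have hτ : 0 < τ := by rw [hτdef]; positivity
  have hle : τ ≤ τd ∧ τ ≤ 1 ∧ τ ≤ 1 / (2 * B + 2) ∧ τ ≤ R / (L₂ * B ^ 2 + 1) := by
    rw [hτdef]; simp only [min_le_iff, le_refl, true_or, or_true, and_self]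
  obtain ⟨hle1, hle2, hle3, hle4⟩ := hle
  have hsmall : ∀ t ∈ Icc 0 τ, t * B ≤ 1 / 2 := fun t ht => by
    refine (mul_le_mul_of_nonneg_right (ht.2.trans hle3) hB0).trans ?_
    rw [div_mul_eq_mul_div, div_le_div_iff₀ (by positivity) two_pos]
    linarith
  have hmove : ∀ t ∈ Icc 0 τ, ∀ x, ‖t • Z x‖ ≤ t * B := fun t ht x => by
    rw [norm_smul, Real.norm_eq_abs, abs_of_nonneg ht.1]
    exact mul_le_mul_of_nonneg_left (hBZ x).1 ht.1
  refine ⟨Z, r, B, R / (L₁ + 1), (Cp + (1 + Cp) * (Cw * B)) + Cd + (Cp + (1 + Cp) * (Cw * B)) * Cd,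
    τ, ⟨hr, hKr, hZ, hBZ, by positivity, by positivity, hτ, hsmall, fun t ht y =>
      (hdet t ⟨ht.1, ht.2.trans hle1⟩ _ (hBZ y).2).1, fun t ht x hx hxK y hy => ?_,
    fun t ht x hx ξ => ?_⟩⟩
  · have hxR : R < D o x := not_le.1 hxK
    have hxS : x ∈ Metric.closedBall (0 : Fin n → ℝ) (r + 2) := by simp; linarith
    have hzn : ‖x + t • Z x‖ ≤ r + 2 := by
      linarith [norm_add_le x (t • Z x), hmove t ht x, hsmall t ht]
    have hzS : x + t • Z x ∈ Metric.closedBall (0 : Fin n → ℝ) (r + 2) := by simpa using hzn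
    have hyS : y ∈ Metric.closedBall (0 : Fin n → ℝ) (r + 2) :=
      Metric.closedBall_subset_closedBall (by linarith) (hKr hy)
    have hgo : Z x = grad G (D o) x := by
      simp [Z, cutField, (hone x (by linarith)).eq_of_nhds]
    have h1 := (hso x hxS _ hzS).2
    rw [add_sub_cancel_left, map_smul, smul_eq_mul] at h1
    have h2 : fderiv ℝ (D o) x (Z x) = 2 * D o x := by
      rw [hgo, ← pairing_cd, h.eikonal]
    have h3 : L₂ * ‖t • Z x‖ ^ 2 ≤ t * R := by
      have e1 := mul_le_mul_of_nonneg_left (pow_le_pow_left₀ (norm_nonneg _) (hmove t ht x) 2) hL₂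
      have e2 : t * (L₂ * B ^ 2) ≤ R := by
        refine (mul_le_mul_of_nonneg_right (ht.2.trans hle4) (by positivity)).trans ?_
        rw [div_mul_eq_mul_div, div_le_iff₀ (by positivity)]
        linarith
      have e3 := mul_le_mul_of_nonneg_left e2 ht.1
      linarith
    have h4 := (hso y hyS _ hzS).1
    have h5 : t * R ≤ D o (x + t • Z x) - D o y := by
      rw [h2] at h1
      have := mul_le_mul_of_nonneg_left hxR.le ht.1
      have : D o y ≤ R := hy
      linarith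
    rw [div_mul_eq_mul_div, div_le_iff₀ (by positivity)]
    linarith [norm_nonneg (x + t • Z x - y), le_abs_self (D o (x + t • Z x) - D o y)]
  · have hxn : ‖x‖ ≤ r := by simpa using hKr hx
    have hzn : ‖x + t • Z x‖ ≤ r + 2 := by
      linarith [norm_add_le x (t • Z x), hmove t ht x, hsmall t ht]
    set z := x + t • Z x
    have hd : ‖x - z‖ ≤ t * B := by
      rw [show x - z = -(t • Z x) from sub_add_cancel_left x _, norm_neg]
      exact hmove t ht x
    have hξ : 0 ≤ conorm G z ξ * dens G z := mul_nonneg (CH.conorm_nonneg z ξ) (h.dens_pos z).le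
    have h1 : conorm G x (ξ + t • pull (fderiv ℝ Z x) ξ) * dens G x ≤
        (1 + Cp * t) * (conorm G x ξ * dens G x) := by
      rw [← mul_assoc]
      refine mul_le_mul_of_nonneg_right ((conorm_add_smul_le h x ξ _ ht.1).trans ?_) (h.dens_pos x).le
      have := mul_le_mul_of_nonneg_left (hcp x hx ξ) ht.1
      linarith
    obtain ⟨a, ha⟩ : ∃ a, a = Cp + (1 + Cp) * (Cw * B) := ⟨_, rfl⟩
    have h2 : (1 + Cp * t) * (conorm G x ξ * dens G x) ≤ (1 + a * t) * (conorm G z ξ * dens G z) := by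
      have e1 := hcw x z (by linarith) hzn ξ
      have e2 : (1 + Cw * ‖x - z‖) * (conorm G z ξ * dens G z) ≤
          (1 + Cw * (t * B)) * (conorm G z ξ * dens G z) :=
        mul_le_mul_of_nonneg_right (add_le_add le_rfl (mul_le_mul_of_nonneg_left hd hCw)) hξ
      refine (mul_le_mul_of_nonneg_left (e1.trans e2)
        (add_nonneg zero_le_one (mul_nonneg hCp.le ht.1))).trans ?_
      rw [← mul_assoc]
      refine mul_le_mul_of_nonneg_right ?_ hξ
      have e3 : t * t * (Cp * (Cw * B)) ≤ t * (Cp * (Cw * B)) := mul_le_mul_of_nonneg_right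
        (mul_le_of_le_one_left ht.1 (ht.2.trans hle2)) (by positivity)
      rw [ha]
      linarith
    have h3 := (hdet t ⟨ht.1, ht.2.trans hle1⟩ _ (hBZ x).2).2
    have ha0 : 0 ≤ a := by rw [ha]; positivity
    rw [← ha]
    refine (h1.trans h2).trans ?_
    rw [← mul_assoc (1 + (a + Cd + a * Cd) * t)]
    refine mul_le_mul_of_nonneg_right ?_ hξ
    have hdn : 0 ≤ (1 + t • opMat (fderiv ℝ Z x)).det :=
      le_trans (by norm_num) (hdet t ⟨ht.1, ht.2.trans hle1⟩ _ (hBZ x).2).1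
    have e4 := mul_le_mul_of_nonneg_left h3 (add_nonneg zero_le_one (mul_nonneg ha0 ht.1))
    have e5 : t * t * (a * Cd) * (1 + t • opMat (fderiv ℝ Z x)).det ≤
        t * (a * Cd) * (1 + t • opMat (fderiv ℝ Z x)).det :=
      mul_le_mul_of_nonneg_right (mul_le_mul_of_nonneg_right
        (mul_le_of_le_one_left ht.1 (ht.2.trans hle2)) (mul_nonneg ha0 hCd)) hdn
    linarith

end Vale.Agent.P219.CH.Bend
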