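import Vale.Agent.P219.Bend.ShiftSmooth
import Vale.Agent.P219.Bend.ShiftStep
import Vale.Agent.P219.Bend.ShiftLevels
import Vale.Agent.P219.CH.Variation

/-!
# P219, good shifts: the competitor

The reparametrised Gaussian average, pulled back by the outward step, is a competitor in the same
ball, close to the function, whose perimeter sees only the levels of small cost.
-/

noncomputable section

open MeasureTheory ProbabilityTheory Set Filter Topology Matrix
open scoped ENNReal NNReal Real

namespace Vale.Agent.P219.CH.Bend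

open Sharp

variable {n : ℕ} {G : (Fin n → ℝ) → Matrix (Fin n) (Fin n) ℝ}
  {D : (Fin n → ℝ) → (Fin n → ℝ) → ℝ} {K : Set (Fin n → ℝ)} {u : (Fin n → ℝ) → ℝ}

lemma osc_integrable (hu : Comp K u) {c s : ℝ} (hc : 0 < c) (hs : 0 < s) (x : Fin n → ℝ) :
    Integrable fun a => |u (x + a) - u x| * env c s a :=
  (env_integral (n := n) hc hs).1.mono'
    (((hu.1.continuous.comp (continuous_const.add continuous_id)).sub continuous_const).abs.mul
      (continuous_env c s)).aestronglyMeasurable
    (Eventually.of_forall fun a => by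
      rw [norm_mul, Real.norm_of_nonneg (env_nonneg hs c a), Real.norm_eq_abs, abs_abs]
      refine mul_le_of_le_one_left (env_nonneg hs c a) ?_
      have h1 := hu.2.2 x
      have h2 := hu.2.2 (x + a)
      rw [abs_le]
      constructor <;> linarith [h1.1, h1.2, h2.1, h2.2])

lemma continuous_osc (hu : Comp K u) {c s : ℝ} (hc : 0 < c) (hs : 0 < s) :
    Continuous fun x => ∫ a, |u (x + a) - u x| * env c s a := by
  refine continuous_of_dominated (bound := env c s)
    (fun x => (osc_integrable hu hc hs x).aestronglyMeasurable) (fun x => Eventually.of_forall fun a => ?_)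
    (env_integral hc hs).1 (Eventually.of_forall fun a => ?_)
  · rw [norm_mul, Real.norm_of_nonneg (env_nonneg hs c a), Real.norm_eq_abs, abs_abs]
    refine mul_le_of_le_one_left (env_nonneg hs c a) ?_
    have h1 := hu.2.2 x
    have h2 := hu.2.2 (x + a)
    rw [abs_le]
    constructor <;> linarith [h1.1, h1.2, h2.1, h2.2]
  · exact ((hu.1.continuous.comp (continuous_id.add continuous_const)).sub
      hu.1.continuous).abs.mul continuous_const

/-- A difference over a distance `B t` is at most two oscillations at scale `t`. -/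
lemma diff_le_osc (hu : Comp K u) {B t : ℝ} (ht : 0 < t) {x v : Fin n → ℝ}
    (hv : ‖v‖ ≤ B * t) :
    |u (x + v) - u x| * (∫ a : Fin n → ℝ, Real.exp (-(2 * ‖a‖ ^ 2))) ≤
      (∫ a, |u (x + v + a) - u (x + v)| * env 2 t a) +
        Real.exp (2 * B ^ 2) * ∫ a, |u (x + a) - u x| * env 1 t a := by
  have i2 := osc_integrable hu two_pos ht (x + v)
  have i1 := (osc_integrable hu one_pos ht x).comp_add_left v
  rw [← (env_integral (n := n) two_pos ht).2,
    ← integral_add_left_eq_self (fun a => |u (x + a) - u x| * env 1 t a) v, ← integral_const_mul,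
    ← integral_const_mul, ← integral_add i2 (i1.const_mul _)]
  refine integral_mono ((env_integral (n := n) two_pos ht).1.const_mul _) (i2.add (i1.const_mul _))
    fun a => ?_
  rw [← add_assoc]
  have he : env 2 t a ≤ Real.exp (2 * B ^ 2) * env 1 t (v + a) := by
    simp only [env]
    rw [← mul_div_assoc (Real.exp _), ← Real.exp_add]
    refine div_le_div_of_nonneg_right (Real.exp_le_exp.2 ?_) (by positivity)
    have h1 : ‖v + a‖ ^ 2 ≤ 2 * (B * t) ^ 2 + 2 * ‖a‖ ^ 2 := by
      have e1 := pow_le_pow_left₀ (norm_nonneg _) (norm_add_le v a) 2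
      have e2 := pow_le_pow_left₀ (norm_nonneg _) hv 2
      have e3 := sq_nonneg (‖v‖ - ‖a‖)
      linarith
    have h2 := div_le_div_of_nonneg_right h1 (sq_nonneg t)
    rw [add_div, mul_pow, ← mul_assoc, mul_div_cancel_right₀ _ (pow_ne_zero 2 ht.ne'),
      mul_div_assoc] at h2
    linarith
  have h3 : |u (x + v) - u x| ≤ |u (x + v + a) - u (x + v)| + |u (x + v + a) - u x| := by
    linarith [abs_sub_le (u (x + v)) (u (x + v + a)) (u x), abs_sub_comm (u (x + v)) (u (x + v + a))]
  calc |u (x + v) - u x| * env 2 t a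
      ≤ (|u (x + v + a) - u (x + v)| + |u (x + v + a) - u x|) * env 2 t a :=
        mul_le_mul_of_nonneg_right h3 (env_nonneg ht 2 a)
    _ ≤ _ := by
        rw [add_mul]
        refine add_le_add le_rfl ((mul_le_mul_of_nonneg_left he (abs_nonneg _)).trans (le_of_eq ?_))
        ring

/-- Composing with the step at most doubles an integral. -/
lemma step_push {Z : (Fin n → ℝ) → Fin n → ℝ} {r B c₁ C τ : ℝ} (H : Outward G K Z r B c₁ C τ)
    (hK : IsCompact K) {t : ℝ} (ht : t ∈ Icc 0 τ) {f : (Fin n → ℝ) → ℝ} (hf : Continuous f)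
    (hf0 : ∀ z, 0 ≤ f z) :
    ∫ x in K, f (x + t • Z x) ≤ 2 * ∫ z in Metric.closedBall (0 : Fin n → ℝ) (r + 2), f z := by
  set S := Metric.closedBall (0 : Fin n → ℝ) (r + 2)
  have hT : ∀ x ∈ K, x + t • Z x ∈ S := fun x hx => by
    have h1 : ‖x‖ ≤ r := by simpa using H.sub hx
    have h2 : ‖t • Z x‖ ≤ t * B := by
      rw [norm_smul, Real.norm_eq_abs, abs_of_nonneg ht.1]
      exact mul_le_mul_of_nonneg_left (H.bound x).1 ht.1
    simp only [S, mem_closedBall_zero_iff]
    linarith [norm_add_le x (t • Z x), H.small t ht]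
  obtain ⟨hint, hle⟩ := setIntegral_step_le hK.measurableSet
    (H.smooth.differentiable one_ne_zero) (fun y => (H.bound y).2) ht.1
    (lt_of_le_of_lt (H.small t ht) (by norm_num))
    (fun y _ => le_trans (by norm_num) (H.det t ht y))
    ((hf.continuousOn.integrableOn_compact (isCompact_closedBall (0 : Fin n → ℝ) (r + 2))).integrable_indicator
      measurableSet_closedBall) fun z => indicator_nonneg (fun z _ => hf0 z) z
  rw [integral_indicator measurableSet_closedBall] at hle
  refine le_trans ?_ (mul_le_mul_of_nonneg_left hle zero_le_two)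
  rw [← integral_const_mul]
  refine setIntegral_mono_on ((hf.comp (continuous_id.add
    (H.smooth.continuous.const_smul t))).continuousOn.integrableOn_compact hK)
    (hint.const_mul 2) hK.measurableSet fun x hx => ?_
  rw [indicator_of_mem (hT x hx), ← mul_assoc]
  exact le_mul_of_one_le_left (hf0 _) (by linarith [H.det t ht x])

/-- The step moves a competitor by `O(t)` in mean. -/
theorem step_lone (h : IsCH G D) (hK : IsCompact K) {Z : (Fin n → ℝ) → Fin n → ℝ}
    {r B c₁ C τ : ℝ} (H : Outward G K Z r B c₁ C τ) :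
    ∃ L : ℝ, 0 ≤ L ∧ ∀ t, 0 < t → t ≤ τ → ∀ u, Comp K u →
      ∫ x in K, |u (x + t • Z x) - u x| ≤ L * t * per G u := by
  obtain ⟨C₁, hC₁, ho1⟩ := oscillation_le h hK (c := 1) one_pos
  obtain ⟨C₂, hC₂, ho2⟩ := oscillation_le h hK (c := 2) two_pos
  obtain ⟨m, hm⟩ : ∃ m, m = ∫ a : Fin n → ℝ, Real.exp (-(2 * ‖a‖ ^ 2)) := ⟨_, rfl⟩
  have hm0 : 0 < m := hm ▸ integral_exp_pos (integrable_exp_norm_sq two_pos)
  refine ⟨(2 * C₂ + Real.exp (2 * B ^ 2) * C₁) / m, by positivity, fun t ht htτ u hu => ?_⟩
  obtain ⟨i1, l1⟩ := ho1 t ht u hu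
  obtain ⟨i2, l2⟩ := ho2 t ht u hu
  have ht' : t ∈ Icc 0 τ := ⟨ht.le, htτ⟩
  have c2 := continuous_osc hu two_pos ht
  have hT : Continuous fun x => x + t • Z x := continuous_id.add (H.smooth.continuous.const_smul t)
  have p2 := step_push H hK ht' c2
    fun z => integral_nonneg fun a => mul_nonneg (abs_nonneg _) (env_nonneg ht 2 a)
  have e2 := setIntegral_le_integral (s := Metric.closedBall (0 : Fin n → ℝ) (r + 2)) i2
    (Eventually.of_forall fun z => integral_nonneg fun a =>
      mul_nonneg (abs_nonneg _) (env_nonneg ht 2 a))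
  have e1 := setIntegral_le_integral (s := K) i1 (Eventually.of_forall fun z => integral_nonneg fun a =>
      mul_nonneg (abs_nonneg _) (env_nonneg ht 1 a))
  rw [div_mul_eq_mul_div, div_mul_eq_mul_div, le_div_iff₀ hm0, ← integral_mul_const]
  refine (setIntegral_mono_on
    ((((hu.1.continuous.comp hT).sub hu.1.continuous).abs.mul
      continuous_const).continuousOn.integrableOn_compact hK)
    (((c2.comp hT).continuousOn.integrableOn_compact hK).add (i1.integrableOn.const_mul _))
    hK.measurableSet fun x _ => hm ▸ diff_le_osc hu ht ((norm_smul_le t (Z x)).trans (by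
      rw [Real.norm_eq_abs, abs_of_nonneg ht.le, mul_comm B]
      exact mul_le_mul_of_nonneg_left (H.bound x).1 ht.le))).trans ?_
  have j1 : IntegrableOn (fun x => ∫ a, |u (x + t • Z x + a) - u (x + t • Z x)| * env 2 t a) K :=
    (c2.comp hT).continuousOn.integrableOn_compact hK
  have j2 : IntegrableOn
      (fun x => Real.exp (2 * B ^ 2) * ∫ a, |u (x + a) - u x| * env 1 t a) K :=
    i1.integrableOn.const_mul _
  simp only [Pi.add_apply, Function.comp_apply]
  rw [integral_add j1 j2, integral_const_mul]
  have := mul_le_mul_of_nonneg_left (e1.trans l1) (Real.exp_pos (2 * B ^ 2)).le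
  linarith

/-- The perimeter of the pulled back reparametrised average. -/
theorem per_pullback_le (h : IsCH G D) (hK : IsCompact K) {Z : (Fin n → ℝ) → Fin n → ℝ}
    {r B c₁ C τ : ℝ} (H : Outward G K Z r B c₁ C τ) (hu : Comp K u) {s : ℝ} (hs : 0 < s) {t : ℝ}
    (ht : t ∈ Icc 0 τ) {T η : ℝ} (hT : 0 < T) (hΛ : 4 ≤ lamTau T) (hη : 0 ≤ η) :
    ∫ x in K, conorm G x (cd (fun y => psi T η (avg G s u (y + t • Z y))) x) * dens G x ≤
      (1 + C * t) * ∫ z in Metric.ball (0 : Fin n → ℝ) (r + 2),
        glev T η (avg G s u z) / zlev T η * (conorm G z (cd (avg G s u) z) * dens G z) := by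
  set U := avg G s u
  have hU : ContDiff ℝ 1 U := contDiff_avg h hK hu hs
  set f := fun z => glev T η (U z) / zlev T η * (conorm G z (cd U z) * dens G z)
  have hf : Continuous f := (((continuous_glev hT).comp hU.continuous).div_const _).mul
    ((h.continuous_conorm_cd hU).mul h.continuous_dens)
  have hf0 : ∀ z, 0 ≤ f z := fun z => mul_nonneg (psi_deriv_mem hT hΛ hη _).1
    (mul_nonneg (CH.conorm_nonneg z _) (h.dens_pos z).le)
  obtain ⟨hint, hle⟩ := setIntegral_step_le hK.measurableSet
    (H.smooth.differentiable one_ne_zero) (fun y => (H.bound y).2) ht.1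
    (lt_of_le_of_lt (H.small t ht) (by norm_num))
    (fun y _ => le_trans (by norm_num) (H.det t ht y))
    (((hf.continuousOn.integrableOn_compact
      (isCompact_closedBall (0 : Fin n → ℝ) (r + 2))).mono_set
        Metric.ball_subset_closedBall).integrable_indicator measurableSet_ball)
    fun z => indicator_nonneg (fun z _ => hf0 z) z
  rw [integral_indicator measurableSet_ball] at hle
  refine le_trans ?_ (mul_le_mul_of_nonneg_left hle
    (add_nonneg zero_le_one (mul_nonneg H.C_nonneg ht.1)))
  rw [← integral_const_mul]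
  have hw : ContDiff ℝ 1 fun z => psi T η (U z) := (psi_contDiff hT).comp hU
  have hF : ContDiff ℝ 1 fun y => psi T η (U (y + t • Z y)) :=
    hw.comp (contDiff_id.add (H.smooth.const_smul t))
  refine setIntegral_mono_on (((h.continuous_conorm_cd hF).mul
    h.continuous_dens).continuousOn.integrableOn_compact hK) (hint.const_mul _) hK.measurableSet
    fun x hx => ?_
  have hz : x + t • Z x ∈ Metric.ball (0 : Fin n → ℝ) (r + 2) := by
    have h1 : ‖x‖ ≤ r := by simpa using H.sub hx
    have h2 : ‖t • Z x‖ ≤ t * B := by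
      rw [norm_smul, Real.norm_eq_abs, abs_of_nonneg ht.1]
      exact mul_le_mul_of_nonneg_left (H.bound x).1 ht.1
    rw [mem_ball_zero_iff]
    linarith [norm_add_le x (t • Z x), H.small t ht]
  have e : cd (fun z => psi T η (U z)) (x + t • Z x) =
      (glev T η (U (x + t • Z x)) / zlev T η) • cd U (x + t • Z x) := by
    have hd := (psi_deriv (η := η) hT (U (x + t • Z x))).comp_hasFDerivAt _
      (hU.differentiable one_ne_zero (x + t • Z x)).hasFDerivAt
    funext i
    simp only [cd, Pi.smul_apply, smul_eq_mul]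
    rw [show (fun z => psi T η (U z)) = psi T η ∘ U from rfl, hd.fderiv]
    rfl
  rw [indicator_of_mem hz, cd_step hw H.smooth, e]
  refine (H.weight t ht x hx _).trans (le_of_eq ?_)
  rw [h.conorm_smul, abs_of_nonneg (psi_deriv_mem hT hΛ hη _).1]
  ring

/-- The competitor. -/
theorem exists_competitor (h : IsCH G D) (o : Fin n → ℝ) {R : ℝ} (hR : 0 < R) {η : ℝ}
    (hη : 0 ≤ η) :
    ∃ c C τ : ℝ, 0 < c ∧ 0 ≤ C ∧ 0 < τ ∧ ∀ s t T u, 0 < s → 0 < t → t ≤ τ → 0 < T →
      4 ≤ lamTau T → C * Real.exp (-(c * (t ^ 2 / s ^ 2))) ≤ T → Comp {y | D o y ≤ R} u →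
      ∃ u', Comp {y | D o y ≤ R} u' ∧
        per G u' ≤ (1 + C * t) *
          ((∫ y, avg G s (fun z => glev T η (avg G s u z) / zlev T η) y ∂pm G u) + C * s * per G u) ∧
        ∃ E, E ≤ C * ((t + s) * per G u + gap G u) ∧
          vol G u - E ≤ vol G u' ∧ gap G u' ≤ gap G u + E := by
  set K : Set (Fin n → ℝ) := {y | D o y ≤ R}
  have hK : IsCompact K := h.proper o R
  obtain ⟨Z, r, B, c₁, CH₁, τ, H⟩ := exists_outward h o hR
  change Outward G K Z r B c₁ CH₁ τ at H
  have hKρ : K ⊆ Metric.closedBall (0 : Fin n → ℝ) (r + 2) :=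
    H.sub.trans (Metric.closedBall_subset_closedBall (by linarith))
  obtain ⟨CW, hCW, hweight⟩ := avg_weight_integral_le h hK (r + 2) hKρ
  obtain ⟨c, CC, hc, hCC, hclose⟩ := avg_close h hK (r + 2)
  obtain ⟨CL, hCL, hlone⟩ := step_lone h hK H
  obtain ⟨dM, hdM⟩ := hK.exists_bound_of_continuousOn h.continuous_dens.continuousOn
  obtain ⟨md, hmd, hmdle⟩ := (isCompact_closedBall (0 : Fin n → ℝ) (r + 2)).exists_forall_le'
    h.continuous_dens.continuousOn fun y _ => h.dens_pos y
  obtain ⟨Cd, hCdd⟩ : ∃ Cd, Cd = |dM| + 1 := ⟨_, rfl⟩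
  have hd0 : 0 ≤ Cd := by rw [hCdd]; positivity
  obtain ⟨C, hCdef⟩ : ∃ C, C = CH₁ + CW + CC + Cd * (4 * CC + CL + 4 / md) := ⟨_, rfl⟩
  have hC0 : 0 ≤ Cd * (4 * CC + CL + 4 / md) := by positivity
  refine ⟨c * c₁ ^ 2, C, τ, mul_pos hc (pow_pos H.c_pos 2),
    by rw [hCdef]; linarith [H.C_nonneg], H.τ_pos,
    fun s t T u hs ht htτ hT hΛ hdec hu => ?_⟩
  obtain ⟨hL1, htail⟩ := hclose s hs u hu
  have ht' : t ∈ Icc 0 τ := ⟨ht.le, htτ⟩
  set U := avg G s u
  have hU : ContDiff ℝ 1 U := contDiff_avg h hK hu hs
  have hUI : ∀ x, U x ∈ Icc (0 : ℝ) 1 := avg_mem_Icc h hs hu.1.continuous hu.2.2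
  set F := fun y => psi T η (U (y + t • Z y))
  have hF : ContDiff ℝ 1 F :=
    ((psi_contDiff hT).comp hU).comp (contDiff_id.add (H.smooth.const_smul t))
  have hzero : ∀ x, ‖x‖ ≤ r + 1 → x ∉ K → F x = 0 := fun x hx hxK => by
    have hzn : ‖x + t • Z x‖ ≤ r + 2 := by
      have h2 : ‖t • Z x‖ ≤ t * B := by
        rw [norm_smul, Real.norm_eq_abs, abs_of_nonneg ht.le]
        exact mul_le_mul_of_nonneg_left (H.bound x).1 ht.le
      linarith [norm_add_le x (t • Z x), H.small t ht']
    refine psi_eq_zero hT (by linarith) hη ((htail _ hzn _ (mul_nonneg H.c_pos.le ht.le)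
      (H.far t ht' x hx hxK)).trans (le_trans ?_ hdec))
    refine mul_le_mul (by rw [hCdef]; linarith [H.C_nonneg]) (le_of_eq ?_) (Real.exp_pos _).le
      (by rw [hCdef]; linarith [H.C_nonneg])
    congr 1
    ring
  obtain ⟨φ, hφ⟩ : ∃ φ : ContDiffBump (0 : Fin n → ℝ), φ.rIn = r + 1 / 2 ∧ φ.rOut = r + 1 :=
    ⟨⟨r + 1 / 2, r + 1, by linarith [H.r_pos], by linarith⟩, rfl, rfl⟩
  set v := fun x => φ x * F x
  have hv0 : ∀ x, x ∉ K → v x = 0 := fun x hx => by
    rcases le_or_gt ‖x‖ (r + 1) with h1 | h1
    · simp [v, hzero x h1 hx]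
    · simp [v, φ.zero_of_le_dist (x := x) (by rw [dist_zero_right, hφ.2]; exact h1.le)]
  have hev : ∀ x ∈ K, v =ᶠ[𝓝 x] F := fun x hx => by
    have h1 : ‖x‖ ≤ r := by simpa using H.sub hx
    filter_upwards [φ.eventuallyEq_one_of_mem_ball (x := x) (by simp [hφ.1]; linarith)] with z hz
    simp [v, hz]
  have hv : Comp K v := by
    refine ⟨φ.contDiff.mul hF, closure_minimal (fun x hx => ?_) hK.isClosed, fun x => ?_⟩
    · by_contra hn
      exact hx (hv0 x hn)
    · obtain ⟨a, b⟩ := psi_mem hT hΛ hη (hUI (x + t • Z x))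
      exact ⟨mul_nonneg φ.nonneg a, mul_le_one₀ φ.le_one a b⟩
  refine ⟨v, hv, ?_, Cd * ∫ x in K, |v x - u x|, ?_, ?_⟩
  · rw [per, ← setIntegral_eq_integral_of_forall_compl_eq_zero (s := K) fun x hx => by
      rw [CH.cd_eq_zero hv hx, conorm_zero, zero_mul]]
    rw [setIntegral_congr_fun hK.measurableSet
      (g := fun x => conorm G x (cd F x) * dens G x) fun x hx => by
        simp only [show cd v x = cd F x from funext fun i => by simp [cd, (hev x hx).fderiv_eq]]]
    refine (per_pullback_le h hK H hu hs ht' hT hΛ hη).trans ?_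
    have hw := hweight s hs u hu (fun z => glev T η (U z) / zlev T η)
      (((continuous_glev hT).comp hU.continuous).div_const _) fun x => psi_deriv_mem hT hΛ hη _
    have hX : 0 ≤ ∫ y, avg G s (fun z => glev T η (U z) / zlev T η) y ∂pm G u :=
      integral_nonneg fun y => (avg_mem_Icc h hs (((continuous_glev hT).comp hU.continuous).div_const _)
        (fun x => psi_deriv_mem hT hΛ hη _) y).1
    have hP := h.per_nonneg u
    refine mul_le_mul (add_le_add le_rfl (mul_le_mul_of_nonneg_right ?_ ht.le))
      (hw.trans (add_le_add le_rfl (mul_le_mul_of_nonneg_right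
        (mul_le_mul_of_nonneg_right ?_ hs.le) hP)))
      (setIntegral_nonneg measurableSet_ball fun z _ => mul_nonneg (psi_deriv_mem hT hΛ hη _).1
        (mul_nonneg (CH.conorm_nonneg z _) (h.dens_pos z).le)) ?_
    · rw [hCdef]; linarith [H.C_nonneg]
    · rw [hCdef]; linarith [H.C_nonneg]
    · have : 0 ≤ C := by rw [hCdef]; linarith [H.C_nonneg]
      positivity
  · -- closeness
    have hTc : Continuous fun x => x + t • Z x :=
      continuous_id.add (H.smooth.continuous.const_smul t)
    have hg0 : ∀ z, 0 ≤ u z * (1 - u z) := fun z =>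
      mul_nonneg (hu.2.2 z).1 (sub_nonneg.2 (hu.2.2 z).2)
    have c1 : Continuous fun z => |U z - u z| := (hU.continuous.sub hu.1.continuous).abs
    have c2 : Continuous fun z => u z * (1 - u z) :=
      hu.1.continuous.mul (continuous_const.sub hu.1.continuous)
    have p1 := (step_push H hK ht' c1 fun z => abs_nonneg _).trans
      (mul_le_mul_of_nonneg_left hL1 zero_le_two)
    have hgi : Integrable fun z => u z * (1 - u z) * dens G z := by
      refine (hu.integrable hK ((continuous_const.sub hu.1.continuous).mul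
        h.continuous_dens (f := fun z => (1 : ℝ) - u z))).congr (Eventually.of_forall fun z => ?_)
      simp only [Pi.mul_apply]
      ring
    have p2 : ∫ x in K, u (x + t • Z x) * (1 - u (x + t • Z x)) ≤ 2 / md * gap G u := by
      refine (step_push H hK ht' c2 hg0).trans ?_
      rw [div_mul_eq_mul_div, le_div_iff₀ hmd, mul_assoc]
      refine mul_le_mul_of_nonneg_left ?_ zero_le_two
      rw [← integral_mul_const]
      refine (setIntegral_mono_on ((c2.mul continuous_const).continuousOn.integrableOn_compact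
        (isCompact_closedBall _ _)) hgi.integrableOn measurableSet_closedBall fun z hz =>
          mul_le_mul_of_nonneg_left (hmdle z hz) (hg0 z)).trans ?_
      exact setIntegral_le_integral hgi (Eventually.of_forall fun z =>
        mul_nonneg (hg0 z) (h.dens_pos z).le)
    have p3 := hlone t ht htτ u hu
    have hsum : ∫ x in K, |v x - u x| ≤ 2 * (∫ x in K, |U (x + t • Z x) - u (x + t • Z x)|) +
        2 * (∫ x in K, u (x + t • Z x) * (1 - u (x + t • Z x))) +
        ∫ x in K, |u (x + t • Z x) - u x| := by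
      have j1 : IntegrableOn (fun x => |U (x + t • Z x) - u (x + t • Z x)|) K :=
        (c1.comp hTc).continuousOn.integrableOn_compact hK
      have j2 : IntegrableOn (fun x => u (x + t • Z x) * (1 - u (x + t • Z x))) K :=
        (c2.comp hTc).continuousOn.integrableOn_compact hK
      have j3 : IntegrableOn (fun x => |u (x + t • Z x) - u x|) K :=
        ((hu.1.continuous.comp hTc).sub hu.1.continuous).abs.continuousOn.integrableOn_compact hK
      rw [← integral_const_mul, ← integral_const_mul,
        ← integral_add (j1.const_mul 2) (j2.const_mul 2),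
        ← integral_add ?_ j3]
      swap
      · exact (j1.const_mul 2).add (j2.const_mul 2)
      refine setIntegral_mono_on ((hv.1.continuous.sub
        hu.1.continuous).abs.continuousOn.integrableOn_compact hK) ?_ hK.measurableSet fun x hx => ?_
      · exact ((j1.const_mul 2).add (j2.const_mul 2)).add j3
      rw [(hev x hx).eq_of_nhds]
      simp only [F]
      have q1 := psi_abs_sub_le hT hΛ hη (U (x + t • Z x)) (u (x + t • Z x))
      have q2 := psi_close hT hΛ hη (hu.2.2 (x + t • Z x))
      have q3 := abs_sub_le (psi T η (U (x + t • Z x))) (psi T η (u (x + t • Z x))) (u x)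
      have q4 := abs_sub_le (psi T η (u (x + t • Z x))) (u (x + t • Z x)) (u x)
      linarith
    have hP := h.per_nonneg u
    have hgap := h.gap_nonneg hu.2.2
    have key : ∫ x in K, |v x - u x| ≤ (4 * CC + CL + 4 / md) * ((t + s) * per G u + gap G u) := by
      have : 0 ≤ CL * s * per G u := by positivity
      have : 0 ≤ 4 * CC * t * per G u := by positivity
      have : 0 ≤ 4 * CC * gap G u := mul_nonneg (by positivity) hgap
      have : 0 ≤ CL * gap G u := mul_nonneg hCL hgap
      have : 0 ≤ 4 / md * ((t + s) * per G u) := by positivity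
      linear_combination hsum + 2 * p1 + 2 * p2 + p3 + (1 : ℝ) * ‹0 ≤ CL * s * per G u›
        + ‹0 ≤ 4 * CC * t * per G u› + ‹0 ≤ 4 * CC * gap G u› + ‹0 ≤ CL * gap G u› + this
    refine (mul_le_mul_of_nonneg_left key hd0).trans ?_
    rw [← mul_assoc]
    exact mul_le_mul_of_nonneg_right (by rw [hCdef]; linarith [H.C_nonneg])
      (add_nonneg (mul_nonneg (by linarith) hP) hgap)
  · have habs : ∀ {g : (Fin n → ℝ) → ℝ}, Continuous g → (∀ x ∉ K, g x = 0) →
        (∀ x, g x ≤ |v x - u x|) → ∫ x, g x * dens G x ≤ Cd * ∫ x in K, |v x - u x| := by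
      intro g hg hg0 hgle
      rw [← setIntegral_eq_integral_of_forall_compl_eq_zero (s := K) fun x hx => by
        rw [hg0 x hx, zero_mul], ← integral_const_mul]
      refine setIntegral_mono_on ((hg.mul h.continuous_dens).continuousOn.integrableOn_compact hK)
        (((hv.1.continuous.sub hu.1.continuous).abs.const_mul
          Cd).continuousOn.integrableOn_compact hK) hK.measurableSet fun x hx => ?_
      refine (mul_le_mul_of_nonneg_right (hgle x) (h.dens_pos x).le).trans ?_
      rw [mul_comm Cd]
      refine mul_le_mul_of_nonneg_left ?_ (abs_nonneg _)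
      have := hdM x hx
      rw [Real.norm_of_nonneg (h.dens_pos x).le] at this
      rw [hCdd]
      linarith [le_abs_self dM]
    have hvz : ∀ x ∉ K, v x = 0 ∧ u x = 0 := fun x hx => ⟨hv0 x hx, comp_eq_zero hu hx⟩
    constructor
    · have := habs (hu.1.continuous.sub hv.1.continuous)
        (fun x hx => by simp [hvz x hx]) fun x => by rw [abs_sub_comm]; exact le_abs_self _
      simp only [Pi.sub_apply] at this
      have e : ∫ x, (u x - v x) * dens G x = vol G u - vol G v := by
        simp only [sub_mul, vol]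
        exact integral_sub (hu.integrable hK h.continuous_dens) (hv.integrable hK h.continuous_dens)
      linarith
    · have := habs ((hv.1.continuous.mul (continuous_const.sub hv.1.continuous)).sub
        (hu.1.continuous.mul ((continuous_const (y := (1 : ℝ))).sub hu.1.continuous)))
        (fun x hx => by simp [hvz x hx]) fun x => by
          simp only [Pi.sub_apply, Pi.mul_apply]
          obtain ⟨a0, a1⟩ := hv.2.2 x
          obtain ⟨b0, b1⟩ := hu.2.2 x
          rw [show v x * (1 - v x) - u x * (1 - u x) = (v x - u x) * (1 - v x - u x) by ring]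
          refine (le_abs_self _).trans ?_
          rw [abs_mul]
          exact mul_le_of_le_one_right (abs_nonneg _) (by rw [abs_le]; constructor <;> linarith)
      simp only [Pi.sub_apply, Pi.mul_apply] at this
      have hi : ∀ w : (Fin n → ℝ) → ℝ, Comp K w →
          Integrable fun x => w x * (1 - w x) * dens G x := fun w hw =>
        (hw.integrable hK ((continuous_const.sub hw.1.continuous).mul h.continuous_dens
          (f := fun x => (1 : ℝ) - w x))).congr (Eventually.of_forall fun x => by
            simp only [Pi.mul_apply]; ring)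
      have e : ∫ x, (v x * (1 - v x) - u x * (1 - u x)) * dens G x = gap G v - gap G u := by
        simp only [sub_mul, gap]
        exact integral_sub (hi v hv) (hi u hu)
      linarith

end Vale.Agent.P219.CH.Bend
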