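import Vale.Agent.P219.Bend.ShiftKernel
import Vale.Agent.P219.Sharp.Basic
import Vale.Agent.P219.CH.VarField
import Vale.Agent.P219.Sharp.LowerShift

/-!
# P219, good shifts: the Gaussian average of a competitor

The average `avg G s u` is `C¹`; in the mean its weight `conorm * dens` is at most the Gaussian
smearing of `|du| dens` and it is at distance `O(s)` from `u`, up to errors `O(s) per`.
-/

noncomputable section

open MeasureTheory ProbabilityTheory Set Filter Topology Matrix
open scoped ENNReal NNReal Real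

namespace Vale.Agent.P219.CH.Bend

open Sharp

variable {n : ℕ} {G : (Fin n → ℝ) → Matrix (Fin n) (Fin n) ℝ}
  {D : (Fin n → ℝ) → (Fin n → ℝ) → ℝ} {K : Set (Fin n → ℝ)} {u : (Fin n → ℝ) → ℝ}

lemma avg_eq_shift (s : ℝ) (φ : (Fin n → ℝ) → ℝ) (x : Fin n → ℝ) :
    avg G s φ x = ∫ a, φ (x + a) * kk G s x a := by
  rw [avg, ← integral_add_left_eq_self (fun y => φ y * ker G s x y) x]
  simp only [ker_eq_kk, add_sub_cancel_left]

lemma kk_mass (h : IsCH G D) {s : ℝ} (hs : 0 < s) (x : Fin n → ℝ) : ∫ a, kk G s x a = 1 := by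
  obtain ⟨hAt, hA, -, hdet⟩ := frame_spec h x
  have h1 := integral_toFrame h hs hAt hA hdet fun _ => (1 : ℝ)
  rw [avg_eq_shift] at h1
  simpa using h1.symm

/-- The derivative of the integrand. -/
def kkDeriv (G : (Fin n → ℝ) → Matrix (Fin n) (Fin n) ℝ) (u : (Fin n → ℝ) → ℝ) (s c₀ : ℝ)
    (x a : Fin n → ℝ) : (Fin n → ℝ) →L[ℝ] ℝ :=
  kk G s x a • fderiv ℝ u (x + a) + (u (x + a) - c₀) • fderiv ℝ (fun z => kk G s z a) x

lemma continuous_kkDeriv (h : IsCH G D) (hu : ContDiff ℝ 1 u) (s c₀ : ℝ) :
    Continuous fun p : (Fin n → ℝ) × (Fin n → ℝ) => kkDeriv G u s c₀ p.1 p.2 := by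
  refine ((continuous_kk h s).smul ((hu.continuous_fderiv one_ne_zero).comp
    (continuous_fst.add continuous_snd))).add
    (((hu.continuous.comp (continuous_fst.add continuous_snd)).sub continuous_const).smul ?_)
  exact (ContDiff.fderiv (n := 0) (m := 1)
    (f := fun (p : (Fin n → ℝ) × (Fin n → ℝ)) (z : Fin n → ℝ) => kk G s z p.2)
    ((contDiff_kk h s).comp (contDiff_snd.prodMk (contDiff_snd.comp contDiff_fst)))
    contDiff_fst (by simp)).continuous

lemma norm_fderiv_kk_le {s c C ρ : ℝ} {x a : Fin n → ℝ} (hx : ‖x‖ < ρ) (hC : 0 ≤ C) (hs : 0 < s)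
    (hb : ∀ x, ‖x‖ ≤ ρ → ∀ y, ‖y‖ ≤ ρ → |kk G s x a - kk G s y a| ≤ C * ‖x - y‖ * env c s a) :
    ‖fderiv ℝ (fun z => kk G s z a) x‖ ≤ C * env c s a := by
  have h0 : 0 ≤ C * env c s a := mul_nonneg hC (env_nonneg hs c a)
  have hmem : Metric.closedBall (0 : Fin n → ℝ) ρ ∈ 𝓝 x :=
    mem_of_superset (Metric.isOpen_ball.mem_nhds (by simpa using hx)) Metric.ball_subset_closedBall
  have hL : LipschitzOnWith ⟨C * env c s a, h0⟩ (fun z => kk G s z a)
      (Metric.closedBall (0 : Fin n → ℝ) ρ) :=
    LipschitzOnWith.of_dist_le_mul fun y hy z hz => by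
      rw [Real.dist_eq, dist_eq_norm]
      refine (hb y (mem_closedBall_zero_iff.1 hy) z (mem_closedBall_zero_iff.1 hz)).trans (le_of_eq ?_)
      show C * ‖y - z‖ * env c s a = C * env c s a * ‖y - z‖
      ring
  exact norm_fderiv_le_of_lipschitzOn ℝ hmem hL

lemma kkDeriv_bound (h : IsCH G D) (hu : Comp K u) {s c C ρ Cu : ℝ} (hs : 0 < s) (hC : 0 ≤ C)
    (c₀ : ℝ)
    (hb : ∀ a x, ‖x‖ ≤ ρ → kk G s x a ≤ C * env c s a ∧
      ∀ y, ‖y‖ ≤ ρ → |kk G s x a - kk G s y a| ≤ C * ‖x - y‖ * env c s a)
    (hCu : ∀ y, ‖fderiv ℝ u y‖ ≤ Cu) {x : Fin n → ℝ} (hx : ‖x‖ < ρ) (a : Fin n → ℝ) :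
    ‖kkDeriv G u s c₀ x a‖ ≤ (C * Cu + (1 + |c₀|) * C) * env c s a := by
  have h1 : |u (x + a) - c₀| ≤ 1 + |c₀| := by
    have := hu.2.2 (x + a)
    rw [abs_le]
    constructor <;> linarith [this.1, this.2, neg_abs_le c₀, le_abs_self c₀]
  have h2 : ‖fderiv ℝ (fun z => kk G s z a) x‖ ≤ C * env c s a :=
    norm_fderiv_kk_le hx hC hs fun x hx => (hb a x hx).2
  have h3 : kk G s x a * ‖fderiv ℝ u (x + a)‖ ≤ C * env c s a * Cu :=
    mul_le_mul (hb a x hx.le).1 (hCu _) (norm_nonneg _) (mul_nonneg hC (env_nonneg hs c a))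
  have h4 : ‖u (x + a) - c₀‖ * ‖fderiv ℝ (fun z => kk G s z a) x‖ ≤ (1 + |c₀|) * (C * env c s a) :=
    mul_le_mul h1 h2 (norm_nonneg _) (add_nonneg zero_le_one (abs_nonneg c₀))
  refine (norm_add_le _ _).trans ?_
  rw [norm_smul, norm_smul, Real.norm_of_nonneg (kk_nonneg h hs x a)]
  linarith

lemma hasFDerivAt_kkIntegrand (h : IsCH G D) (hu : ContDiff ℝ 1 u) (s c₀ : ℝ) (x a : Fin n → ℝ) :
    HasFDerivAt (fun z => (u (z + a) - c₀) * kk G s z a) (kkDeriv G u s c₀ x a) x := by
  have h1 : HasFDerivAt (fun z => u (z + a) - c₀) (fderiv ℝ u (x + a)) x :=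
    ((hu.differentiable one_ne_zero (x + a)).hasFDerivAt.comp x
      ((hasFDerivAt_id x).add_const a)).sub_const c₀
  have h2 : HasFDerivAt (fun z => kk G s z a) (fderiv ℝ (fun z => kk G s z a) x) x :=
    ((((contDiff_kk h s).comp (contDiff_id.prodMk contDiff_const)).differentiable
      one_ne_zero) x).hasFDerivAt
  exact (h1.mul h2).congr_fderiv (add_comm _ _)

lemma kk_integrable (h : IsCH G D) {s c C : ℝ} (hs : 0 < s) (hc : 0 < c) {x : Fin n → ℝ}
    (hb : ∀ a, kk G s x a ≤ C * env c s a) : Integrable (kk G s x) :=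
  ((env_integral (n := n) hc hs).1.const_mul C).mono'
    ((continuous_kk h s).comp (continuous_const.prodMk continuous_id)).aestronglyMeasurable
    (Eventually.of_forall fun a => by
      rw [Real.norm_of_nonneg (kk_nonneg h hs x a)]
      exact hb a)

lemma avg_split (h : IsCH G D) (hu : Comp K u) {s c C : ℝ} (hs : 0 < s) (hc : 0 < c) (c₀ : ℝ)
    {x : Fin n → ℝ} (hb : ∀ a, kk G s x a ≤ C * env c s a) :
    Integrable (fun a => (u (x + a) - c₀) * kk G s x a) ∧
      avg G s u x = (∫ a, (u (x + a) - c₀) * kk G s x a) + c₀ := by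
  have hki := kk_integrable h hs hc hb
  have hi : Integrable fun a => (u (x + a) - c₀) * kk G s x a :=
    (hki.const_mul (1 + |c₀|)).mono'
      (((hu.1.continuous.comp (continuous_const.add continuous_id)).sub continuous_const).mul
        ((continuous_kk h s).comp (continuous_const.prodMk continuous_id))).aestronglyMeasurable
      (Eventually.of_forall fun a => by
        rw [norm_mul, Real.norm_of_nonneg (kk_nonneg h hs x a)]
        refine mul_le_mul_of_nonneg_right ?_ (kk_nonneg h hs x a)
        have := hu.2.2 (x + a)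
        rw [Real.norm_eq_abs, abs_le]
        constructor <;> linarith [this.1, this.2, neg_abs_le c₀, le_abs_self c₀])
  refine ⟨hi, ?_⟩
  have e : ∀ a, u (x + a) * kk G s x a = (u (x + a) - c₀) * kk G s x a + c₀ * kk G s x a :=
    fun a => by ring
  rw [avg_eq_shift, integral_congr_ae (Eventually.of_forall e),
    integral_add hi (hki.const_mul c₀), integral_const_mul, kk_mass h hs, mul_one]

/-- The average is differentiable, with continuous derivative. -/
theorem hasFDerivAt_avg (h : IsCH G D) (hK : IsCompact K) (hu : Comp K u) {s : ℝ} (hs : 0 < s)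
    (c₀ : ℝ) (x₀ : Fin n → ℝ) :
    Integrable (kkDeriv G u s c₀ x₀) ∧ HasFDerivAt (avg G s u) (∫ a, kkDeriv G u s c₀ x₀ a) x₀ ∧
      ContinuousAt (fun x => ∫ a, kkDeriv G u s c₀ x a) x₀ := by
  obtain ⟨c, C, hc, hC, hb⟩ := kk_bounds h (‖x₀‖ + 2)
  obtain ⟨Cu, hCu⟩ := (hu.1.continuous_fderiv one_ne_zero).bounded_above_of_compact_support
    ((comp_hasCompactSupport hK hu).fderiv ℝ)
  obtain ⟨M, hM⟩ : ∃ M, M = C * Cu + (1 + |c₀|) * C := ⟨_, rfl⟩
  have hball : ∀ x ∈ Metric.ball x₀ 1, ‖x‖ < ‖x₀‖ + 2 := fun x hx => by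
    rw [Metric.mem_ball, dist_eq_norm] at hx
    have := norm_le_norm_add_norm_sub' x x₀
    linarith
  have hbound : ∀ a, ∀ x ∈ Metric.ball x₀ 1, ‖kkDeriv G u s c₀ x a‖ ≤ M * env c s a := fun a x hx =>
    hM ▸ kkDeriv_bound h hu hs hC c₀ (hb s hs) hCu (hball x hx) a
  have hcont : ∀ x, Continuous (kkDeriv G u s c₀ x) := fun x =>
    Continuous.uncurry_left (f := kkDeriv G u s c₀) x (continuous_kkDeriv h hu.1 s c₀)
  have henv : Integrable fun a => M * env c s a := (env_integral (n := n) hc hs).1.const_mul M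
  have hsp : ∀ x ∈ Metric.ball x₀ 1, _ := fun x hx =>
    avg_split h hu hs hc c₀ fun a => (hb s hs a x (hball x hx).le).1
  have hd : HasFDerivAt (fun x => ∫ a, (u (x + a) - c₀) * kk G s x a)
      (∫ a, kkDeriv G u s c₀ x₀ a) x₀ :=
    hasFDerivAt_integral_of_dominated_of_fderiv_le (Metric.ball_mem_nhds x₀ one_pos)
      (Eventually.of_forall fun x => (((hu.1.continuous.comp (continuous_const.add continuous_id)).sub
        continuous_const).mul ((continuous_kk h s).comp
          (continuous_const.prodMk continuous_id))).aestronglyMeasurable)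
      (hsp x₀ (Metric.mem_ball_self one_pos)).1 (hcont x₀).aestronglyMeasurable
      (Eventually.of_forall hbound) henv
      (Eventually.of_forall fun a x _ => hasFDerivAt_kkIntegrand h hu.1 s c₀ x a)
  refine ⟨henv.mono' (hcont x₀).aestronglyMeasurable (Eventually.of_forall fun a =>
    hbound a x₀ (Metric.mem_ball_self one_pos)), (hd.add_const c₀).congr_of_eventuallyEq ?_, ?_⟩
  · filter_upwards [Metric.ball_mem_nhds x₀ one_pos] with x hx
    exact (hsp x hx).2
  · refine continuousAt_of_dominated (Eventually.of_forall fun x => (hcont x).aestronglyMeasurable)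
      ?_ henv (Eventually.of_forall fun a =>
        (Continuous.uncurry_right (f := kkDeriv G u s c₀) a
          (continuous_kkDeriv h hu.1 s c₀)).continuousAt)
    filter_upwards [Metric.ball_mem_nhds x₀ one_pos] with x hx using
      Eventually.of_forall fun a => hbound a x hx

theorem contDiff_avg (h : IsCH G D) (hK : IsCompact K) (hu : Comp K u) {s : ℝ} (hs : 0 < s) :
    ContDiff ℝ 1 (avg G s u) := by
  refine contDiff_one_iff_fderiv.2
    ⟨fun x => (hasFDerivAt_avg h hK hu hs 0 x).2.1.differentiableAt, ?_⟩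
  rw [show fderiv ℝ (avg G s u) = fun x => ∫ a, kkDeriv G u s 0 x a from
    funext fun x => (hasFDerivAt_avg h hK hu hs 0 x).2.1.fderiv]
  exact continuous_iff_continuousAt.2 fun x => (hasFDerivAt_avg h hK hu hs 0 x).2.2

lemma continuous_pmWeight (h : IsCH G D) (hu : ContDiff ℝ 1 u) :
    Continuous fun y => conorm G y (cd u y) * dens G y :=
  continuous_weight h hu

/-- On a ball the weight of the average is at most the smeared weight of `u` up to small terms. -/
theorem avg_weight_le (h : IsCH G D) (hK : IsCompact K) (ρ : ℝ)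
    (hKρ : K ⊆ Metric.closedBall (0 : Fin n → ℝ) ρ) :
    ∃ c C : ℝ, 0 < c ∧ 0 ≤ C ∧ ∀ s, 0 < s → ∀ u, Comp K u → ∀ x, ‖x‖ < ρ →
      conorm G x (cd (avg G s u) x) * dens G x ≤
        (∫ y, conorm G y (cd u y) * dens G y * ker G s y x)
        + C * s * (∫ a, conorm G (x + a) (cd u (x + a)) * dens G (x + a) * env c s a)
        + C * ∫ a, |u (x + a) - u x| * env c s a := by
  obtain ⟨c, C, hc, hC, hb⟩ := kk_bounds h ρ
  obtain ⟨CL, hCL, hLip⟩ := weight_lipschitz h ρ
  obtain ⟨CA, hCA0, hCA⟩ := h.exists_norm_inv_mulVec_le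
    (isCompact_closedBall (0 : Fin n → ℝ) ρ)
  obtain ⟨dM, hdM⟩ := (isCompact_closedBall (0 : Fin n → ℝ) ρ).exists_bound_of_continuousOn
    (continuous_dens h).continuousOn
  set E₁ := (CL * C + (1 + CL * (2 * |ρ|)) * C) * (1 + 2 / c)
  set E₂ := CA * C * (|dM| + 1)
  have hE₁ : 0 ≤ E₁ := by positivity
  have hE₂ : 0 ≤ E₂ := by positivity
  refine ⟨c / 2, E₁ + E₂, by positivity, by positivity, fun s hs u hu x hx => ?_⟩
  have hx' : x ∈ Metric.closedBall (0 : Fin n → ℝ) ρ := mem_closedBall_zero_iff.2 hx.le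
  have hdx : dens G x ≤ |dM| + 1 := by
    have := hdM x hx'
    rw [Real.norm_of_nonneg (h.dens_pos x).le] at this
    linarith [le_abs_self dM]
  have hwc := continuous_pmWeight h hu.1
  set w := fun y => conorm G y (cd u y) * dens G y
  have hw0 : ∀ y, 0 ≤ w y := fun y => mul_nonneg (conorm_nonneg y _) (h.dens_pos y).le
  obtain ⟨Cw, hCw⟩ := hwc.bounded_above_of_compact_support
    (HasCompactSupport.intro hK fun y hy => by simp [w, cd_eq_zero hu hy, conorm, pairing])
  have hh := env_integral (n := n) (half_pos hc) hs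
  have i1 : Integrable fun a => w (x + a) * kk G s (x + a) a := by
    refine Continuous.integrable_of_hasCompactSupport ((hwc.comp (continuous_const.add continuous_id)).mul
      ((continuous_kk h s).comp ((continuous_const.add continuous_id).prodMk continuous_id)))
      (HasCompactSupport.intro (hK.image (continuous_id.sub continuous_const : Continuous fun y => y - x))
        fun a ha => ?_)
    have : x + a ∉ K := fun hm => ha ⟨x + a, hm, add_sub_cancel_left x a⟩
    simp [w, cd_eq_zero hu this, conorm, pairing]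
  have i2 : Integrable fun a => w (x + a) * env (c / 2) s a :=
    (hh.1.const_mul Cw).mono' ((hwc.comp (continuous_const.add continuous_id)).mul
      (continuous_env _ _)).aestronglyMeasurable (Eventually.of_forall fun a => by
        rw [norm_mul, Real.norm_of_nonneg (env_nonneg hs _ a)]
        exact mul_le_mul_of_nonneg_right (hCw _) (env_nonneg hs _ a))
  have i3 : Integrable fun a => |u (x + a) - u x| * env (c / 2) s a :=
    hh.1.mono' (((hu.1.continuous.comp (continuous_const.add continuous_id)).sub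
      continuous_const).abs.mul (continuous_env _ _)).aestronglyMeasurable
      (Eventually.of_forall fun a => by
        rw [norm_mul, Real.norm_of_nonneg (env_nonneg hs _ a), Real.norm_eq_abs, abs_abs]
        refine mul_le_of_le_one_left (env_nonneg hs _ a) ?_
        have h1 := hu.2.2 x
        have h2 := hu.2.2 (x + a)
        rw [abs_le]
        constructor <;> linarith [h1.1, h1.2, h2.1, h2.2])
  have hRHS : ∫ a, (w (x + a) * kk G s (x + a) a + E₁ * s * (w (x + a) * env (c / 2) s a)
      + E₂ * (|u (x + a) - u x| * env (c / 2) s a)) =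
      (∫ y, w y * ker G s y x) + E₁ * s * (∫ a, w (x + a) * env (c / 2) s a)
        + E₂ * ∫ a, |u (x + a) - u x| * env (c / 2) s a := by
    have i12 : Integrable fun a =>
        w (x + a) * kk G s (x + a) a + E₁ * s * (w (x + a) * env (c / 2) s a) :=
      i1.add (i2.const_mul _)
    rw [integral_add i12 (i3.const_mul _), integral_add i1 (i2.const_mul _), integral_const_mul,
      integral_const_mul, ← integral_add_left_eq_self (fun y => w y * ker G s y x) x]
    simp only [ker_eq_kk, show ∀ a : Fin n → ℝ, x - (x + a) = -a from fun a => by abel, kk_neg]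
  have hI2 : 0 ≤ ∫ a, w (x + a) * env (c / 2) s a :=
    integral_nonneg fun a => mul_nonneg (hw0 _) (env_nonneg hs _ a)
  have hI3 : 0 ≤ ∫ a, |u (x + a) - u x| * env (c / 2) s a :=
    integral_nonneg fun a => mul_nonneg (abs_nonneg _) (env_nonneg hs _ a)
  suffices key : conorm G x (cd (avg G s u) x) * dens G x ≤
      ∫ a, (w (x + a) * kk G s (x + a) a + E₁ * s * (w (x + a) * env (c / 2) s a)
        + E₂ * (|u (x + a) - u x| * env (c / 2) s a)) by
    rw [hRHS] at key
    have := mul_nonneg (mul_nonneg hE₂ hs.le) hI2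
    have := mul_nonneg hE₁ hI3
    linarith
  obtain ⟨Ξ, hΞ⟩ : ∃ Ξ, Ξ = cd (avg G s u) x := ⟨_, rfl⟩
  rw [← hΞ]
  rcases eq_or_ne Ξ 0 with h0 | h0
  · rw [h0, conorm_zero, zero_mul]
    exact integral_nonneg fun a => add_nonneg (add_nonneg (mul_nonneg (hw0 _) (kk_nonneg h hs _ a))
      (mul_nonneg (by positivity) (mul_nonneg (hw0 _) (env_nonneg hs _ a))))
      (mul_nonneg hE₂ (mul_nonneg (abs_nonneg _) (env_nonneg hs _ a)))
  have hq0 := h.conorm_pos x h0
  set v := (conorm G x Ξ)⁻¹ • ((G x)⁻¹ *ᵥ Ξ) with hv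
  have hvn : ‖v‖ ≤ CA := by
    rw [hv, norm_smul, norm_inv, Real.norm_of_nonneg hq0.le, inv_mul_le_iff₀ hq0, mul_comm]
    exact hCA x hx' Ξ
  have hΞv : Ξ ⬝ᵥ v = conorm G x Ξ := by
    rw [hv, dotProduct_smul, smul_eq_mul, show Ξ ⬝ᵥ ((G x)⁻¹ *ᵥ Ξ) = conorm G x Ξ ^ 2 by
      rw [h.conorm_sq]; rfl]
    field_simp
  have hqv : qf G x v = 1 := by
    have : qf G x ((G x)⁻¹ *ᵥ Ξ) = conorm G x Ξ ^ 2 := by
      rw [h.conorm_sq, qf, mulVec_mulVec,
        mul_nonsing_inv _ (isUnit_iff_ne_zero.2 (h.det_pos x).ne'), one_mulVec, dotProduct_comm]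
      rfl
    rw [hv, qf_smul, this]
    field_simp
  obtain ⟨hi, hder, -⟩ := hasFDerivAt_avg h hK hu hs (u x) x
  have e : conorm G x Ξ = ∫ a, kkDeriv G u s (u x) x a v := by
    rw [← hΞv, hΞ, cd_dotProduct, hder.fderiv, ← ContinuousLinearMap.integral_apply hi]
  have hval : Integrable fun a => kkDeriv G u s (u x) x a v :=
    (ContinuousLinearMap.apply ℝ ℝ v).integrable_comp hi
  rw [e, ← integral_mul_const]
  refine integral_mono (hval.mul_const _) ((i1.add (i2.const_mul _)).add (i3.const_mul _)) fun a => ?_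
  simp only [kkDeriv, _root_.add_apply, _root_.smul_apply, smul_eq_mul]
  have t2 : (u (x + a) - u x) * fderiv ℝ (fun z => kk G s z a) x v * dens G x ≤
      E₂ * (|u (x + a) - u x| * env (c / 2) s a) := by
    have h1 := (fderiv ℝ (fun z => kk G s z a) x).le_opNorm v
    have h2 := norm_fderiv_kk_le hx hC hs fun x hx => (hb s hs a x hx).2
    have h3 : (u (x + a) - u x) * fderiv ℝ (fun z => kk G s z a) x v ≤
        |u (x + a) - u x| * (C * env c s a * CA) := by
      refine (le_abs_self _).trans ?_
      rw [abs_mul]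
      exact mul_le_mul_of_nonneg_left (h1.trans (mul_le_mul h2 hvn (norm_nonneg _)
        (mul_nonneg hC (env_nonneg hs c a)))) (abs_nonneg _)
    calc _ ≤ |u (x + a) - u x| * (C * env c s a * CA) * (|dM| + 1) :=
          mul_le_mul h3 hdx (h.dens_pos x).le (mul_nonneg (abs_nonneg _)
            (mul_nonneg (mul_nonneg hC (env_nonneg hs c a)) hCA0))
      _ = E₂ * (|u (x + a) - u x| * env c s a) := by simp only [E₂]; ring
      _ ≤ _ := mul_le_mul_of_nonneg_left (mul_le_mul_of_nonneg_left
          (env_mono hs (by linarith) a) (abs_nonneg _)) hE₂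
  have t1 : kk G s x a * fderiv ℝ u (x + a) v * dens G x ≤
      w (x + a) * kk G s (x + a) a + E₁ * s * (w (x + a) * env (c / 2) s a) := by
    have hk0 := kk_nonneg h hs x a
    by_cases hy : x + a ∈ K
    swap
    · have e0 : fderiv ℝ u (x + a) v = 0 := by
        rw [← cd_dotProduct, cd_eq_zero hu hy, zero_dotProduct]
      rw [e0, mul_zero, zero_mul]
      exact add_nonneg (mul_nonneg (hw0 _) (kk_nonneg h hs _ a))
        (mul_nonneg (by positivity) (mul_nonneg (hw0 _) (env_nonneg hs _ a)))
    set y := x + a with hy_def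
    have hyn : ‖y‖ ≤ ρ := mem_closedBall_zero_iff.1 (hKρ hy)
    have hxy : ‖x - y‖ = ‖a‖ := by rw [hy_def]; simp
    have han : ‖a‖ ≤ 2 * |ρ| := by
      rw [← hxy]; exact (norm_sub_le _ _).trans (by linarith [le_abs_self ρ])
    have h1 : fderiv ℝ u y v * dens G x ≤ (1 + CL * ‖a‖) * w y := by
      rw [← cd_dotProduct]
      have h2 := abs_dot_le h x (cd u y) v
      rw [hqv, Real.sqrt_one, mul_one] at h2
      refine (mul_le_mul_of_nonneg_right ((le_abs_self _).trans h2) (h.dens_pos x).le).trans ?_
      rw [← hxy]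
      exact hLip x y hx.le hyn (cd u y)
    have h2 : kk G s x a ≤ kk G s y a + C * ‖a‖ * env c s a := by
      have := (abs_le.1 ((hb s hs a x hx.le).2 y hyn)).2
      rw [hxy] at this
      linarith
    have he := env_nonneg hs c a
    calc kk G s x a * fderiv ℝ u y v * dens G x = kk G s x a * (fderiv ℝ u y v * dens G x) := by ring
      _ ≤ kk G s x a * ((1 + CL * ‖a‖) * w y) := mul_le_mul_of_nonneg_left h1 hk0
      _ ≤ (kk G s y a + C * ‖a‖ * env c s a) * w y + CL * ‖a‖ * w y * (C * env c s a) := by
          have := mul_le_mul_of_nonneg_right h2 (hw0 y)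
          have := mul_le_mul_of_nonneg_left ((hb s hs a x hx.le).1)
            (mul_nonneg (mul_nonneg hCL (norm_nonneg a)) (hw0 y))
          linarith
      _ ≤ w y * kk G s y a + (CL * C + (1 + CL * (2 * |ρ|)) * C) * (‖a‖ * env c s a) * w y := by
          have h3 : 0 ≤ CL * (2 * |ρ|) * C * (‖a‖ * env c s a) * w y := by
            have := hw0 y; positivity
          linarith
      _ ≤ _ := by
          refine add_le_add le_rfl ?_
          calc (CL * C + (1 + CL * (2 * |ρ|)) * C) * (‖a‖ * env c s a) * w y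
              ≤ (CL * C + (1 + CL * (2 * |ρ|)) * C) * ((1 + 2 / c) * s * env (c / 2) s a) * w y :=
                mul_le_mul_of_nonneg_right (mul_le_mul_of_nonneg_left (norm_mul_env_le hc hs a)
                  (by positivity)) (hw0 y)
            _ = _ := by simp only [E₁]; ring
  linarith

lemma double_bound {F : (Fin n → ℝ) → (Fin n → ℝ) → ℝ} (hF : Continuous (Function.uncurry F))
    (h0 : ∀ x a, 0 ≤ F x a) {B : (Fin n → ℝ) → ℝ} (hB : Integrable B)
    (hi : ∀ a, Integrable fun x => F x a) (hle : ∀ a, ∫ x, F x a ≤ B a) :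
    Integrable (fun x => ∫ a, F x a) ∧ ∫ x, ∫ a, F x a ≤ ∫ a, B a := by
  have hint : Integrable (Function.uncurry F) (volume.prod volume) := by
    refine (integrable_prod_iff' hF.aestronglyMeasurable).2 ⟨Eventually.of_forall hi, ?_⟩
    refine hB.mono' (hF.norm.aestronglyMeasurable.prod_swap.integral_prod_right')
      (Eventually.of_forall fun a => ?_)
    rw [Real.norm_of_nonneg (integral_nonneg fun x => norm_nonneg _)]
    refine le_trans (le_of_eq (integral_congr_ae (Eventually.of_forall fun x => ?_))) (hle a)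
    exact Real.norm_of_nonneg (h0 x a)
  refine ⟨hint.integral_prod_left, ?_⟩
  rw [integral_integral_swap hint]
  exact integral_mono hint.integral_prod_right hB hle

/-- The mean oscillation at scale `s`. -/
theorem oscillation_le (h : IsCH G D) (hK : IsCompact K) {c : ℝ} (hc : 0 < c) :
    ∃ C : ℝ, 0 ≤ C ∧ ∀ s, 0 < s → ∀ u, Comp K u →
      Integrable (fun x => ∫ a, |u (x + a) - u x| * env c s a) ∧
      ∫ x, ∫ a, |u (x + a) - u x| * env c s a ≤ C * s * per G u := by
  obtain ⟨CF, hCF, hCFb⟩ := exists_comparison hK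
    (f := fun p : (Fin n → ℝ) × (Fin n → ℝ) => ∑ i, |p.2 i|)
    (g := fun p => conorm G p.1 p.2 * dens G p.1) (by fun_prop)
    ((CH.continuous_conorm h).mul ((CH.continuous_dens h).comp continuous_fst))
    (fun y v a ha => by simp [abs_mul, abs_of_nonneg ha, Finset.mul_sum])
    (fun y v a ha => by simp [CH.conorm_smul h, abs_of_nonneg ha, mul_assoc])
    (fun y _ v hv => mul_pos (h.conorm_pos y hv) (h.dens_pos y))
  refine ⟨(1 + 2 / c) * CF * ∫ a : Fin n → ℝ, Real.exp (-(c / 2 * ‖a‖ ^ 2)), ?_,
    fun s hs u hu => ?_⟩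
  · exact mul_nonneg (by positivity) (integral_nonneg fun a => (Real.exp_pos _).le)
  have hucs := comp_hasCompactSupport hK hu
  have hui : Integrable u := hu.1.continuous.integrable_of_hasCompactSupport hucs
  have h4 : ∫ x, ‖fderiv ℝ u x‖ ≤ CF * per G u := by
    rw [per, ← integral_const_mul]
    refine integral_mono_of_nonneg (Eventually.of_forall fun x => norm_nonneg _)
      ((integrable_per h hK hu).const_mul _) (Eventually.of_forall fun x => ?_)
    simp only
    by_cases hx : x ∈ K
    · refine le_trans ?_ (hCFb x hx (cd u x))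
      refine ContinuousLinearMap.opNorm_le_bound _ (Finset.sum_nonneg fun i _ => abs_nonneg _)
        fun w => ?_
      rw [cd_dot, Real.norm_eq_abs, dotProduct, Finset.sum_mul]
      refine (Finset.abs_sum_le_sum_abs _ _).trans (Finset.sum_le_sum fun i _ => ?_)
      rw [abs_mul]
      exact mul_le_mul_of_nonneg_left
        (by rw [← Real.norm_eq_abs]; exact norm_le_pi_norm w i) (abs_nonneg _)
    · rw [fderiv_of_notMem_tsupport ℝ fun hm => hx (hu.2.1 hm), norm_zero]
      exact mul_nonneg hCF.le (mul_nonneg (Real.sqrt_nonneg _) (h.dens_pos x).le)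
  have henv := env_integral (n := n) (half_pos hc) hs
  have hP := h.per_nonneg u
  have hcont : Continuous (Function.uncurry fun x a : Fin n → ℝ => |u (x + a) - u x| * env c s a) :=
    ((hu.1.continuous.comp (continuous_fst.add continuous_snd)).sub
      (hu.1.continuous.comp continuous_fst)).abs.mul ((continuous_env c s).comp continuous_snd)
  obtain ⟨hI, hle⟩ := double_bound hcont
    (fun x a => mul_nonneg (abs_nonneg _) (env_nonneg hs c a))
    (henv.1.const_mul ((1 + 2 / c) * s * (CF * per G u)))
    (fun a => (((hui.comp_add_right a).sub hui).abs).mul_const _) fun a => by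
      rw [integral_mul_const]
      calc (∫ x, |u (x + a) - u x|) * env c s a ≤ ‖a‖ * (CF * per G u) * env c s a :=
            mul_le_mul_of_nonneg_right ((integral_translate_le hu.1 hucs a).trans
              (mul_le_mul_of_nonneg_left h4 (norm_nonneg a))) (env_nonneg hs c a)
        _ = ‖a‖ * env c s a * (CF * per G u) := by ring
        _ ≤ _ := by
            refine (mul_le_mul_of_nonneg_right (norm_mul_env_le hc hs a) (by positivity)).trans
              (le_of_eq ?_)
            ring
  refine ⟨hI, hle.trans (le_of_eq ?_)⟩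
  rw [integral_const_mul, henv.2]
  ring

/-- In the mean: the weight of the average against a bounded function. -/
theorem avg_weight_integral_le (h : IsCH G D) (hK : IsCompact K) (ρ : ℝ)
    (hKρ : K ⊆ Metric.closedBall (0 : Fin n → ℝ) ρ) :
    ∃ C : ℝ, 0 ≤ C ∧ ∀ s, 0 < s → ∀ u, Comp K u → ∀ φ : (Fin n → ℝ) → ℝ, Continuous φ →
      (∀ x, φ x ∈ Icc (0 : ℝ) 2) →
      ∫ x in Metric.ball (0 : Fin n → ℝ) ρ, φ x * (conorm G x (cd (avg G s u) x) * dens G x) ≤
        (∫ y, avg G s φ y ∂pm G u) + C * s * per G u := by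
  obtain ⟨c, C, hc, hC, hpt⟩ := avg_weight_le h hK ρ hKρ
  obtain ⟨C₃, hC₃, hosc⟩ := oscillation_le h hK hc
  refine ⟨2 * (C * (∫ a : Fin n → ℝ, Real.exp (-(c * ‖a‖ ^ 2))) + C * C₃),
    mul_nonneg zero_le_two (add_nonneg (mul_nonneg hC (integral_nonneg fun a => (Real.exp_pos _).le))
      (mul_nonneg hC hC₃)), fun s hs u hu φ hφ hφ2 => ?_⟩
  have hwc := continuous_pmWeight h hu.1
  set w := fun y => conorm G y (cd u y) * dens G y
  have hw0 : ∀ y, 0 ≤ w y := fun y => mul_nonneg (conorm_nonneg y _) (h.dens_pos y).le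
  have hwi : Integrable w := CH.integrable_per h hK hu
  -- the smeared weight
  have hk : ∀ y, ∫ x, φ x * ker G s y x = avg G s φ y := fun y => rfl
  have hki : ∀ y, Integrable fun x => φ x * ker G s y x := fun y => by
    have h1 : Integrable fun x => ker G s y x := by
      refine Integrable.of_integral_ne_zero ?_
      rw [← integral_add_left_eq_self (fun x => ker G s y x) y]
      simp only [ker_eq_kk, add_sub_cancel_left, kk_mass h hs]
      exact one_ne_zero
    exact (h1.const_mul 2).mono' (hφ.mul ((continuous_ker h s).comp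
      (continuous_const.prodMk continuous_id))).aestronglyMeasurable
      (Eventually.of_forall fun x => by
        rw [norm_mul, Real.norm_of_nonneg (hφ2 x).1, Real.norm_of_nonneg (ker_nonneg h hs y x)]
        exact mul_le_mul_of_nonneg_right (hφ2 x).2 (ker_nonneg h hs y x))
  have hA : Continuous (Function.uncurry fun x y : Fin n → ℝ => φ x * (w y * ker G s y x)) :=
    (hφ.comp continuous_fst).mul ((hwc.comp continuous_snd).mul
      ((continuous_ker h s).comp (continuous_snd.prodMk continuous_fst)))
  have hprod : ∀ y, ∫ x, φ x * (w y * ker G s y x) = avg G s φ y * w y := fun y => by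
    rw [← hk, ← integral_mul_const]
    exact integral_congr_ae (Eventually.of_forall fun x => by ring)
  have havg := avg_mem_Icc h hs hφ hφ2
  have hAi : Integrable fun y => avg G s φ y * w y :=
    hwi.bdd_mul (((hφ.comp continuous_snd).mul (continuous_ker h s)).stronglyMeasurable
      |>.integral_prod_right').aestronglyMeasurable (c := 2) (Eventually.of_forall fun y => by
        show ‖avg G s φ y‖ ≤ 2
        rw [Real.norm_of_nonneg (havg y).1]; exact (havg y).2)
  obtain ⟨iA, leA⟩ := double_bound hA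
    (fun x y => mul_nonneg (hφ2 x).1 (mul_nonneg (hw0 y) (ker_nonneg h hs y x))) hAi
    (fun y => ((hki y).mul_const (w y)).congr (Eventually.of_forall fun x => by ring))
    fun y => (hprod y).le
  rw [show (∫ y, avg G s φ y * w y) = ∫ y, avg G s φ y ∂pm G u from
    (integral_pm h hu.1 (avg G s φ)).symm] at leA
  -- the other two
  have henv := env_integral (n := n) hc hs
  have hB : Continuous (Function.uncurry fun x a : Fin n → ℝ => w (x + a) * env c s a) :=
    (hwc.comp (continuous_fst.add continuous_snd)).mul ((continuous_env c s).comp continuous_snd)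
  obtain ⟨iB, leB⟩ := double_bound hB (fun x a => mul_nonneg (hw0 _) (env_nonneg hs c a))
    (henv.1.const_mul (per G u)) (fun a => (hwi.comp_add_right a).mul_const _) fun a => by
      rw [integral_mul_const, integral_add_right_eq_self w a]
      exact le_rfl
  rw [integral_const_mul, henv.2] at leB
  obtain ⟨iC, leC⟩ := hosc s hs u hu
  -- combine
  have key : ∀ x, (Metric.ball (0 : Fin n → ℝ) ρ).indicator
      (fun x => φ x * (conorm G x (cd (avg G s u) x) * dens G x)) x ≤
      (∫ y, φ x * (w y * ker G s y x)) + 2 * (C * s) * (∫ a, w (x + a) * env c s a)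
        + 2 * C * ∫ a, |u (x + a) - u x| * env c s a := fun x => by
    have n1 : 0 ≤ ∫ y, φ x * (w y * ker G s y x) := integral_nonneg fun y =>
      mul_nonneg (hφ2 x).1 (mul_nonneg (hw0 y) (ker_nonneg h hs y x))
    have n2 : 0 ≤ ∫ a, w (x + a) * env c s a :=
      integral_nonneg fun a => mul_nonneg (hw0 _) (env_nonneg hs c a)
    have n3 : 0 ≤ ∫ a, |u (x + a) - u x| * env c s a :=
      integral_nonneg fun a => mul_nonneg (abs_nonneg _) (env_nonneg hs c a)
    by_cases hx : x ∈ Metric.ball (0 : Fin n → ℝ) ρ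
    · rw [indicator_of_mem hx, integral_const_mul]
      have h1 := mul_le_mul_of_nonneg_left (hpt s hs u hu x (mem_ball_zero_iff.1 hx)) (hφ2 x).1
      have h2 := mul_le_mul_of_nonneg_right (hφ2 x).2 (mul_nonneg (mul_nonneg hC hs.le) n2)
      have h3 := mul_le_mul_of_nonneg_right (hφ2 x).2 (mul_nonneg hC n3)
      linarith
    · rw [indicator_of_notMem hx]
      positivity
  have hLi : IntegrableOn (fun x => φ x * (conorm G x (cd (avg G s u) x) * dens G x))
      (Metric.ball (0 : Fin n → ℝ) ρ) := by
    refine ((hφ.mul ((h.continuous_conorm_cd (contDiff_avg h hK hu hs)).mul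
      h.continuous_dens)).continuousOn.integrableOn_compact
      (isCompact_closedBall (0 : Fin n → ℝ) ρ)).mono_set Metric.ball_subset_closedBall
  rw [← integral_indicator measurableSet_ball]
  have i12 : Integrable fun x => (∫ y, φ x * (w y * ker G s y x))
      + 2 * (C * s) * (∫ a, w (x + a) * env c s a) := iA.add (iB.const_mul _)
  refine (integral_mono (hLi.integrable_indicator measurableSet_ball)
    (i12.add (iC.const_mul _)) key).trans ?_
  rw [integral_add' i12 (iC.const_mul _), integral_add iA (iB.const_mul _), integral_const_mul,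
    integral_const_mul]
  have := mul_le_mul_of_nonneg_left leB (by positivity : 0 ≤ 2 * (C * s))
  have := mul_le_mul_of_nonneg_left leC (by positivity : 0 ≤ 2 * C)
  linarith

/-- In the mean the average is close to the function, and far from the support it is tiny. -/
theorem avg_close (h : IsCH G D) (hK : IsCompact K) (ρ : ℝ) :
    ∃ c C : ℝ, 0 < c ∧ 0 ≤ C ∧ ∀ s, 0 < s → ∀ u, Comp K u →
      ∫ x in Metric.closedBall (0 : Fin n → ℝ) ρ, |avg G s u x - u x| ≤ C * s * per G u ∧
      ∀ x, ‖x‖ ≤ ρ → ∀ d, 0 ≤ d → (∀ y ∈ K, d ≤ ‖x - y‖) →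
        avg G s u x ≤ C * Real.exp (-(c * (d ^ 2 / s ^ 2))) := by
  obtain ⟨c, C, hc, hC, hb⟩ := kk_bounds h ρ
  obtain ⟨C₃, hC₃, hosc⟩ := oscillation_le h hK hc
  set I := ∫ a : Fin n → ℝ, Real.exp (-(c / 2 * ‖a‖ ^ 2))
  have hI : 0 ≤ I := integral_nonneg fun a => (Real.exp_pos _).le
  refine ⟨c / 2, C * C₃ + C * I, by positivity, by positivity, fun s hs u hu => ⟨?_, ?_⟩⟩
  · have henv := (env_integral (n := n) hc hs).1
    obtain ⟨iC, leC⟩ := hosc s hs u hu
    have hUc := continuous_avg h hK s hu.1.continuous fun y hy => comp_eq_zero hu hy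
    rw [← integral_indicator measurableSet_closedBall]
    refine (integral_mono (((hUc.sub hu.1.continuous).abs.continuousOn.integrableOn_compact
      (isCompact_closedBall _ _)).integrable_indicator measurableSet_closedBall)
      (iC.const_mul C) fun x => ?_).trans ?_
    · simp only [Pi.sub_apply]
      by_cases hx : x ∈ Metric.closedBall (0 : Fin n → ℝ) ρ
      swap
      · rw [indicator_of_notMem hx]
        exact mul_nonneg hC (integral_nonneg fun a => mul_nonneg (abs_nonneg _) (env_nonneg hs c a))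
      rw [indicator_of_mem hx]
      have hx' := mem_closedBall_zero_iff.1 hx
      have hkc : Continuous (kk G s x) :=
        (continuous_kk h s).comp (continuous_const.prodMk continuous_id)
      have hki : Integrable (kk G s x) := (henv.const_mul C).mono' hkc.aestronglyMeasurable
        (Eventually.of_forall fun a => by
          rw [Real.norm_of_nonneg (kk_nonneg h hs x a)]; exact (hb s hs a x hx').1)
      have hui : Integrable fun a => u (x + a) * kk G s x a := hki.mono'
        ((hu.1.continuous.comp (continuous_const.add continuous_id)).mul hkc).aestronglyMeasurable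
        (Eventually.of_forall fun a => by
          rw [Real.norm_of_nonneg (mul_nonneg (hu.2.2 _).1 (kk_nonneg h hs x a))]
          exact mul_le_of_le_one_left (kk_nonneg h hs x a) (hu.2.2 _).2)
      have e : avg G s u x - u x = ∫ a, (u (x + a) - u x) * kk G s x a := by
        simp only [sub_mul]
        rw [integral_sub hui (hki.const_mul _), integral_const_mul, kk_mass h hs, mul_one,
          avg_eq_shift]
      rw [e, ← integral_const_mul]
      refine abs_integral_le_integral_abs.trans (integral_mono ?_ ?_ fun a => ?_)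
      · refine Integrable.abs ?_
        simp only [sub_mul]
        exact hui.sub (hki.const_mul _)
      · exact (henv.mono' (((hu.1.continuous.comp (continuous_const.add continuous_id)).sub
          continuous_const).abs.mul (continuous_env c s)).aestronglyMeasurable
          (Eventually.of_forall fun a => by
            simp only [Pi.mul_apply, Pi.sub_apply, Function.comp_apply, Pi.add_apply, id_eq]
            rw [norm_mul, Real.norm_of_nonneg (env_nonneg hs c a), Real.norm_eq_abs, abs_abs]
            refine mul_le_of_le_one_left (env_nonneg hs c a) ?_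
            have h1 := hu.2.2 x
            have h2 := hu.2.2 (x + a)
            rw [abs_le]
            constructor <;> linarith [h1.1, h1.2, h2.1, h2.2])).const_mul C
      · rw [abs_mul, abs_of_nonneg (kk_nonneg h hs x a)]
        calc |u (x + a) - u x| * kk G s x a ≤ |u (x + a) - u x| * (C * env c s a) :=
              mul_le_mul_of_nonneg_left (hb s hs a x hx').1 (abs_nonneg _)
          _ = _ := by ring
    · rw [integral_const_mul]
      have := mul_le_mul_of_nonneg_left leC hC
      have : 0 ≤ C * I * s * per G u := by have := h.per_nonneg u; positivity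
      linarith
  · intro x hx d hd hdist
    set F := Real.exp (-(c / 2 * (d ^ 2 / s ^ 2)))
    rw [avg_eq_shift]
    have henv := env_integral (n := n) (half_pos hc) hs
    calc ∫ a, u (x + a) * kk G s x a ≤ ∫ a, C * F * env (c / 2) s a := by
          refine integral_mono_of_nonneg (Eventually.of_forall fun a =>
            mul_nonneg (hu.2.2 _).1 (kk_nonneg h hs x a)) (henv.1.const_mul _)
            (Eventually.of_forall fun a => ?_)
          simp only
          by_cases hy : x + a ∈ K
          swap
          · rw [comp_eq_zero hu hy, zero_mul]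
            exact mul_nonneg (by positivity) (env_nonneg hs _ a)
          have hda : d ≤ ‖a‖ := by simpa using hdist _ hy
          refine (mul_le_of_le_one_left (kk_nonneg h hs x a) (hu.2.2 _).2).trans
            ((hb s hs a x hx).1.trans ?_)
          rw [mul_assoc]
          refine mul_le_mul_of_nonneg_left ?_ hC
          simp only [env, F]
          rw [← mul_div_assoc (Real.exp _), ← Real.exp_add]
          refine div_le_div_of_nonneg_right (Real.exp_le_exp.2 ?_) (by positivity)
          have h1 : d ^ 2 / s ^ 2 ≤ ‖a‖ ^ 2 / s ^ 2 :=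
            div_le_div_of_nonneg_right (pow_le_pow_left₀ hd hda 2) (by positivity)
          have h2 := mul_le_mul_of_nonneg_left h1 (half_pos hc).le
          linarith
      _ = C * I * F := by rw [integral_const_mul, henv.2]; ring
      _ ≤ _ := mul_le_mul_of_nonneg_right (by linarith [mul_nonneg hC hC₃]) (Real.exp_pos _).le

end Vale.Agent.P219.CH.Bend
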