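import Vale.Agent.P219.Bend.VarAlgebra

/-!
# P219, curvature at most `-b ^ 2`: pulling a competitor back along the potential
-/

noncomputable section

open MeasureTheory Set Filter Topology Matrix

namespace Vale.Agent.P219.CH.Bend

open Sharp

variable {n : ℕ} {G : (Fin n → ℝ) → Matrix (Fin n) (Fin n) ℝ}
  {D : (Fin n → ℝ) → (Fin n → ℝ) → ℝ} {K : Set (Fin n → ℝ)} {u : (Fin n → ℝ) → ℝ}

/-- The perimeter after a step along any field with a bounded variation density. -/
theorem per_step_density (h : IsCH G D) (hK : IsCompact K) (hu : Comp K u)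
    {Z : (Fin n → ℝ) → Fin n → ℝ} (hZ : ContDiff ℝ 1 Z) (V : (Fin n → ℝ) → (Fin n → ℝ) → ℝ)
    (hV0 : ∀ y, V y 0 = 0) (hVm : Measurable fun y => V y (cd u y)) {B Cv t e : ℝ}
    (hB : ∀ y, ‖fderiv ℝ Z y‖ ≤ B) (hCv : ∀ y ∈ K, ∀ ξ, |V y ξ| ≤ Cv * conorm G y ξ)
    (ht : 0 ≤ t) (he : 0 ≤ e) (htB : t * B < 1) (htV : t * Cv ≤ 1)
    (hdet : ∀ y, 0 ≤ (1 + t • opMat (fderiv ℝ Z y)).det)
    (hdef : ∀ y ∈ K, ∀ ξ : Fin n → ℝ, defect G y (Z y) (fderiv ℝ Z y) ξ t ≤
      -(t * ((1 + t • opMat (fderiv ℝ Z y)).det * dens G (y + t • Z y) *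
        (V (y + t • Z y) ξ - e * conorm G (y + t • Z y) ξ))))
    (hsupp : ∀ y, y + t • Z y ∈ K → y ∈ K) :
    per G (fun y => u (y + t • Z y)) ≤
      per G u - t * (∫ y, V y (cd u y) * dens G y) + t * e * per G u := by
  have i0 : Integrable fun y => conorm G y (cd u y) * dens G y := by
    simpa using h.integrable_mul_conorm hK hu (continuous_const (y := (1 : ℝ)))
  have hzero : ∀ y ∉ K, cd u y = 0 := fun y hy => cd_eq_zero_of_notMem fun hs => hy (hu.2.1 hs)
  have i1 : Integrable fun y => V y (cd u y) * dens G y := by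
    refine (i0.const_mul Cv).mono' (hVm.mul h.continuous_dens.measurable).aestronglyMeasurable
      (Eventually.of_forall fun y => ?_)
    rw [Real.norm_eq_abs, abs_mul, abs_of_pos (h.dens_pos y), ← mul_assoc]
    refine mul_le_mul_of_nonneg_right ?_ (h.dens_pos y).le
    by_cases hy : y ∈ K
    · exact hCv y hy _
    · simp [hzero y hy, hV0, conorm_zero]
  set g : (Fin n → ℝ) → ℝ := fun z => (1 + t * e) * (conorm G z (cd u z) * dens G z) -
    t * (V z (cd u z) * dens G z)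
  have ig : Integrable g := (i0.const_mul _).sub (i1.const_mul t)
  have eI : ∫ z, g z = per G u - t * (∫ y, V y (cd u y) * dens G y) + t * e * per G u := by
    simp only [g]
    rw [integral_sub (i0.const_mul _) (i1.const_mul t), integral_const_mul, integral_const_mul, per]
    ring
  have hg0 : ∀ z, 0 ≤ g z := by
    intro z
    by_cases hz : z ∈ K
    · have h2 := mul_le_mul_of_nonneg_left ((le_abs_self _).trans (hCv z hz (cd u z))) ht
      have h3 := mul_le_mul_of_nonneg_right htV (conorm_nonneg (G := G) z (cd u z))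
      have h4 := mul_nonneg (mul_nonneg ht he) (conorm_nonneg (G := G) z (cd u z))
      have h5 : t * V z (cd u z) ≤ (1 + t * e) * conorm G z (cd u z) := by linarith
      have h6 := mul_le_mul_of_nonneg_right h5 (h.dens_pos z).le
      simp only [g]
      linarith
    · simp [g, hzero z hz, hV0, conorm_zero]
  obtain ⟨hint, hle⟩ := setIntegral_step_le hK.measurableSet (hZ.differentiable one_ne_zero)
    hB ht htB (fun y _ => hdet y) ig hg0
  refine le_trans ?_ (hle.trans eI.le)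
  have hts : ∀ y ∉ K, cd (fun y => u (y + t • Z y)) y = 0 := fun y hy => by
    rw [cd_step hu.1 hZ, hzero _ fun hs => hy (hsupp y hs)]
    funext i; simp [pull]
  rw [per, ← setIntegral_eq_integral_of_forall_compl_eq_zero (s := K) fun y hy => by
    rw [hts y hy, conorm_zero, zero_mul]]
  have hcd : ContDiff ℝ 1 fun y => u (y + t • Z y) :=
    hu.1.comp (contDiff_id.add (hZ.const_smul t))
  refine setIntegral_mono_on (((h.continuous_conorm_cd hcd).mul
    h.continuous_dens).continuousOn.integrableOn_compact hK) hint hK.measurableSet fun y hy => ?_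
  rw [cd_step hu.1 hZ]
  have := hdef y hy (cd u (y + t • Z y))
  rw [defect] at this
  simp only [g]
  linarith

/-- Pulling a competitor back along `W` times the gradient of the potential. -/
theorem weightVarPinB (n : ℕ) : WeightVarPinB n := by
  intro _ G D h b hb o R c W e _ hc hW hWp he
  set K : Set (Fin n → ℝ) := {y | D o y ≤ R}
  have hK : IsCompact K := h.proper o R
  obtain ⟨r, hr, hKr⟩ := hK.isBounded.subset_closedBall_lt 0 0
  obtain ⟨φ, hφd⟩ : ∃ φ : ContDiffBump (0 : Fin n → ℝ), φ.rIn = r + 2 :=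
    ⟨⟨r + 2, r + 3, by linarith, by linarith⟩, rfl⟩
  set W' : (Fin n → ℝ) → ℝ := fun z => W z * kfac b (D c z)
  have hW' : ContDiff ℝ 1 W' := hW.mul (contDiff_kfac_left h b c)
  have hW'p : ∀ y, D o y ≤ R + 1 → 0 < W' y := fun y hy =>
    mul_pos (hWp y hy) (kfac_dist_pos h b c y)
  set Z : (Fin n → ℝ) → Fin n → ℝ := fun y => φ y • wfield G D c W' y
  have hZ : ContDiff ℝ 1 Z := φ.contDiff.smul (contDiff_wfield h c hW')
  have hZc : HasCompactSupport Z := φ.hasCompactSupport.smul_right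
  obtain ⟨B₁, hB₁⟩ := hZc.exists_bound_of_continuous hZ.continuous
  obtain ⟨B₂, hB₂⟩ := (hZc.fderiv ℝ).exists_bound_of_continuous (hZ.continuous_fderiv one_ne_zero)
  obtain ⟨B, hBd⟩ : ∃ B, B = max (max B₁ B₂) 0 := ⟨_, rfl⟩
  have hB0 : 0 ≤ B := hBd ▸ le_max_right _ _
  have hB : ∀ y, ‖Z y‖ ≤ B ∧ ‖fderiv ℝ Z y‖ ≤ B := fun y => hBd ▸
    ⟨(hB₁ y).trans ((le_max_left _ _).trans (le_max_left _ _)),
      (hB₂ y).trans ((le_max_right _ _).trans (le_max_left _ _))⟩
  have hev : ∀ y, ‖y‖ < r + 2 → Z =ᶠ[𝓝 y] wfield G D c W' := fun y hy => by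
    filter_upwards [φ.eventuallyEq_one_of_mem_ball (x := y) (by simpa [hφd] using hy)] with z hz
    simp [Z, hz]
  have hnear : ∀ y ∈ K, ‖y‖ < r + 2 := fun y hy => by
    have : ‖y‖ ≤ r := by simpa using hKr hy
    linarith
  have hWK : ∀ y ∈ K, 0 < W y := fun y hy => hWp y (by have : D o y ≤ R := hy; linarith)
  have hf : Continuous fun z => ((n : ℝ) - 1) * W z := continuous_const.mul hW.continuous
  have ha := continuous_bvec h b c hW
  have hg := continuous_bcov h b c
  obtain ⟨τd, hτd, hdef⟩ := exists_defect_step h hK hZ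
    (varG G (fun z => ((n : ℝ) - 1) * W z) (bvec D b c W) (bcov D b c))
    (fun y _ hξ => continuousAt_varG h hf ha hg y hξ) (fun y ξ k hk => varG_smul h y hk ξ)
    (fun y => varG_zero y) (fun y hy ξ hξ => by
      rw [← varB_eq h, (hev y (hnear y hy)).eq_of_nhds, (hev y (hnear y hy)).fderiv_eq]
      exact defect'_bfield_le h hb c hW y (hWK y hy).le hξ) he
  obtain ⟨τs, hτs, hsupp⟩ := exists_support_field h o R c hc hW' hW'p hKr hB0 (fun y => (hB y).1)
    (fun y hy => (hev y hy).eq_of_nhds)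
  obtain ⟨τv, hτv, hvol⟩ := exists_vol_step h hK hZ hZc he
  obtain ⟨τj, hτj, hdetb⟩ := exists_det_step (n := n) B
  obtain ⟨Cj, hCj, hjac⟩ := h.exists_jacobian_bound r B
  obtain ⟨md, hmd, hmdle⟩ : ∃ md : ℝ, 0 < md ∧ ∀ y, ‖y‖ ≤ r + 1 → md ≤ dens G y := by
    obtain ⟨y₀, -, hy₀⟩ := (isCompact_closedBall (0 : Fin n → ℝ) (r + 1)).exists_isMinOn
      ⟨0, by simp; linarith⟩ h.continuous_dens.continuousOn
    exact ⟨dens G y₀, h.dens_pos y₀, fun y hy => hy₀ (by simpa using hy)⟩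
  obtain ⟨Cv, hCv0, hCv⟩ := exists_abs_varG_le h hf ha hg hK
  obtain ⟨τ, hτ⟩ : ∃ τ : ℝ, τ = min (min (min τd τs) (min τv τj))
      (min 1 (min (1 / (B + 1)) (1 / Cv))) := ⟨_, rfl⟩
  have hτpos : 0 < τ := by rw [hτ]; positivity
  have hle : τ ≤ τd ∧ τ ≤ τs ∧ τ ≤ τv ∧ τ ≤ τj ∧ τ ≤ 1 ∧ τ ≤ 1 / (B + 1) ∧ τ ≤ 1 / Cv := by
    rw [hτ]
    simp only [min_le_iff, le_refl, true_or, or_true, and_self]
  obtain ⟨hle1, hle2, hle3, hle4, hle5, hle6, hle7⟩ := hle
  refine ⟨τ, 2 * Cj / md, hτpos, by positivity, fun t u ht htτ hu => ?_⟩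
  have htB : t * B < 1 := by
    calc t * B ≤ 1 / (B + 1) * B := mul_le_mul_of_nonneg_right (htτ.trans hle6) hB0
      _ < 1 := by rw [div_mul_eq_mul_div, div_lt_one (by positivity)]; linarith
  have hdet : ∀ y, 1 / 2 ≤ (1 + t • opMat (fderiv ℝ Z y)).det :=
    fun y => hdetb t ⟨ht.le, htτ.trans hle4⟩ _ (hB y).2
  have hsupp' : ∀ y, y + t • Z y ∈ K → y ∈ K :=
    fun y hy => hsupp t ⟨ht.le, htτ.trans hle2⟩ y hy
  refine ⟨fun y => u (y + t • Z y), ⟨hu.1.comp (contDiff_id.add (hZ.const_smul t)), ?_,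
    fun y => hu.2.2 _⟩, ?_, ?_, ?_⟩
  · refine closure_minimal (fun y hy => hsupp' y (hu.2.1 ?_)) hK.isClosed
    exact subset_tsupport _ hy
  · simp only [varB_eq h]
    refine per_step_density h hK hu hZ _ (fun y => varG_zero y) (measurable_varG_cd h hf ha hg hu.1)
      (fun y => (hB y).2) hCv ht.le he.le htB ?_
      (fun y => le_trans (by norm_num) (hdet y)) (hdef t ⟨ht.le, htτ.trans hle1⟩) hsupp'
    calc t * Cv ≤ 1 / Cv * Cv := mul_le_mul_of_nonneg_right (htτ.trans hle7) hCv0.le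
      _ = 1 := div_mul_cancel₀ _ hCv0.ne'
  · have h1 := (abs_le.1 (hvol t ⟨ht.le, htτ.trans hle3⟩ u hu)).1
    have e1 : (∫ y, |cd u y ⬝ᵥ Z y| * dens G y) =
        ∫ y, |kfac b (D c y) * normalPart G D c u y| * W y * dens G y := by
      refine integral_congr_ae (Eventually.of_forall fun y => ?_)
      simp only
      by_cases hy : y ∈ K
      · rw [(hev y (hnear y hy)).eq_of_nhds, wfield, dotProduct_smul, smul_eq_mul]
        simp only [W', abs_mul, abs_of_pos (hWK y hy), normalPart, pairing, grad]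
        ring
      · simp [normalPart, pairing, cd_eq_zero_of_notMem fun hs => hy (hu.2.1 hs)]
    rw [e1] at h1
    linarith
  · exact h.gap_step hK hKr hu hZ hB hmd hmdle hCj hjac ⟨ht.le, htτ.trans hle5⟩ htB hdet hsupp'

end Vale.Agent.P219.CH.Bend
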