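import Vale.Agent.P219.Bend.Pins
import Vale.Agent.P219.Bend.Geom
import Vale.Agent.P219.Sharp.Var

/-!
# P219, curvature at most `-b ^ 2`: the pointwise first variation along the potential
-/

noncomputable section

open MeasureTheory Set Filter Topology Matrix

namespace Vale.Agent.P219.CH.Bend

open Sharp

variable {n : ℕ} {G : (Fin n → ℝ) → Matrix (Fin n) (Fin n) ℝ}
  {D : (Fin n → ℝ) → (Fin n → ℝ) → ℝ}

/-! ## The Klein factor -/

lemma hasDerivAt_kfac {b t : ℝ} (ht : 0 ≤ t) :
    HasDerivAt (kfac b)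
      (4 * b ^ 2 * cshdd (2 * b ^ 2 * t) / csh (2 * b ^ 2 * t) - b ^ 2 * kfac b t ^ 2) t := by
  have hl : HasDerivAt (fun t : ℝ => 2 * b ^ 2 * t) (2 * b ^ 2) t := by
    simpa using (hasDerivAt_id t).const_mul (2 * b ^ 2)
  have hne := (csh_pos (show 0 ≤ 2 * b ^ 2 * t by positivity)).ne'
  have h1 := (((hasDerivAt_cshd _).comp t hl).const_mul 2).div ((hasDerivAt_csh _).comp t hl) hne
  refine h1.congr_deriv ?_
  simp only [kfac, Function.comp_apply]
  field_simp
  ring

lemma contDiff_kfac_left (h : IsCH G D) (b : ℝ) (c : Fin n → ℝ) :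
    ContDiff ℝ 1 fun y => kfac b (D c y) :=
  (contDiff_kfac_dist h b).comp (contDiff_const.prodMk contDiff_id)

lemma kfac_dist_pos (h : IsCH G D) (b : ℝ) (c y : Fin n → ℝ) : 0 < kfac b (D c y) :=
  kfac_pos b (h.dist_nonneg c y)

lemma continuous_bcov (h : IsCH G D) (b : ℝ) (c : Fin n → ℝ) : Continuous (bcov D b c) :=
  (contDiff_kfac_left h b c).continuous.smul (continuous_cd_dist h c)

/-! ## The variation along the gradient of a distance -/

/-- The variation along the gradient of `D c` is the trace of the Hessian off the normal. -/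
lemma defect'_grad_eq (h : IsCH G D) (x y ξ : Fin n → ℝ) :
    defect' G y (grad G (D x) y) (fderiv ℝ (grad G (D x)) y) ξ =
      dens G y * (((G y)⁻¹ *ᵥ ξ) ⬝ᵥ (hessMat G (D x) y *ᵥ ((G y)⁻¹ *ᵥ ξ)) / conorm G y ξ
        - ((G y)⁻¹ * hessMat G (D x) y).trace * conorm G y ξ) := by
  set η := (G y)⁻¹ *ᵥ ξ
  set g := grad G (D x) y with hg
  have hsym : ∀ u a b, dG G y u a b = dG G y u b a := fun u a b => h.dG_symm y u a b
  have hswap : ∀ u a b : Fin n → ℝ, a ⬝ᵥ (dG G y u *ᵥ b) = b ⬝ᵥ (dG G y u *ᵥ a) := fun u a b => by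
    simp only [dotProduct, mulVec, Finset.mul_sum]
    rw [Finset.sum_comm]
    exact Finset.sum_congr rfl fun i _ => Finset.sum_congr rfl fun j _ => by
      rw [hsym u j i]; ring
  have hi : ∀ a b, (G y)⁻¹ a b = (G y)⁻¹ b a := fun a b => by
    simpa using ((h.posDef_inv y).isHermitian.apply a b).symm
  -- the quadratic term
  have hA : ξ ⬝ᵥ fderiv ℝ (grad G (D x)) y η + (1 / 2) * (η ⬝ᵥ (dG G y g *ᵥ η))
      = η ⬝ᵥ (hessMat G (D x) y *ᵥ η) := by
    rw [hessMat_quad, hess, h.fderiv_grad_dist,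
      show ξ ⬝ᵥ ((G y)⁻¹ *ᵥ ((fun b => fderiv ℝ (fderiv ℝ (D x)) y η (ev b)) - dG G y η *ᵥ g))
        = pairing G y ξ ((fun b => fderiv ℝ (fderiv ℝ (D x)) y η (ev b)) - dG G y η *ᵥ g) from rfl,
      h.pairing_comm]
    rw [show pairing G y ((fun b => fderiv ℝ (fderiv ℝ (D x)) y η (ev b)) - dG G y η *ᵥ g) ξ
        = ((fun b => fderiv ℝ (fderiv ℝ (D x)) y η (ev b)) - dG G y η *ᵥ g) ⬝ᵥ η from rfl,
      sub_dotProduct, dotProduct_comm (dG G y η *ᵥ g) η, hswap η η g]
    congr 2
    conv_rhs => rw [clm_eq_sum (fderiv ℝ (fderiv ℝ (D x)) y η) η]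
    simp [dotProduct, mul_comm]
  -- the trace term
  have hB : ∑ a, fderiv ℝ (grad G (D x)) y (ev a) a + ((G y)⁻¹ * dG G y g).trace / 2
      = ((G y)⁻¹ * hessMat G (D x) y).trace := by
    have hT : ((G y)⁻¹ * dG G y g).trace = ∑ a, ∑ b, (G y)⁻¹ a b * dG G y g a b := by
      simp only [Matrix.trace, Matrix.diag, Matrix.mul_apply]
      exact Finset.sum_congr rfl fun a _ => Finset.sum_congr rfl fun b _ => by rw [hsym g b a]
    have hM' : ((G y)⁻¹ * hessMat G (D x) y).trace =
        ∑ a, ∑ b, (G y)⁻¹ b a * hessMat G (D x) y a b := by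
      simp only [Matrix.trace, Matrix.diag, Matrix.mul_apply]
      rw [Finset.sum_comm]
    rw [hT, hM', Finset.sum_div, ← Finset.sum_add_distrib]
    refine Finset.sum_congr rfl fun a _ => ?_
    rw [h.fderiv_grad_dist, Finset.sum_div]
    simp only [mulVec, dotProduct, Pi.sub_apply]
    rw [← Finset.sum_add_distrib]
    refine Finset.sum_congr rfl fun b _ => ?_
    simp only [hessMat, Matrix.of_apply, ← hg]
    rw [hi a b]
    have : g ⬝ᵥ (dG G y (ev a) *ᵥ ev b) = ∑ k, dG G y (ev a) b k * g k := by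
      simp only [dotProduct, mulVec, ev, Pi.single_apply, mul_ite, mul_one, mul_zero,
        Finset.sum_ite_eq', Finset.mem_univ, if_true]
      exact Finset.sum_congr rfl fun k _ => by rw [show dG G y (Pi.single a 1) k b
        = dG G y (Pi.single a 1) b k from hsym _ k b]; ring
    rw [this]
    ring
  have e1 : (opMat (fderiv ℝ (grad G (D x)) y)).trace = ∑ a, fderiv ℝ (grad G (D x)) y (ev a) a := by
    simp [Matrix.trace, opMat]
  rw [defect', e1, ← hA, ← hB]
  ring

/-- The bent comparison bounds the variation along the gradient of the distance. -/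
lemma kfac_mul_defect'_le (h : IsCH G D) {b : ℝ} (hb : BendCH G D b) (c y : Fin n → ℝ)
    {ξ : Fin n → ℝ} (hξ : ξ ≠ 0) :
    kfac b (D c y) * defect' G y (grad G (D c) y) (fderiv ℝ (grad G (D c)) y) ξ ≤
      -(dens G y * (((n : ℝ) - 1) * conorm G y ξ +
        4 * b ^ 2 * cshdd (2 * b ^ 2 * D c y) / csh (2 * b ^ 2 * D c y) *
          (pairing G y ξ (cd (D c) y) ^ 2 / conorm G y ξ - 2 * D c y * conorm G y ξ))) := by
  set σ := 4 * b ^ 2 * cshdd (2 * b ^ 2 * D c y) / csh (2 * b ^ 2 * D c y)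
  set k := kfac b (D c y)
  set H := hessMat G (D c) y
  set d := cd (D c) y
  set M : Matrix (Fin n) (Fin n) ℝ := k • H + σ • vecMulVec d d with hMdef
  have hquad : ∀ v, v ⬝ᵥ (M *ᵥ v) = k * hess G (D c) y v + σ * (d ⬝ᵥ v) ^ 2 := fun v => by
    simp only [hMdef, add_mulVec, smul_mulVec, dotProduct_add, dotProduct_smul, vecMulVec_mulVec,
      op_smul_eq_smul, smul_eq_mul, H, hessMat_quad, dotProduct_comm v d]
    ring
  have hpos := csh_pos (arg_nonneg b (h.dist_nonneg c y))
  have key := h.trace_bound y M (fun v => by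
    rw [hquad]
    have h1 := hb.hessian c y v
    have e : k * hess G (D c) y v + σ * (d ⬝ᵥ v) ^ 2 =
        (2 * cshd (2 * b ^ 2 * D c y) * hess G (D c) y v +
          4 * b ^ 2 * cshdd (2 * b ^ 2 * D c y) * (d ⬝ᵥ v) ^ 2) / csh (2 * b ^ 2 * D c y) := by
      simp only [k, σ, kfac]; field_simp
    rw [e, le_div_iff₀ hpos]
    linarith) hξ
  have htr : ((G y)⁻¹ * M).trace = k * ((G y)⁻¹ * H).trace + σ * (2 * D c y) := by
    simp only [hMdef, Matrix.mul_add, Matrix.mul_smul, trace_add, trace_smul, smul_eq_mul,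
      mul_vecMulVec, trace_vecMulVec]
    rw [dotProduct_comm, ← h.eikonal c y]
    rfl
  rw [hquad, htr, ← hessMat_quad,
    show d ⬝ᵥ ((G y)⁻¹ *ᵥ ξ) = pairing G y d ξ from rfl, h.pairing_comm y d ξ] at key
  have hc0 := h.conorm_pos y hξ
  rw [defect'_grad_eq h, mul_left_comm, ← mul_neg]
  refine mul_le_mul_of_nonneg_left ?_ (h.dens_pos y).le
  rw [← h.conorm_sq y ξ] at key
  refine le_of_mul_le_mul_right ?_ hc0
  field_simp
  linarith

/-- The pointwise first variation along `W` times the gradient of the potential. -/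
theorem defect'_bfield_le (h : IsCH G D) {b : ℝ} (hb : BendCH G D b) (c : Fin n → ℝ)
    {W : (Fin n → ℝ) → ℝ} (hW : ContDiff ℝ 1 W) (y : Fin n → ℝ) (hW0 : 0 ≤ W y)
    {ξ : Fin n → ℝ} (hξ : ξ ≠ 0) :
    defect' G y (wfield G D c (fun z => W z * kfac b (D c z)) y)
        (fderiv ℝ (wfield G D c fun z => W z * kfac b (D c z)) y) ξ
      ≤ -(dens G y * varB G D b c W y ξ) := by
  set d := 4 * b ^ 2 * cshdd (2 * b ^ 2 * D c y) / csh (2 * b ^ 2 * D c y) - b ^ 2 * kfac b (D c y) ^ 2
    with hd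
  have hk := hW.mul (contDiff_kfac_left h b c)
  have hf : HasFDerivAt (fun z => W z * kfac b (D c z))
      (W y • (d • fderiv ℝ (D c) y) + kfac b (D c y) • fderiv ℝ W y) y :=
    (hW.differentiable one_ne_zero y).hasFDerivAt.fun_mul
      ((hasDerivAt_kfac (h.dist_nonneg c y)).comp_hasFDerivAt y
        ((h.contDiff_D c).differentiable two_ne_zero y).hasFDerivAt)
  have hfd : fderiv ℝ (wfield G D c fun z => W z * kfac b (D c z)) y =
      (W y * kfac b (D c y)) • fderiv ℝ (grad G (D c)) y +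
        (W y • (d • fderiv ℝ (D c) y) + kfac b (D c y) • fderiv ℝ W y).smulRight (grad G (D c) y) :=
    (hf.smul ((h.contDiff_grad_dist c).differentiable one_ne_zero y).hasFDerivAt).fderiv
  have e1 : ∀ f : (Fin n → ℝ) → ℝ, fderiv ℝ f y ((G y)⁻¹ *ᵥ ξ) = pairing G y ξ (cd f y) := fun f => by
    rw [h.pairing_comm, ← cd_dotProduct]; rfl
  have h0 := mul_le_mul_of_nonneg_left (kfac_mul_defect'_le h hb c y hξ) hW0
  rw [hfd, wfield, defect'_smul_add]
  simp only [_root_.add_apply, _root_.smul_apply, smul_eq_mul, e1]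
  rw [show ξ ⬝ᵥ grad G (D c) y = pairing G y ξ (cd (D c) y) from rfl, ← pairing_cd, ← pairing_cd,
    h.eikonal, varB, bcov, pairing_smul_left, h.pairing_comm y (cd W y) (kfac b (D c y) • _),
    h.pairing_comm y ξ (kfac b (D c y) • _), h.pairing_comm y (cd (D c) y) (kfac b (D c y) • _),
    pairing_smul_left, pairing_smul_left, pairing_smul_left, h.eikonal,
    h.pairing_comm y (cd (D c) y) ξ, h.pairing_comm y (cd (D c) y) (cd W y), mul_assoc (W y)]
  refine (add_le_add h0 le_rfl).trans (le_of_eq ?_)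
  rw [hd]
  ring

/-! ## A density of the shape of the variation -/

/-- A variation density built from a weight and two covector fields. -/
def varG (G : (Fin n → ℝ) → Matrix (Fin n) (Fin n) ℝ) (f : (Fin n → ℝ) → ℝ)
    (a g : (Fin n → ℝ) → Fin n → ℝ) (y ξ : Fin n → ℝ) : ℝ :=
  (f y + pairing G y (a y) (g y)) * conorm G y ξ
    - pairing G y ξ (g y) * pairing G y ξ (a y) / conorm G y ξ

/-- The covector paired with the potential in the variation. -/
def bvec (D : (Fin n → ℝ) → (Fin n → ℝ) → ℝ) (b : ℝ) (c : Fin n → ℝ) (W : (Fin n → ℝ) → ℝ)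
    (y : Fin n → ℝ) : Fin n → ℝ :=
  cd W y + (-(b ^ 2 * W y)) • bcov D b c y

lemma varB_eq (h : IsCH G D) (b : ℝ) (c : Fin n → ℝ) (W : (Fin n → ℝ) → ℝ) (y ξ : Fin n → ℝ) :
    varB G D b c W y ξ =
      varG G (fun z => ((n : ℝ) - 1) * W z) (bvec D b c W) (bcov D b c) y ξ := by
  rw [varG, varB, bvec, pairing_add_left, pairing_smul_left, h.pairing_comm y ξ (cd W y + _),
    pairing_add_left, pairing_smul_left, h.pairing_comm y (cd W y) ξ,
    h.pairing_comm y (bcov D b c y) ξ]
  ring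

lemma continuous_bvec (h : IsCH G D) (b : ℝ) (c : Fin n → ℝ) {W : (Fin n → ℝ) → ℝ}
    (hW : ContDiff ℝ 1 W) : Continuous (bvec D b c W) :=
  (continuous_cd hW).add ((continuous_const.mul hW.continuous).neg.smul (continuous_bcov h b c))

variable {f : (Fin n → ℝ) → ℝ} {a g : (Fin n → ℝ) → Fin n → ℝ}

lemma varG_zero (y : Fin n → ℝ) : varG G f a g y 0 = 0 := by
  simp [varG, conorm_zero]

lemma varG_smul (h : IsCH G D) (y : Fin n → ℝ) {k : ℝ} (hk : 0 < k) (ξ : Fin n → ℝ) :
    varG G f a g y (k • ξ) = k * varG G f a g y ξ := by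
  rw [varG, varG, h.conorm_smul, pairing_smul_left, pairing_smul_left, abs_of_pos hk]
  rcases eq_or_ne (conorm G y ξ) 0 with h0 | h0
  · simp [h0]
  · field_simp

lemma continuousAt_varG (h : IsCH G D) (hf : Continuous f) (ha : Continuous a) (hg : Continuous g)
    (y : Fin n → ℝ) {ξ : Fin n → ℝ} (hξ : ξ ≠ 0) :
    ContinuousAt (fun p : (Fin n → ℝ) × (Fin n → ℝ) => varG G f a g p.1 p.2) (y, ξ) := by
  have hA := ha.comp (continuous_fst (X := Fin n → ℝ) (Y := Fin n → ℝ))
  have hG := hg.comp (continuous_fst (X := Fin n → ℝ) (Y := Fin n → ℝ))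
  have p1 := h.continuous_pairing.comp (continuous_fst.prodMk (hA.prodMk hG))
  have p2 := h.continuous_pairing.comp (continuous_fst.prodMk (continuous_snd.prodMk hG))
  have p3 := h.continuous_pairing.comp (continuous_fst.prodMk (continuous_snd.prodMk hA))
  exact (((hf.comp continuous_fst).add p1).mul h.continuous_conorm).continuousAt.sub
      ((p2.mul p3).continuousAt.div h.continuous_conorm.continuousAt (h.conorm_pos y hξ).ne')

lemma measurable_varG_cd (h : IsCH G D) (hf : Continuous f) (ha : Continuous a) (hg : Continuous g)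
    {u : (Fin n → ℝ) → ℝ} (hu : ContDiff ℝ 1 u) : Measurable fun y => varG G f a g y (cd u y) := by
  have hu' := continuous_cd hu
  have p1 := h.continuous_pairing.comp (continuous_id.prodMk (ha.prodMk hg))
  have p2 := h.continuous_pairing.comp (continuous_id.prodMk (hu'.prodMk hg))
  have p3 := h.continuous_pairing.comp (continuous_id.prodMk (hu'.prodMk ha))
  exact ((hf.add p1).mul (h.continuous_conorm_cd hu)).measurable.sub
      ((p2.mul p3).measurable.div (h.continuous_conorm_cd hu).measurable)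

lemma exists_abs_varG_le (h : IsCH G D) (hf : Continuous f) (ha : Continuous a) (hg : Continuous g)
    {K : Set (Fin n → ℝ)} (hK : IsCompact K) :
    ∃ C : ℝ, 0 < C ∧ ∀ y ∈ K, ∀ ξ, |varG G f a g y ξ| ≤ C * conorm G y ξ := by
  obtain ⟨C, hC⟩ := hK.bddAbove_image
    (f := fun y => |f y| + 2 * (conorm G y (a y) * conorm G y (g y)))
    ((hf.abs.add (continuous_const.mul
      ((h.continuous_conorm.comp (continuous_id.prodMk ha)).mul
        (h.continuous_conorm.comp (continuous_id.prodMk hg))))).continuousOn)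
  refine ⟨max C 1, lt_max_of_lt_right one_pos, fun y hy ξ => ?_⟩
  set k := conorm G y ξ
  set A := conorm G y (a y)
  set B := conorm G y (g y)
  have hk : 0 ≤ k := conorm_nonneg y ξ
  have hA : 0 ≤ A := conorm_nonneg _ _
  have hB : 0 ≤ B := conorm_nonneg _ _
  have h1 : |pairing G y ξ (g y) * pairing G y ξ (a y) / k| ≤ A * B * k := by
    rcases eq_or_lt_of_le hk with h0 | h0
    · simp [← h0]
    · rw [abs_div, abs_of_pos h0, div_le_iff₀ h0, abs_mul]
      calc _ ≤ k * B * (k * A) := mul_le_mul (h.abs_pairing_le y _ _) (h.abs_pairing_le y _ _)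
            (abs_nonneg _) (mul_nonneg hk hB)
        _ = _ := by ring
  have h2 : |f y + pairing G y (a y) (g y)| ≤ |f y| + A * B :=
    (abs_add_le _ _).trans (add_le_add le_rfl (h.abs_pairing_le y _ _))
  have h3 : |f y| + 2 * (A * B) ≤ max C 1 := (hC ⟨y, hy, rfl⟩).trans (le_max_left _ _)
  rw [varG]
  refine (abs_sub _ _).trans ?_
  rw [abs_mul, abs_of_nonneg hk]
  linarith [mul_le_mul_of_nonneg_right h2 hk, mul_le_mul_of_nonneg_right h3 hk]

end Vale.Agent.P219.CH.Bend
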